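import Vale.Agent.P362.Base

/-! # P362: Adv (see notes/P362.md) -/

namespace Vale.Agent.P362

open scoped BigOperators Matrix

namespace AdvAux

variable {n m : ℕ}

/-- real part of the inner product -/
noncomputable def ip (v w : QB n m → ℂ) : ℝ := ∑ p, ((starRingEnd ℂ) (v p) * w p).re

theorem ip_unit (U : Matrix.unitaryGroup (QB n m) ℂ) (v w : QB n m → ℂ) :
    ip ((U : Matrix (QB n m) (QB n m) ℂ) *ᵥ v) ((U : Matrix (QB n m) (QB n m) ℂ) *ᵥ w) =
      ip v w := by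
  have e : ∀ v w : QB n m → ℂ, ip v w = (star v ⬝ᵥ w).re := fun v w => by
    simp [ip, dotProduct]
  rw [e, e, Matrix.star_mulVec, Matrix.dotProduct_mulVec, Matrix.vecMul_vecMul,
    ← Matrix.star_eq_conjTranspose, Matrix.mem_unitaryGroup_iff'.1 U.2, Matrix.vecMul_one]

theorem ip_self (v : QB n m → ℂ) : ip v v = ∑ p, ‖v p‖ ^ 2 :=
  Finset.sum_congr rfl fun p _ => by
    rw [Complex.conj_mul', ← Complex.ofReal_pow, Complex.ofReal_re]

/-- the action of a query on the basis -/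
def fl (x : Fin n → Bool) : QB n m ≃ QB n m :=
  Function.Involutive.toPerm (fun p => (p.1, xor p.2.1 (x p.1), p.2.2)) fun p => by simp

theorem fl_apply (x : Fin n → Bool) (p : QB n m) : fl x p = (p.1, xor p.2.1 (x p.1), p.2.2) := rfl

theorem oracle_mulVec (x : Fin n → Bool) (v : QB n m → ℂ) (p : QB n m) :
    (oracle x *ᵥ v) p = v (fl x p) := by
  simp only [Matrix.mulVec, dotProduct, oracle, Matrix.of_apply, ite_mul, one_mul, zero_mul]
  rw [Finset.sum_eq_single (fl x p)]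
  · simp [fl_apply]
  · intro q _ hq
    refine if_neg fun e => hq ?_
    simp [e, fl_apply]
  · simp

theorem re_le (a b : ℂ) : ((starRingEnd ℂ) a * b).re ≤ ‖a‖ * ‖b‖ := by
  simpa using Complex.re_le_norm ((starRingEnd ℂ) a * b)

theorem neg_re_le (a b : ℂ) : -((starRingEnd ℂ) a * b).re ≤ ‖a‖ * ‖b‖ := by
  simpa using re_le a (-b)

theorem ip_oracle (x y : Fin n → Bool) (v w : QB n m → ℂ) {s t : ℝ} (hs : 0 ≤ s) (ht : 0 ≤ t) :
    s * t * ip v w ≤ s * t * ip (oracle x *ᵥ v) (oracle y *ᵥ w) +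
      (∑ p, if x p.1 ≠ y p.1 then s ^ 2 * ‖v p‖ ^ 2 else 0) +
      ∑ p, if x p.1 ≠ y p.1 then t ^ 2 * ‖w p‖ ^ 2 else 0 := by
  have e1 : (∑ p : QB n m, if x p.1 ≠ y p.1 then s ^ 2 * ‖v p‖ ^ 2 else 0) =
      ∑ p : QB n m, if x p.1 ≠ y p.1 then s ^ 2 * ‖v (fl x p)‖ ^ 2 else 0 :=
    (Equiv.sum_comp (fl x) _).symm
  have e2 : (∑ p : QB n m, if x p.1 ≠ y p.1 then t ^ 2 * ‖w p‖ ^ 2 else 0) =
      ∑ p : QB n m, if x p.1 ≠ y p.1 then
        (t ^ 2 * ‖w (fl x p)‖ ^ 2 + t ^ 2 * ‖w (fl y p)‖ ^ 2) / 2 else 0 := by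
    have a1 : (∑ p : QB n m, if x p.1 ≠ y p.1 then t ^ 2 * ‖w p‖ ^ 2 else 0) =
      ∑ p : QB n m, if x p.1 ≠ y p.1 then t ^ 2 * ‖w (fl x p)‖ ^ 2 else 0 :=
      (Equiv.sum_comp (fl x) _).symm
    have a2 : (∑ p : QB n m, if x p.1 ≠ y p.1 then t ^ 2 * ‖w p‖ ^ 2 else 0) =
      ∑ p : QB n m, if x p.1 ≠ y p.1 then t ^ 2 * ‖w (fl y p)‖ ^ 2 else 0 :=
      (Equiv.sum_comp (fl y) _).symm
    rw [← add_halves (∑ p : QB n m, if x p.1 ≠ y p.1 then t ^ 2 * ‖w p‖ ^ 2 else 0)]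
    nth_rewrite 2 [a2]
    rw [a1, ← add_div, ← Finset.sum_add_distrib, Finset.sum_div]
    exact Finset.sum_congr rfl fun p _ => by split_ifs <;> simp
  rw [e1, e2, ip, ← Equiv.sum_comp (fl x), ip, Finset.mul_sum, Finset.mul_sum,
    ← Finset.sum_add_distrib, ← Finset.sum_add_distrib]
  refine Finset.sum_le_sum fun p _ => ?_
  rw [oracle_mulVec, oracle_mulVec]
  split_ifs with h
  · have h1 := mul_le_mul_of_nonneg_left (re_le (v (fl x p)) (w (fl x p))) (mul_nonneg hs ht)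
    have h2 := mul_le_mul_of_nonneg_left (neg_re_le (v (fl x p)) (w (fl y p))) (mul_nonneg hs ht)
    nlinarith [sq_nonneg (s * ‖v (fl x p)‖ - t * ‖w (fl x p)‖),
      sq_nonneg (s * ‖v (fl x p)‖ - t * ‖w (fl y p)‖)]
  · rw [fl_apply x, fl_apply y, not_not.1 h]
    simp

theorem norm_state (A : QAlg n) (x : Fin n → Bool) (t : ℕ) : ∑ p, ‖A.state x t p‖ ^ 2 = 1 := by
  induction t with
  | zero =>
    rw [← ip_self, QAlg.state, ip_unit, ip_self, Finset.sum_eq_single A.init] <;>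
      simp +contextual
  | succ t ih =>
    rw [← ip_self, QAlg.state, ip_unit, ip_self, ← ih, ← Equiv.sum_comp (fl x)
      fun p => ‖A.state x t p‖ ^ 2]
    simp only [oracle_mulVec]

theorem ip_final (A : QAlg n) (T : ℕ) {x y : Fin n → Bool} {b b' : Bool} (hb : b ≠ b')
    (hx : 2 / 3 ≤ A.prob T x b) (hy : 2 / 3 ≤ A.prob T y b') :
    ip (A.state x T) (A.state y T) ≤ 17 / 18 := by
  have h : ip (A.state x T) (A.state y T) ≤ 5 / 7 * ∑ p, ‖A.state x T p‖ ^ 2 +
      5 / 7 * ∑ p, ‖A.state y T p‖ ^ 2 - 51 / 140 * A.prob T x b - 51 / 140 * A.prob T y b' := by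
    simp only [ip, QAlg.prob, Finset.mul_sum, ← Finset.sum_add_distrib, ← Finset.sum_sub_distrib]
    refine Finset.sum_le_sum fun p _ => (re_le _ _).trans ?_
    by_cases h1 : A.out p = b
    · rw [if_pos h1, if_neg (h1 ▸ hb)]
      nlinarith [sq_nonneg (7 * ‖A.state x T p‖ - 10 * ‖A.state y T p‖)]
    · rw [if_neg h1, if_pos (by revert h1 hb; cases A.out p <;> cases b <;> cases b' <;> simp)]
      nlinarith [sq_nonneg (10 * ‖A.state x T p‖ - 7 * ‖A.state y T p‖)]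
  rw [norm_state, norm_state] at h
  linarith

end AdvAux

open AdvAux

open Classical in
/-- weighted adversary bound, matching case -/
theorem adversary {n T : ℕ} {f : (Fin n → Bool) → Bool} (h : QComputes T f)
    (Γ : (Fin n → Bool) → (Fin n → Bool) → Prop) (hs : ∀ x y, Γ x y → Γ y x)
    (hf : ∀ x y, Γ x y → f x ≠ f y)
    (hm : ∀ x i y y', Γ x y → Γ x y' → x i ≠ y i → x i ≠ y' i → y = y')
    (u : (Fin n → Bool) → ℝ) (hu : ∀ x, 0 ≤ u x) :
    ∑ x, ∑ y, (if Γ x y then u x * u y else 0) ≤ 36 * T * ∑ x, u x ^ 2 := by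
  obtain ⟨A, hA⟩ := h
  set W : ℕ → ℝ := fun t =>
    ∑ x, ∑ y, if Γ x y then u x * u y * ip (A.state x t) (A.state y t) else 0 with hW
  have half : ∀ t, (∑ x, ∑ y, if Γ x y then
      ∑ p : QB n A.m, (if x p.1 ≠ y p.1 then u x ^ 2 * ‖A.state x t p‖ ^ 2 else 0) else 0) ≤
      ∑ x, u x ^ 2 := by
    intro t
    refine Finset.sum_le_sum fun x _ => ?_
    refine le_trans ?_ (le_of_eq (show ∑ p, u x ^ 2 * ‖A.state x t p‖ ^ 2 = _ by
      rw [← Finset.mul_sum, norm_state, mul_one]))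
    refine le_trans (le_of_eq (Finset.sum_congr rfl (g := fun y => ∑ p : QB n A.m,
      if Γ x y ∧ x p.1 ≠ y p.1 then u x ^ 2 * ‖A.state x t p‖ ^ 2 else 0) fun y _ => ?_)) ?_
    · by_cases hxy : Γ x y <;> simp [hxy]
    rw [Finset.sum_comm]
    refine Finset.sum_le_sum fun p _ => ?_
    rw [← Finset.sum_filter, Finset.sum_const, nsmul_eq_mul]
    refine mul_le_of_le_one_left (by positivity) ?_
    refine Nat.cast_le_one.2 (Finset.card_le_one.2 fun y hy y' hy' => ?_)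
    exact hm x p.1 y y' (Finset.mem_filter.1 hy).2.1 (Finset.mem_filter.1 hy').2.1
      (Finset.mem_filter.1 hy).2.2 (Finset.mem_filter.1 hy').2.2
  have step : ∀ t, W t ≤ W (t + 1) + 2 * ∑ x, u x ^ 2 := by
    intro t
    have h1 := half t
    have h2 : (∑ x, ∑ y, if Γ x y then
      ∑ p : QB n A.m, (if x p.1 ≠ y p.1 then u y ^ 2 * ‖A.state y t p‖ ^ 2 else 0) else 0) ≤
      ∑ x, u x ^ 2 := by
      rw [Finset.sum_comm]
      refine le_trans (le_of_eq ?_) h1
      refine Finset.sum_congr rfl fun x _ => Finset.sum_congr rfl fun y _ => ?_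
      simp only [show Γ y x ↔ Γ x y from ⟨hs _ _, hs _ _⟩, ne_comm]
    rw [two_mul, ← add_assoc]
    refine le_trans ?_ (add_le_add (add_le_add le_rfl h1) h2)
    simp only [hW, ← Finset.sum_add_distrib]
    refine Finset.sum_le_sum fun x _ => Finset.sum_le_sum fun y _ => ?_
    split_ifs
    · rw [QAlg.state, QAlg.state, ip_unit]
      exact ip_oracle x y _ _ (hu x) (hu y)
    · simp
  have tel : ∀ t : ℕ, W 0 ≤ W t + 2 * t * ∑ x, u x ^ 2 := by
    intro t
    induction t with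
    | zero => simp
    | succ t ih => push_cast; linarith [step t]
  have w0 : W 0 = ∑ x, ∑ y, (if Γ x y then u x * u y else 0) := by
    refine Finset.sum_congr rfl fun x _ => Finset.sum_congr rfl fun y _ => ?_
    rw [show A.state y 0 = A.state x 0 from rfl, ip_self, norm_state, mul_one]
  have wT : W T ≤ 17 / 18 * ∑ x, ∑ y, (if Γ x y then u x * u y else 0) := by
    simp only [hW, Finset.mul_sum]
    refine Finset.sum_le_sum fun x _ => Finset.sum_le_sum fun y _ => ?_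
    split_ifs with hxy
    · rw [mul_comm (17 / 18 : ℝ)]
      exact mul_le_mul_of_nonneg_left (ip_final A T (hf x y hxy) (hA x) (hA y))
        (mul_nonneg (hu x) (hu y))
    · simp
  linarith [tel T]

end Vale.Agent.P362
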