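import Vale.Agent.P362.Defs

/-! # P362: internal definitions (see notes/P362.md) -/

namespace Vale.Agent.P362

open scoped BigOperators Matrix
open MeasureTheory ProbabilityTheory

/-- `false ↦ 1`, `true ↦ -1`. -/
def sg (b : Bool) : ℝ := if b then -1 else 1
/-- integer version of `sg` -/
def sgz (b : Bool) : ℤ := if b then -1 else 1
/-- `false ↦ 0`, `true ↦ 1`. -/
def ind (b : Bool) : ℝ := if b then 1 else 0

/-! ## Multilinear extensions -/

section ML
variable {ι : Type} [Fintype ι] [DecidableEq ι]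

/-- `∂_J` of the product weight `∏ (1 + z_i w_i)/2` -/
noncomputable def wt (z : ι → ℝ) (J : Finset ι) (w : ι → Bool) : ℝ :=
  ∏ i, if i ∈ J then sg (w i) / 2 else (1 + z i * sg (w i)) / 2

/-- `∂_J` of the multilinear extension of `F`, at the point `z` -/
noncomputable def Dext (J : Finset ι) (F : (ι → Bool) → ℝ) (z : ι → ℝ) : ℝ :=
  ∑ w, F w * wt z J w

end ML

/-! ## Quantum framework (real matrices, phase queries) -/

section QF
variable {ι : Type}

/-- phase query: basis state `β` picks up the sign `sg (x i)` if `lab β = some i` -/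
def ph {B : Type} [DecidableEq B] (lab : B → Option ι) (x : ι → Bool) : Matrix B B ℝ :=
  Matrix.diagonal fun β => (lab β).elim 1 (fun i => sg (x i))

/-- families of real orthogonal matrices implementable with exactly `T` phase queries -/
inductive Impl {B : Type} [Fintype B] [DecidableEq B] :
    ℕ → ((ι → Bool) → Matrix B B ℝ) → Prop
  | base (U : Matrix B B ℝ) (hU : Uᵀ * U = 1) : Impl 0 (fun _ => U)
  | step {T : ℕ} {V : (ι → Bool) → Matrix B B ℝ} (h : Impl T V) (lab : B → Option ι)
      (U : Matrix B B ℝ) (hU : Uᵀ * U = 1) : Impl (T + 1) (fun x => U * ph lab x * V x)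

/-- `E x g` is the expectation of `g` under the outcome distribution (on `Ω`) of a `T`-query
quantum procedure run on input `x`. -/
def Rl {Ω : Type} (T : ℕ) (E : (ι → Bool) → (Ω → ℝ) → ℝ) : Prop :=
  ∃ (B : Type) (_ : Fintype B) (_ : DecidableEq B) (b0 : B) (out : B → Ω)
    (V : (ι → Bool) → Matrix B B ℝ), Impl T V ∧
      ∀ x g, E x g = ∑ β, (V x β b0) ^ 2 * g (out β)

/-- a `T`-query quantum procedure with Boolean outcome, `true` with probability `p x` -/
def RlB (T : ℕ) (p : (ι → Bool) → ℝ) : Prop :=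
  Rl T (fun x (g : Bool → ℝ) => p x * g true + (1 - p x) * g false)

/-- a `T`-query quantum procedure that outputs `h x` with certainty -/
def Det {Ω : Type} (T : ℕ) (h : (ι → Bool) → Ω) : Prop :=
  Rl T (fun x (g : Ω → ℝ) => g (h x))

end QF

/-! ## Forrelation amplitudes -/

abbrev X (d : ℕ) : Type := Fin d → Bool

/-- Walsh–Hadamard sign `(-1)^{a·b}` -/
def chi {d : ℕ} (a b : X d) : ℤ := ∏ i, if (a i && b i) = true then -1 else 1

/-- `v_0 = 1`, `v_{j+1} = W (w_j ⊙ v_j)` with `W` the unnormalised Walsh–Hadamard transform -/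
def vv {m d : ℕ} (w : Fin m × X d → Bool) : ℕ → X d → ℤ
  | 0 => fun _ => 1
  | j + 1 => fun b => if h : j < m then ∑ c, chi b c * (sgz (w (⟨j, h⟩, c)) * vv w j c) else 0

/-- the amplitude `⟨a| H D_{m-1} H ⋯ D_0 H |0⟩` -/
noncomputable def phi {m d : ℕ} (w : Fin m × X d → Bool) (a : X d) : ℝ :=
  (vv w m a : ℝ) / (Real.sqrt (2 ^ d)) ^ (m + 1)

/-! ## The function -/

/-- locations inside the block of one candidate: column / string / cell at an address -/
abbrev Loc (C S Ce : Type) : Type := C ⊕ S ⊕ (C × Ce)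

/-- contents of a cell: a pointer (`d` bits) for every other candidate, and an FFT transcript -/
abbrev Cell (k d B : ℕ) : Type := (X d × Fin d) ⊕ (Fin (k + 1) × Fin (d + 1) × X d × Fin B)

abbrev Idx (k d B : ℕ) : Type := X d × Loc (X d) (Fin (k + 1) × X d) (Cell k d B)

/-- overwrite cell `a` of candidate `c` -/
def setCell {C S Ce : Type} [DecidableEq C] (x : C × Loc C S Ce → Bool) (c a : C)
    (cell : Ce → Bool) : C × Loc C S Ce → Bool
  | (c', .inr (.inr (a', e))) => if c' = c ∧ a' = a then cell e else x (c', .inr (.inr (a', e)))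
  | p => x p

/-- word length of transcript entries -/
def Bw (k d : ℕ) : ℕ := d * (k + 1) + 2

/-- the amplitude threshold -/
noncomputable def th (k d : ℕ) : ℝ := (1 / (48 * (d : ℝ))) ^ k / 4

section Fn
variable {k d B : ℕ} (dec : (Fin B → Bool) → ℤ) (θ : ℝ) (x : Idx k d B → Bool)

/-- the string of candidate `c` -/
def str (c : X d) : Fin (k + 1) × X d → Bool := fun p => x (c, .inr (.inl p))

/-- the pointer into column `c'` stored in cell `a` of candidate `c` -/
def ptr (c a c' : X d) : X d := fun e => x (c, .inr (.inr (a, .inl (c', e))))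

/-- the transcript value `(j, l, b)` stored in cell `a` of candidate `c` -/
def tv (c a : X d) (j : Fin (k + 1)) (l : Fin (d + 1)) (b : X d) : ℤ :=
  dec fun e => x (c, .inr (.inr (a, .inr (j, l, b, e))))

/-- the local check number `b` for candidate `c` and address `a` -/
def Chk (c a b : X d) : Prop :=
  x (c, .inl b) = true ∧
  (b ≠ c → x (b, .inl (ptr x c a b)) = false) ∧
  (∀ j : Fin (k + 1), tv dec x c a j 0 b = sgz (str x c (j, b)) *
      (Fin.cases 1 (fun j' : Fin k => tv dec x c a j'.castSucc (Fin.last d) b) j : ℤ)) ∧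
  (∀ (j : Fin (k + 1)) (l : Fin d), tv dec x c a j l.succ b =
      tv dec x c a j l.castSucc (Function.update b l false) +
        sgz (b l) * tv dec x c a j l.castSucc (Function.update b l true)) ∧
  θ * (Real.sqrt (2 ^ d)) ^ (k + 2) ≤ (tv dec x c a (Fin.last k) (Fin.last d) a : ℝ)

/-- candidate `c` is genuine with address `a` -/
def Valid (c a : X d) : Prop := ∀ b, Chk dec θ x c a b

open Classical in
/-- the separating total function -/
noncomputable def fn : Bool := decide (∃ c a, Valid dec θ x c a)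

end Fn

/-! ## The Gaussian chain -/

section Gauss
variable {Y : Type} [Fintype Y] [DecidableEq Y]

/-- standard Gaussian vector -/
noncomputable def gm (Y : Type) [Fintype Y] : Measure (Y → ℝ) :=
  Measure.pi fun _ => gaussianReal 0 1

instance : IsProbabilityMeasure (gm Y) := by unfold gm; infer_instance

/-- `y = Uᵀ g` -/
def rot (U : Matrix Y Y ℝ) (g : Y → ℝ) (b : Y) : ℝ := ∑ a, U a b * g a

/-- `E [∏_{a ∈ S} g_a ∏_{b ∈ T} y_b]` -/
noncomputable def pm (U : Matrix Y Y ℝ) (S T : Finset Y) : ℝ :=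
  ∫ g, (∏ a ∈ S, g a) * ∏ b ∈ T, rot U g b ∂gm Y

/-- `max 1 (2|u|)` -/
noncomputable def mx (u : ℝ) : ℝ := max 1 (2 * |u|)

/-- `k` independent standard Gaussian vectors -/
noncomputable def gms (k : ℕ) (Y : Type) [Fintype Y] : Measure (Fin k → Y → ℝ) :=
  Measure.pi fun _ => gm Y

instance (k : ℕ) : IsProbabilityMeasure (gms k Y) := by unfold gms; infer_instance

/-- the chain point: block `j` is `y^{(j-1)} ⊙ x^{(j)}` with `x = σ g`, `y = σ Uᵀ g`
(first block `x^{(0)}`, last block `y^{(k-1)}`) -/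
noncomputable def zz {k : ℕ} (U : Fin k → Matrix Y Y ℝ) (σ : ℝ) (ω : Fin k → Y → ℝ)
    (p : Fin (k + 1) × Y) : ℝ :=
  (Fin.cases 1 (fun j : Fin k => σ * rot (U j) (ω j) p.2) p.1 : ℝ) *
    (Fin.lastCases 1 (fun j : Fin k => σ * ω j p.2) p.1 : ℝ)

/-- the signed measure on strings -/
noncomputable def PP {k : ℕ} (U : Fin k → Matrix Y Y ℝ) (σ : ℝ)
    (w : Fin (k + 1) × Y → Bool) : ℝ :=
  ∫ ω, wt (zz U σ ω) ∅ w ∂gms k Y

/-- chain coefficient `∏_j U_j(a_j, a_{j+1})` -/
def hh {k : ℕ} (U : Fin k → Matrix Y Y ℝ) (a : Fin (k + 1) → Y) : ℝ :=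
  ∏ j : Fin k, U j (a j.castSucc) (a j.succ)

/-- the graph `{(j, a_j)}` -/
def gr {k : ℕ} (a : Fin (k + 1) → Y) : Finset (Fin (k + 1) × Y) :=
  Finset.univ.image fun j => (j, a j)

end Gauss

/-! ## For the upper bound `D = O(Q^4)` -/

/-- flip the bits in `s` -/
def flipS {n : ℕ} (y : Fin n → Bool) (s : Finset (Fin n)) : Fin n → Bool :=
  fun i => if i ∈ s then !(y i) else y i

/-- alternating sum of `f` over the subcube through `y` with free coordinates `M` -/
def alt {n : ℕ} (f : (Fin n → Bool) → Bool) (M : Finset (Fin n)) (y : Fin n → Bool) : ℝ :=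
  ∑ s ∈ M.powerset, (-1) ^ s.card * ind (f (flipS y s))

/-- sensitive edges of the hypercube -/
def Sens {n : ℕ} (f : (Fin n → Bool) → Bool) (x y : Fin n → Bool) : Prop :=
  f x ≠ f y ∧ ∃ i, y = Function.update x i (!(x i))

end Vale.Agent.P362
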