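import Vale.Agent.P362.Yao

/-! # P362: DTub (see notes/P362.md) -/

namespace Vale.Agent.P362

open scoped BigOperators Matrix

namespace DTubAux

variable {n : ℕ} (f : (Fin n → Bool) → Bool)

theorem flipS_insert (y : Fin n → Bool) {i : Fin n} {s : Finset (Fin n)} (h : i ∉ s) :
    flipS y (insert i s) = flipS (flipS y {i}) s := by
  funext j
  by_cases hj : j = i
  · simp [flipS, hj, h]
  · simp [flipS, hj]

theorem flipS_flipS (y : Fin n → Bool) (s : Finset (Fin n)) : flipS (flipS y s) s = y := by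
  funext j
  by_cases hj : j ∈ s <;> simp [flipS, hj]

theorem alt_insert {M : Finset (Fin n)} {i : Fin n} (h : i ∉ M) (y : Fin n → Bool) :
    alt f (insert i M) y = alt f M y - alt f M (flipS y {i}) := by
  rw [alt, Finset.sum_powerset_insert h, alt, alt, sub_eq_add_neg, ← Finset.sum_neg_distrib]
  congr 1
  refine Finset.sum_congr rfl fun s hs => ?_
  have hi : i ∉ s := fun e => h (Finset.mem_powerset.1 hs e)
  rw [Finset.card_insert_of_notMem hi, flipS_insert y hi, pow_succ]
  ring

theorem alt_flip {M : Finset (Fin n)} {i : Fin n} (h : i ∈ M) (y : Fin n → Bool) :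
    alt f M (flipS y {i}) = -alt f M y := by
  rw [← Finset.insert_erase h, alt_insert f (Finset.notMem_erase _ _),
    alt_insert f (Finset.notMem_erase _ _), flipS_flipS, neg_sub]

theorem spread {S : Finset (Fin n)} {P : (Fin n → Bool) → Prop}
    (h : ∀ y i, i ∉ S → P y → P (flipS y {i})) (D : Finset (Fin n)) (hD : Disjoint D S) :
    ∀ y, P y → P (flipS y D) := by
  induction D using Finset.induction_on with
  | empty => intro y hy; simpa [show flipS y ∅ = y from funext fun _ => by simp [flipS]] using hy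
  | insert i D hi ih =>
    intro y hy
    rw [Finset.disjoint_insert_left] at hD
    rw [flipS_insert y hi]
    exact ih hD.2 _ (h y i hD.1 hy)

theorem exists_block {M : Finset (Fin n)} (hM : M.Nonempty) {x : Fin n → Bool}
    (h : alt f M x ≠ 0) : ∃ s ⊆ M, f (flipS x s) ≠ f x := by
  by_contra hc
  push Not at hc
  refine h ?_
  have e : ∑ s ∈ M.powerset, (-1 : ℝ) ^ s.card = 0 := by
    exact_mod_cast Finset.sum_powerset_neg_one_pow_card_of_nonempty hM
  rw [alt, Finset.sum_congr rfl fun s hs => by rw [hc s (Finset.mem_powerset.1 hs)],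
    ← Finset.sum_mul, e, zero_mul]

theorem main {dg : ℕ} (hdeg : ∀ M y, alt f M y ≠ 0 → M.card ≤ dg) (r : ℕ) :
    ∀ (S : Finset (Fin n)) (z : Fin n → Bool),
      (∀ x, (∀ i ∈ S, x i = z i) → ∀ 𝓑 : Finset (Finset (Fin n)),
        (∀ s ∈ 𝓑, ∀ s' ∈ 𝓑, s ≠ s' → Disjoint s s') →
        (∀ s ∈ 𝓑, Disjoint s S ∧ f (flipS x s) ≠ f x) → 𝓑.card ≤ r) →
      ∃ t : DT (Fin n), t.depth ≤ r * dg ∧ ∀ x, (∀ i ∈ S, x i = z i) → t.eval x = f x := by
  classical
  induction r using Nat.strong_induction_on with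
  | _ r ih =>
  intro S z hb
  have a0 : ∀ x, alt f ∅ x = ind (f x) := fun x => by
    simp [alt, show flipS x ∅ = x from funext fun _ => by simp [flipS]]
  set 𝓜 := Finset.univ.filter fun M : Finset (Fin n) => Disjoint M S ∧
    ∃ y, (∀ i ∈ S, y i = z i) ∧ alt f M y ≠ 0 with h𝓜
  rcases 𝓜.eq_empty_or_nonempty with he | hne
  · refine ⟨.leaf false, Nat.zero_le _, fun x hx => ?_⟩
    by_contra hc
    have : (∅ : Finset (Fin n)) ∈ 𝓜 := Finset.mem_filter.2 ⟨Finset.mem_univ _, by simp, x, hx, by
      rw [a0]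
      cases h : f x
      · exact absurd h.symm hc
      · simp [ind]⟩
    rw [he] at this
    exact absurd this (Finset.notMem_empty _)
  obtain ⟨M, hM, hmax⟩ := 𝓜.exists_max_image Finset.card hne
  obtain ⟨hMS, y, hy, hy'⟩ := (Finset.mem_filter.1 hM).2
  have all : ∀ x, (∀ i ∈ S, x i = z i) → alt f M x ≠ 0 := by
    intro x hx
    have h1 := spread (S := S) (P := fun y => (∀ i ∈ S, y i = z i) ∧ alt f M y ≠ 0) ?_
      (Finset.univ.filter fun i => x i ≠ y i) ?_ y ⟨hy, hy'⟩
    · have e : flipS y (Finset.univ.filter fun i => x i ≠ y i) = x := by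
        funext i
        simp only [flipS, Finset.mem_filter, Finset.mem_univ, true_and]
        cases x i <;> cases y i <;> simp
      exact e ▸ h1.2
    · rintro w i hi ⟨h1, h2⟩
      refine ⟨fun j hj => ?_, ?_⟩
      · rw [← h1 j hj, flipS, if_neg (by simpa using fun e : j = i => hi (e ▸ hj))]
      · by_cases hiM : i ∈ M
        · rw [alt_flip f hiM]; exact neg_ne_zero.2 h2
        · have h3 : alt f (insert i M) w = 0 := by
            by_contra hc
            have := hmax (insert i M) (Finset.mem_filter.2 ⟨Finset.mem_univ _,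
              Finset.disjoint_insert_left.2 ⟨hi, hMS⟩, w, h1, hc⟩)
            rw [Finset.card_insert_of_notMem hiM] at this
            omega
          rw [alt_insert f hiM, sub_eq_zero] at h3
          exact h3 ▸ h2
    · rw [Finset.disjoint_left]
      intro i hi hS
      exact (Finset.mem_filter.1 hi).2 ((hx i hS).trans (hy i hS).symm)
  rcases M.eq_empty_or_nonempty with rfl | hMne
  · refine ⟨.leaf true, Nat.zero_le _, fun x hx => ?_⟩
    have := all x hx
    rw [a0] at this
    cases h : f x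
    · simp [h, ind] at this
    · rfl
  obtain ⟨r, rfl⟩ : ∃ r', r = r' + 1 := by
    obtain ⟨s, hs, hs'⟩ := exists_block f hMne (all z fun _ _ => rfl)
    have := hb z (fun _ _ => rfl) {s} (by simp)
      (by simpa using ⟨Finset.disjoint_of_subset_left hs hMS, hs'⟩)
    exact ⟨r - 1, by simp at this; omega⟩
  have step : ∀ z' : Fin n → Bool, ∃ t : DT (Fin n), t.depth ≤ r * dg ∧
      ((∀ i ∈ S, z' i = z i) → ∀ x, (∀ i ∈ S ∪ M, x i = z' i) → t.eval x = f x) := by
    intro z'
    by_cases hz : ∀ i ∈ S, z' i = z i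
    swap
    · exact ⟨.leaf false, Nat.zero_le _, fun h => absurd h hz⟩
    obtain ⟨t, h1, h2⟩ := ih r (Nat.lt_succ_self r) (S ∪ M) z' fun x hx 𝓑 hd hs => by
      have hx' : ∀ i ∈ S, x i = z i := fun i hi =>
        (hx i (Finset.mem_union_left _ hi)).trans (hz i hi)
      obtain ⟨s, hs1, hs2⟩ := exists_block f hMne (all x hx')
      have hd' : ∀ s' ∈ 𝓑, Disjoint s s' := fun s' h' => Finset.disjoint_of_subset_left hs1
        (Finset.disjoint_union_right.1 (hs s' h').1).2.symm
      have hn : s ∉ 𝓑 := fun h' => by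
        rw [Finset.disjoint_self_iff_empty s |>.1 (hd' s h')] at hs2
        exact hs2 (congrArg f (funext fun _ => by simp [flipS]))
      have := hb x hx' (insert s 𝓑) (fun a ha b hb hab => by
        rcases Finset.mem_insert.1 ha with rfl | ha' <;> rcases Finset.mem_insert.1 hb with rfl | hb'
        · exact absurd rfl hab
        · exact hd' _ hb'
        · exact (hd' _ ha').symm
        · exact hd a ha' b hb' hab) fun a ha => by
        rcases Finset.mem_insert.1 ha with rfl | ha'
        · exact ⟨Finset.disjoint_of_subset_left hs1 hMS, hs2⟩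
        · exact ⟨(Finset.disjoint_union_right.1 (hs a ha').1).1, (hs a ha').2⟩
      rw [Finset.card_insert_of_notMem hn] at this
      omega
    exact ⟨t, h1, fun _ => h2⟩
  choose cont hc1 hc2 using step
  obtain ⟨t, h1, h2⟩ := YaoAux.tree_list M.toList cont _ hc1 z
  refine ⟨t, ?_, fun x hx => ?_⟩
  · have := hdeg M y hy'
    rw [Finset.length_toList] at h1
    rw [add_mul, one_mul]
    omega
  · rw [h2]
    refine hc2 _ (fun i hi => ?_) x fun i hi => ?_
    · by_cases h : i ∈ M <;> simp [h, hx i hi]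
    · by_cases h : i ∈ M
      · simp [h]
      · simpa [h] using hx i ((Finset.mem_union.1 hi).resolve_right h)

end DTubAux

/-- `D(f) ≤ bs(f) · deg(f)` -/
theorem tree_of_bounds {n : ℕ} (f : (Fin n → Bool) → Bool) (b dg : ℕ)
    (hdeg : ∀ M y, alt f M y ≠ 0 → M.card ≤ dg)
    (hbs : ∀ (x : Fin n → Bool) (𝓑 : Finset (Finset (Fin n))),
      (∀ s ∈ 𝓑, ∀ s' ∈ 𝓑, s ≠ s' → Disjoint s s') → (∀ s ∈ 𝓑, f (flipS x s) ≠ f x) →
      𝓑.card ≤ b) :
    ∃ t : DT (Fin n), t.depth ≤ b * dg ∧ ∀ x, t.eval x = f x := by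
  obtain ⟨t, h1, h2⟩ := DTubAux.main f hdeg b ∅ (fun _ => false)
    fun x _ 𝓑 hd hs => hbs x 𝓑 hd fun s h => (hs s h).2
  exact ⟨t, h1, fun x => h2 x (by simp)⟩

end Vale.Agent.P362
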