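import Mathlib

/-!
# P362: randomized versus quantum query complexity of total Boolean functions

Definitions used in the statement.
-/

namespace Vale.Agent.P362

open scoped BigOperators ENNReal Matrix

/-- Deterministic decision trees querying input bits indexed by `ι`, with a Boolean output. -/
inductive DT (ι : Type) : Type
  | leaf (b : Bool) : DT ι
  | node (i : ι) (t0 t1 : DT ι) : DT ι

/-- Output of a decision tree on input `x`: at `node i t0 t1` query `x i`, continue with `t1` if
the bit is `1` (`true`) and with `t0` otherwise. -/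
def DT.eval {ι : Type} : DT ι → (ι → Bool) → Bool
  | .leaf b, _ => b
  | .node i t0 t1, x => if x i = true then t1.eval x else t0.eval x

/-- Depth of a decision tree: the worst-case number of queries. -/
def DT.depth {ι : Type} : DT ι → ℕ
  | .leaf _ => 0
  | .node _ t0 t1 => max t0.depth t1.depth + 1

/-- A randomized algorithm making at most `T` queries (worst case over inputs and internal
randomness) computes `f` with success probability at least `2/3` on every input: a probability
distribution over decision trees of depth at most `T`. -/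
def RComputes {n : ℕ} (T : ℕ) (f : (Fin n → Bool) → Bool) : Prop :=
  ∃ μ : PMF (DT (Fin n)), (∀ t ∈ μ.support, t.depth ≤ T) ∧
    ∀ x, (2 / 3 : ℝ≥0∞) ≤ μ.toOuterMeasure {t | t.eval x = f x}

/-- Bounded-error randomized query complexity `R(f)`. -/
noncomputable def R {n : ℕ} (f : (Fin n → Bool) → Bool) : ℕ := sInf {T | RComputes T f}

/-- Computational basis `|i, b, z⟩`: query index, answer bit, workspace of dimension `m`. -/
abbrev QB (n m : ℕ) : Type := Fin n × Bool × Fin m

/-- The query unitary `O_x |i, b, z⟩ = |i, b ⊕ x_i, z⟩`. -/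
def oracle {n m : ℕ} (x : Fin n → Bool) : Matrix (QB n m) (QB n m) ℂ :=
  Matrix.of fun p q => if p = (q.1, xor q.2.1 (x q.1), q.2.2) then 1 else 0

/-- A quantum query algorithm: workspace dimension `m`, initial basis state, input-independent
unitaries `U 0, U 1, …`, and the output bit read off from the measured basis state. -/
structure QAlg (n : ℕ) where
  m : ℕ
  init : QB n m
  U : ℕ → Matrix.unitaryGroup (QB n m) ℂ
  out : QB n m → Bool

/-- The state `U_t O_x U_{t-1} ⋯ O_x U_0 |init⟩` after `t` queries. -/
noncomputable def QAlg.state {n : ℕ} (A : QAlg n) (x : Fin n → Bool) : ℕ → (QB n A.m → ℂ)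
  | 0 => (A.U 0 : Matrix (QB n A.m) (QB n A.m) ℂ) *ᵥ Pi.single A.init 1
  | t + 1 => (A.U (t + 1) : Matrix (QB n A.m) (QB n A.m) ℂ) *ᵥ (oracle x *ᵥ A.state x t)

/-- Probability that measuring after `T` queries gives output `b`. -/
noncomputable def QAlg.prob {n : ℕ} (A : QAlg n) (T : ℕ) (x : Fin n → Bool) (b : Bool) : ℝ :=
  ∑ p, if A.out p = b then ‖A.state x T p‖ ^ 2 else 0

/-- Some quantum algorithm with `T` queries outputs `f x` with probability at least `2/3` on
every input `x`. -/
def QComputes {n : ℕ} (T : ℕ) (f : (Fin n → Bool) → Bool) : Prop :=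
  ∃ A : QAlg n, ∀ x, (2 / 3 : ℝ) ≤ A.prob T x (f x)

/-- Bounded-error quantum query complexity `Q(f)`. -/
noncomputable def Q {n : ℕ} (f : (Fin n → Bool) → Bool) : ℕ := sInf {T | QComputes T f}

/-- The admissible exponents: `α ≥ 0` with `R(f) ≤ C (1 + Q(f))^α` for all total `f`. -/
def Admissible : Set ℝ :=
  {α | 0 ≤ α ∧ ∃ C : ℝ, ∀ n : ℕ, 1 ≤ n → ∀ f : (Fin n → Bool) → Bool,
    (R f : ℝ) ≤ C * (1 + (Q f : ℝ)) ^ α}

/-- `α_tot`. -/
noncomputable def alphaTot : ℝ := sInf Admissible

end Vale.Agent.P362
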