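import Vale.Agent.P362.Base

/-! # P362: Huang (see notes/P362.md) -/

namespace Vale.Agent.P362

open scoped BigOperators Matrix

namespace Hux

variable {n : ℕ}

/-- flip one bit -/
def fl (x : Fin n → Bool) (i : Fin n) : Fin n → Bool := Function.update x i (!(x i))

theorem fl_self (x : Fin n → Bool) (i : Fin n) : fl x i i = !(x i) := by simp [fl]

theorem fl_ne (x : Fin n → Bool) {i j : Fin n} (h : j ≠ i) : fl x i j = x j := by simp [fl, h]

theorem fl_fl (x : Fin n → Bool) (i : Fin n) : fl (fl x i) i = x := by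
  funext j
  by_cases h : j = i
  · subst h
    simp [fl]
  · simp [fl, h]

theorem fl_comm (x : Fin n → Bool) {i j : Fin n} (h : i ≠ j) : fl (fl x i) j = fl (fl x j) i := by
  funext k
  by_cases a : k = i <;> by_cases b : k = j <;> simp_all [fl]

theorem fl_inj (x : Fin n → Bool) : Function.Injective (fl x) := by
  intro i j h
  by_contra hne
  have := congrFun h i
  rw [fl_self, fl_ne x hne] at this
  simp at this

theorem sg_not (b : Bool) : sg (!b) = -sg b := by cases b <;> simp [sg]

theorem sg_sq (b : Bool) : sg b * sg b = 1 := by cases b <;> simp [sg]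

theorem prod_fl (p : Fin n → Prop) [DecidablePred p] (x : Fin n → Bool) (k : Fin n) :
    (∏ j, if p j then sg (fl x k j) else 1) =
      (if p k then -1 else 1) * ∏ j, if p j then sg (x j) else 1 := by
  rw [← Finset.mul_prod_erase _ _ (Finset.mem_univ k),
    ← Finset.mul_prod_erase _ (fun j => if p j then sg (x j) else 1) (Finset.mem_univ k),
    Finset.prod_congr rfl (fun j hj => by rw [fl_ne x (Finset.ne_of_mem_erase hj)]), fl_self, sg_not]
  split_ifs <;> ring

theorem prod_sq (p : Fin n → Prop) [DecidablePred p] (x : Fin n → Bool) :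
    (∏ j, if p j then sg (x j) else 1) * (∏ j, if p j then sg (x j) else 1) = 1 := by
  rw [← Finset.prod_mul_distrib]
  refine Finset.prod_eq_one fun j _ => ?_
  split_ifs
  · exact sg_sq _
  · simp

/-- the signs of the signed adjacency operator -/
noncomputable def ep (x : Fin n → Bool) (i : Fin n) : ℝ := ∏ j, if j < i then sg (x j) else 1

theorem ep_fl (x : Fin n → Bool) (k i : Fin n) :
    ep (fl x k) i = (if k < i then -1 else 1) * ep x i := prod_fl (· < i) x k

theorem ep_sq (x : Fin n → Bool) (i : Fin n) : ep x i * ep x i = 1 := prod_sq (· < i) x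

theorem abs_ep (x : Fin n → Bool) (i : Fin n) : |ep x i| = 1 := by
  rcases mul_self_eq_one_iff.1 (ep_sq x i) with h | h <;> simp [h]

/-- the signed adjacency operator -/
noncomputable def BB (M : Finset (Fin n)) : ((Fin n → Bool) → ℝ) →ₗ[ℝ] ((Fin n → Bool) → ℝ) where
  toFun v x := ∑ i ∈ M, ep x i * v (fl x i)
  map_add' u v := by
    funext x
    simp [mul_add, Finset.sum_add_distrib]
  map_smul' c v := by
    funext x
    simp [Finset.mul_sum, mul_left_comm]

theorem BB_apply (M : Finset (Fin n)) (v : (Fin n → Bool) → ℝ) (x : Fin n → Bool) :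
    BB M v x = ∑ i ∈ M, ep x i * v (fl x i) := rfl

theorem BB_sq (M : Finset (Fin n)) (v : (Fin n → Bool) → ℝ) (x : Fin n → Bool) :
    BB M (BB M v) x = M.card * v x := by
  simp only [BB_apply, Finset.mul_sum]
  have h1 : ∀ i j : Fin n, ep x i * (ep (fl x i) j * v (fl (fl x i) j)) +
      ep x j * (ep (fl x j) i * v (fl (fl x j) i)) = if i = j then 2 * v x else 0 := by
    intro i j
    rw [ep_fl, ep_fl]
    rcases lt_trichotomy i j with h | h | h
    · rw [if_pos h, if_neg h.not_gt, if_neg h.ne, fl_comm x h.ne]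
      ring
    · subst h
      rw [if_neg (lt_irrefl _), if_pos rfl, fl_fl]
      linear_combination 2 * v x * ep_sq x i
    · rw [if_pos h, if_neg h.not_gt, if_neg h.ne', fl_comm x h.ne]
      ring
  have h2 : ∑ i ∈ M, ∑ j ∈ M, (ep x i * (ep (fl x i) j * v (fl (fl x i) j)) +
      ep x j * (ep (fl x j) i * v (fl (fl x j) i))) = M.card * (2 * v x) := by
    simp only [h1]
    rw [Finset.sum_congr rfl fun i hi => Finset.sum_ite_eq_of_mem M i (fun _ => 2 * v x) hi]
    simp
  simp only [Finset.sum_add_distrib] at h2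
  rw [Finset.sum_comm (f := fun i j => ep x j * (ep (fl x j) i * v (fl (fl x j) i)))] at h2
  linarith

theorem eigen (M : Finset (Fin n)) (i0 : Fin n) (h0 : i0 ∈ M) (Qs V : Finset (Fin n → Bool))
    (hQ : ∀ x, ∀ i ∈ M, fl x i ∈ Qs ↔ x ∈ Qs) (hV : V ⊆ Qs)
    (hc : (Qs.filter fun x => x i0 = false).card < V.card) :
    ∃ v : (Fin n → Bool) → ℝ, v ≠ 0 ∧ (∀ x, x ∉ V → v x = 0) ∧
      ∀ x, BB M v x = Real.sqrt M.card * v x := by
  classical
  let H0 := Qs.filter fun x => x i0 = false
  let ext : (V → ℝ) →ₗ[ℝ] ((Fin n → Bool) → ℝ) :=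
    { toFun := fun v x => if h : x ∈ V then v ⟨x, h⟩ else 0
      map_add' := fun u v => by
        funext x
        by_cases h : x ∈ V <;> simp [h]
      map_smul' := fun c v => by
        funext x
        by_cases h : x ∈ V <;> simp [h] }
  let res : ((Fin n → Bool) → ℝ) →ₗ[ℝ] (H0 → ℝ) := LinearMap.funLeft ℝ ℝ Subtype.val
  let L : ((Fin n → Bool) → ℝ) →ₗ[ℝ] ((Fin n → Bool) → ℝ) :=
    BB M - Real.sqrt M.card • LinearMap.id
  have hk : LinearMap.ker (res ∘ₗ L ∘ₗ ext) ≠ ⊥ := by
    apply LinearMap.ker_ne_bot_of_finrank_lt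
    simpa using hc
  obtain ⟨a, ha, ha0⟩ := Submodule.exists_mem_ne_zero_of_ne_bot hk
  have hsupp : ∀ x, x ∉ V → ext a x = 0 := fun x hx => dif_neg hx
  have hL : ∀ x, L (ext a) x = BB M (ext a) x - Real.sqrt M.card * ext a x := fun x => rfl
  have hout : ∀ x, x ∉ Qs → L (ext a) x = 0 := by
    intro x hx
    rw [hL, hsupp x fun h => hx (hV h), BB_apply, Finset.sum_eq_zero fun i hi => by
      rw [hsupp _ fun h => hx ((hQ x i hi).1 (hV h)), mul_zero]]
    simp
  have hH : ∀ x, x i0 = false → L (ext a) x = 0 := by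
    intro x hx
    by_cases hq : x ∈ Qs
    · exact congrFun ha ⟨x, Finset.mem_filter.2 ⟨hq, hx⟩⟩
    · exact hout x hq
  have hker : ∀ x, BB M (L (ext a)) x = -Real.sqrt M.card * L (ext a) x := by
    intro x
    have e : BB M (L (ext a)) = BB M (BB M (ext a)) - Real.sqrt M.card • BB M (ext a) := by
      simp [L]
    rw [e, hL, Pi.sub_apply, BB_sq, Pi.smul_apply, smul_eq_mul]
    have := Real.mul_self_sqrt (Nat.cast_nonneg M.card : (0 : ℝ) ≤ M.card)
    linear_combination (-ext a x) * this
  have hall : ∀ x, L (ext a) x = 0 := by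
    intro x
    by_cases hx : x i0 = false
    · exact hH x hx
    · have h1 : fl x i0 i0 = false := by
        rw [fl_self]
        simpa using hx
      have h2 := hker (fl x i0)
      rw [hH _ h1, mul_zero, BB_apply, Finset.sum_eq_single_of_mem i0 h0 fun i _ hi => by
        rw [hH _ (by rw [fl_ne _ hi.symm, h1]), mul_zero], fl_fl] at h2
      have h3 := ep_sq (fl x i0) i0
      linear_combination ep (fl x i0) i0 * h2 - L (ext a) x * h3
  refine ⟨ext a, fun h => ha0 ?_, hsupp, fun x => ?_⟩
  · funext x
    have := congrFun h x.1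
    simpa [ext, x.2] using this
  · have := hall x
    rw [hL] at this
    linarith

theorem alt_eq (f : (Fin n → Bool) → Bool) (M : Finset (Fin n)) (y : Fin n → Bool) :
    ∑ x ∈ Finset.univ.filter (fun x : Fin n → Bool => ∀ i, i ∉ M → x i = y i),
      (∏ j, if j ∈ M then sg (x j) else 1) * ind (f x) =
      (∏ j, if j ∈ M then sg (y j) else 1) * alt f M y := by
  unfold alt
  rw [Finset.mul_sum]
  symm
  refine Finset.sum_nbij' (fun s => flipS y s) (fun x => Finset.univ.filter fun i => x i ≠ y i)
    ?_ ?_ ?_ ?_ ?_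
  · intro s hs
    simp only [Finset.mem_filter, Finset.mem_univ, true_and]
    intro i hi
    simp [flipS, show i ∉ s from fun h => hi (Finset.mem_powerset.1 hs h)]
  · intro x hx
    simp only [Finset.mem_filter, Finset.mem_univ, true_and] at hx
    rw [Finset.mem_powerset]
    intro i hi
    by_contra h
    exact (Finset.mem_filter.1 hi).2 (hx i h)
  · intro s _
    ext i
    by_cases h : i ∈ s <;> simp [flipS, h]
  · intro x _
    funext i
    by_cases h : x i = y i
    · simp [flipS, h]
    · have : x i = !y i := Bool.eq_not.2 h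
      simp [flipS, this]
  · intro s hs
    have e : (∏ j, if j ∈ M then sg (flipS y s j) else 1) =
        (∏ j, if j ∈ M then sg (y j) else 1) * ∏ j, if j ∈ s then (-1 : ℝ) else 1 := by
      rw [← Finset.prod_mul_distrib]
      refine Finset.prod_congr rfl fun j _ => ?_
      by_cases h : j ∈ s
      · simp [flipS, h, Finset.mem_powerset.1 hs h, sg_not]
      · simp [flipS, h]
    rw [e, Finset.prod_ite_mem Finset.univ s, Finset.univ_inter, Finset.prod_const, mul_assoc]

end Hux

open Hux

open Classical in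
/-- Huang's theorem in spectral form -/
theorem huang {n : ℕ} (f : (Fin n → Bool) → Bool) (M : Finset (Fin n)) (y : Fin n → Bool)
    (h : alt f M y ≠ 0) : ∃ u : (Fin n → Bool) → ℝ, (∀ x, 0 ≤ u x) ∧ 0 < ∑ x, u x ^ 2 ∧
      Real.sqrt M.card * ∑ x, u x ^ 2 ≤ ∑ x, ∑ x', (if Sens f x x' then u x * u x' else 0) := by
  rcases M.eq_empty_or_nonempty with rfl | ⟨i0, h0⟩
  · refine ⟨fun _ => 1, fun _ => zero_le_one, by simp, ?_⟩
    simp only [Finset.card_empty, Nat.cast_zero, Real.sqrt_zero, zero_mul]
    refine Finset.sum_nonneg fun x _ => Finset.sum_nonneg fun x' _ => ?_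
    split_ifs <;> norm_num
  set Qs := Finset.univ.filter (fun x : Fin n → Bool => ∀ i, i ∉ M → x i = y i) with hQs
  have hQ : ∀ x, ∀ i ∈ M, fl x i ∈ Qs ↔ x ∈ Qs := by
    intro x i hi
    simp only [hQs, Finset.mem_filter, Finset.mem_univ, true_and]
    refine forall_congr' fun j => forall_congr' fun hj => ?_
    rw [fl_ne x fun e : j = i => hj (e ▸ hi)]
  let par : (Fin n → Bool) → ℝ := fun x => ∏ j, if j ∈ M then sg (x j) else 1
  have hpar : ∀ x, ∀ i ∈ M, par (fl x i) = -par x := by
    intro x i hi
    simp only [par]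
    rw [prod_fl (· ∈ M), if_pos hi, neg_one_mul]
  have hp2 : ∀ x, par x * par x = 1 := fun x => prod_sq (· ∈ M) x
  have hs0 : ∑ x ∈ Qs, par x = 0 :=
    Finset.sum_involution (fun x _ => fl x i0) (fun x _ => by rw [hpar x i0 h0]; ring)
      (fun x _ _ e => by
        have := congrFun e i0
        rw [fl_self] at this
        simp at this)
      (fun x hx => (hQ x i0 h0).2 hx) (fun x _ => fl_fl x i0)
  have hs1 : ∑ x ∈ Qs, par x * sg (f x) ≠ 0 := by
    have e : ∀ x, par x * sg (f x) = par x - 2 * (par x * ind (f x)) := by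
      intro x
      cases f x <;> simp [sg, ind]
      ring
    simp only [e, Finset.sum_sub_distrib, ← Finset.mul_sum, hs0]
    rw [alt_eq f M y]
    have : par y ≠ 0 := fun e => by simpa [e] using hp2 y
    rw [zero_sub, neg_ne_zero]
    exact mul_ne_zero two_ne_zero (mul_ne_zero this h)
  have hg : ∀ x, par x * sg (f x) = 1 ∨ par x * sg (f x) = -1 := by
    intro x
    apply mul_self_eq_one_iff.1
    linear_combination sg (f x) * sg (f x) * hp2 x + sg_sq (f x)
  have hhalf : Qs.card = 2 * (Qs.filter fun x => x i0 = false).card := by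
    have e1 := Finset.card_filter_add_card_filter_not (s := Qs) (fun x => x i0 = false)
    have e2 : (Qs.filter fun x => ¬ x i0 = false).card = (Qs.filter fun x => x i0 = false).card := by
      refine Finset.card_nbij' (fun x => fl x i0) (fun x => fl x i0) ?_ ?_ ?_ ?_
      · intro x hx
        simp only [Finset.coe_filter, Set.mem_setOf_eq] at hx ⊢
        exact ⟨(hQ x i0 h0).2 hx.1, by rw [fl_self]; simpa using hx.2⟩
      · intro x hx
        simp only [Finset.coe_filter, Set.mem_setOf_eq] at hx ⊢
        exact ⟨(hQ x i0 h0).2 hx.1, by rw [fl_self]; simpa using hx.2⟩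
      · intro x _
        exact fl_fl x i0
      · intro x _
        exact fl_fl x i0
    omega
  obtain ⟨c, hc⟩ : ∃ c : ℝ, (Qs.filter fun x => x i0 = false).card <
      (Qs.filter fun x => par x * sg (f x) = c).card := by
    by_contra hcon
    push Not at hcon
    have e1 := Finset.card_filter_add_card_filter_not (s := Qs) (fun x => par x * sg (f x) = 1)
    have e2 : (Qs.filter fun x => ¬ par x * sg (f x) = 1) =
        Qs.filter fun x => par x * sg (f x) = -1 := by
      refine Finset.filter_congr fun x _ => ?_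
      rcases hg x with e | e <;> rw [e] <;> norm_num
    rw [e2] at e1
    have a1 := hcon 1
    have a2 := hcon (-1)
    apply hs1
    rw [← Finset.sum_filter_add_sum_filter_not Qs (fun x => par x * sg (f x) = 1), e2,
      Finset.sum_congr rfl fun x hx => (Finset.mem_filter.1 hx).2,
      Finset.sum_congr (s₁ := Qs.filter fun x => par x * sg (f x) = -1) rfl
        fun x hx => (Finset.mem_filter.1 hx).2]
    have a3 : (Qs.filter fun x => par x * sg (f x) = 1).card =
        (Qs.filter fun x => par x * sg (f x) = -1).card := by omega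
    simp [a3]
  obtain ⟨v, hv0, hvs, hv⟩ := eigen M i0 h0 Qs _ hQ (Finset.filter_subset _ _) hc
  refine ⟨fun x => |v x|, fun x => abs_nonneg _, ?_, ?_⟩
  · obtain ⟨x, hx⟩ := Function.ne_iff.1 hv0
    exact Finset.sum_pos' (fun x _ => sq_nonneg _)
      ⟨x, Finset.mem_univ _, pow_pos (abs_pos.2 hx) 2⟩
  · rw [Finset.mul_sum]
    refine Finset.sum_le_sum fun x _ => ?_
    have a1 : Real.sqrt M.card * |v x| ≤ ∑ i ∈ M, |v (fl x i)| := by
      rw [← abs_of_nonneg (Real.sqrt_nonneg (M.card : ℝ)), ← abs_mul, ← hv, BB_apply]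
      refine le_trans (Finset.abs_sum_le_sum_abs _ _) (le_of_eq ?_)
      simp only [abs_mul, abs_ep, one_mul]
    have a2 : ∀ i ∈ M, |v x| * |v (fl x i)| =
        if Sens f x (fl x i) then |v x| * |v (fl x i)| else 0 := by
      intro i hi
      split_ifs with hS
      · rfl
      · by_contra hne
        have b1 : v x ≠ 0 := fun e => hne (by simp [e])
        have b2 : v (fl x i) ≠ 0 := fun e => hne (by simp [e])
        have c1 := (Finset.mem_filter.1 (not_not.1 fun e => b1 (hvs _ e))).2
        have c2 := (Finset.mem_filter.1 (not_not.1 fun e => b2 (hvs _ e))).2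
        refine hS ⟨fun e => ?_, i, rfl⟩
        rw [hpar x i hi, ← e] at c2
        rcases hg x with e' | e' <;> linarith
    calc Real.sqrt M.card * |v x| ^ 2 = |v x| * (Real.sqrt M.card * |v x|) := by ring
      _ ≤ |v x| * ∑ i ∈ M, |v (fl x i)| := mul_le_mul_of_nonneg_left a1 (abs_nonneg _)
      _ = ∑ i ∈ M, if Sens f x (fl x i) then |v x| * |v (fl x i)| else 0 := by
          rw [Finset.mul_sum, Finset.sum_congr rfl a2]
      _ = ∑ x' ∈ M.image (fl x), if Sens f x x' then |v x| * |v x'| else 0 := by
          rw [Finset.sum_image fun i _ j _ e => fl_inj x e]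
      _ ≤ _ := by
          refine Finset.sum_le_sum_of_subset_of_nonneg (Finset.subset_univ _) fun x' _ _ => ?_
          split_ifs
          · positivity
          · exact le_rfl

end Vale.Agent.P362
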