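import Vale.Agent.P362.Adv
import Vale.Agent.P362.Huang

/-! # P362: DegBs (see notes/P362.md) -/

namespace Vale.Agent.P362

open scoped BigOperators Matrix

theorem degbs_sq {b T : ℕ} (h : Real.sqrt b ≤ 36 * T) : b ≤ 1296 * T ^ 2 := by
  have h1 := pow_le_pow_left₀ (Real.sqrt_nonneg _) h 2
  rw [Real.sq_sqrt (Nat.cast_nonneg b)] at h1
  have h2 : (b : ℝ) ≤ ((1296 * T ^ 2 : ℕ) : ℝ) := by
    push_cast
    linarith
  exact_mod_cast h2

theorem deg_le {n T : ℕ} {f : (Fin n → Bool) → Bool} (h : QComputes T f) (M : Finset (Fin n))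
    (y : Fin n → Bool) (hM : alt f M y ≠ 0) : M.card ≤ 1296 * T ^ 2 := by
  obtain ⟨u, h0, hp, hu⟩ := huang f M y hM
  have key : ∀ (x : Fin n → Bool) (i j : Fin n), x i ≠ Function.update x j (!(x j)) i → j = i := by
    intro x i j hne
    by_contra hji
    exact hne (by rw [Function.update_of_ne (Ne.symm hji)])
  have ha := adversary h (Sens f)
    (fun x y hxy => ⟨hxy.1.symm, by
      obtain ⟨i, rfl⟩ := hxy.2
      exact ⟨i, (Hux.fl_fl x i).symm⟩⟩)
    (fun x y hxy => hxy.1)
    (fun x i y y' h1 h2 h3 h4 => by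
      obtain ⟨j, rfl⟩ := h1.2
      obtain ⟨j', rfl⟩ := h2.2
      rw [key x i j h3, key x i j' h4]) u h0
  exact degbs_sq (le_of_mul_le_mul_right (le_trans hu ha) hp)

theorem bs_le {n T : ℕ} {f : (Fin n → Bool) → Bool} (h : QComputes T f) (x : Fin n → Bool)
    (𝓑 : Finset (Finset (Fin n))) (hd : ∀ s ∈ 𝓑, ∀ s' ∈ 𝓑, s ≠ s' → Disjoint s s')
    (hs : ∀ s ∈ 𝓑, f (flipS x s) ≠ f x) : 𝓑.card ≤ 1296 * T ^ 2 := by
  classical
  have hinj : Function.Injective (flipS x) := by
    intro s s' e
    ext i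
    have := congrFun e i
    by_cases a : i ∈ s <;> by_cases b : i ∈ s' <;> simp_all [flipS]
  set I := 𝓑.image (flipS x) with hI
  have hc : I.card = 𝓑.card := Finset.card_image_of_injective _ hinj
  have hf : ∀ a ∈ I, f a ≠ f x := by
    intro a ha
    obtain ⟨s, hs', rfl⟩ := Finset.mem_image.1 ha
    exact hs s hs'
  have hx : x ∉ I := fun e => hf x e rfl
  have hmem : ∀ (s : Finset (Fin n)) i, x i ≠ flipS x s i → i ∈ s := by
    intro s i hne
    by_contra hi
    exact hne (by simp [flipS, hi])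
  rw [← hc]
  rcases Nat.eq_zero_or_pos I.card with h0 | h0
  · omega
  have hb : (0 : ℝ) < I.card := by exact_mod_cast h0
  have ha := adversary h (fun a b => (a = x ∧ b ∈ I) ∨ (b = x ∧ a ∈ I))
    (fun a b hab => hab.symm)
    (fun a b hab => by
      rcases hab with ⟨rfl, h1⟩ | ⟨rfl, h1⟩
      · exact (hf _ h1).symm
      · exact hf _ h1)
    (fun a i b b' h1 h2 h3 h4 => by
      rcases h1 with ⟨rfl, h1⟩ | ⟨rfl, h1⟩ <;> rcases h2 with ⟨e, h2⟩ | ⟨e, h2⟩
      · obtain ⟨s, hs1, rfl⟩ := Finset.mem_image.1 h1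
        obtain ⟨s', hs2, rfl⟩ := Finset.mem_image.1 h2
        by_cases hss : s = s'
        · rw [hss]
        · exact absurd (hmem s' i h4) (Finset.disjoint_left.1 (hd s hs1 s' hs2 hss) (hmem s i h3))
      · exact absurd h2 hx
      · exact absurd (e ▸ h1) hx
      · exact e.symm)
    (fun a => if a = x then Real.sqrt I.card else if a ∈ I then 1 else 0)
    (fun a => by split_ifs <;> positivity)
  have e1 : ∑ a, (if a = x then Real.sqrt I.card else if a ∈ I then (1 : ℝ) else 0) ^ 2 =
      2 * I.card := by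
    have e : ∀ a, (if a = x then Real.sqrt I.card else if a ∈ I then (1 : ℝ) else 0) ^ 2 =
        (if a = x then (I.card : ℝ) else 0) + if a ∈ I then 1 else 0 := by
      intro a
      by_cases h1 : a = x
      · subst h1
        simp [hx]
      · by_cases h2 : a ∈ I <;> simp [h1, h2]
    simp only [e, Finset.sum_add_distrib]
    simp
    ring
  rw [e1] at ha
  have e2 : Real.sqrt I.card * (2 * I.card) ≤ 36 * T * (2 * I.card) := by
    refine le_trans (le_of_eq ?_) ha
    have e : ∀ a b, (if (a = x ∧ b ∈ I) ∨ (b = x ∧ a ∈ I) then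
        (if a = x then Real.sqrt I.card else if a ∈ I then (1 : ℝ) else 0) *
          (if b = x then Real.sqrt I.card else if b ∈ I then (1 : ℝ) else 0) else 0) =
        (if a = x then (if b ∈ I then Real.sqrt I.card else 0) else 0) +
          if b = x then (if a ∈ I then Real.sqrt I.card else 0) else 0 := by
      intro a b
      by_cases h1 : a = x <;> by_cases h2 : b = x
      · simp [h1, h2, hx]
      · by_cases h3 : b ∈ I <;> simp [h1, h2, h3, hx]
      · by_cases h3 : a ∈ I <;> simp [h1, h2, h3, hx]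
      · simp [h1, h2]
    symm
    refine (Finset.sum_congr rfl fun a _ => Finset.sum_congr rfl fun b _ => ?_).trans
      (?_ : ∑ a, ∑ b, ((if a = x then (if b ∈ I then Real.sqrt I.card else 0) else 0) +
          if b = x then (if a ∈ I then Real.sqrt I.card else 0) else 0) = _)
    · rw [← e a b]
      by_cases hc : (a = x ∧ b ∈ I) ∨ (b = x ∧ a ∈ I)
      · rw [if_pos hc, if_pos hc]
      · rw [if_neg hc, if_neg hc]
    · simp only [Finset.sum_add_distrib]
      rw [Finset.sum_comm]
      simp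
      ring
  exact degbs_sq (le_of_mul_le_mul_right e2 (by positivity))

end Vale.Agent.P362
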