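import Vale.Agent.P362.Base

/-! # P362: Extrap (see notes/P362.md) -/

namespace Vale.Agent.P362

open scoped BigOperators Matrix

variable {ι : Type} [Fintype ι] [DecidableEq ι]

namespace Extrap

lemma sum_prod_bool (f : ι → Bool → ℝ) :
    ∑ w : ι → Bool, ∏ i, f i (w i) = ∏ i, (f i true + f i false) := by
  rw [← Fintype.prod_sum]
  exact Finset.prod_congr rfl fun i _ => by simp

lemma sg_t : sg true = -1 := rfl
lemma sg_f : sg false = 1 := rfl

lemma abs_half (u : ℝ) : |(1 + u * -1) / 2| + |(1 + u * 1) / 2| = max 1 |u| := by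
  rcases abs_cases ((1 + u * -1) / 2) with h | h <;> rcases abs_cases ((1 + u * 1) / 2) with h' | h' <;>
    rcases abs_cases u with h'' | h'' <;> rcases le_total 1 |u| with e | e <;>
    simp only [max_eq_left, max_eq_right, e] <;> linarith [h.1, h.2, h'.1, h'.2, h''.1, h''.2]

lemma wt_avg (z : ι → ℝ) (J : Finset ι) (w : ι → Bool) :
    wt z J w = ∑ v : ι → Bool, wt (fun i => sg (v i) / 2) J w * ∏ i, (1 + 2 * z i * sg (v i)) / 2 := by
  simp only [wt, ← Finset.prod_mul_distrib]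
  rw [sum_prod_bool (fun i b => (if i ∈ J then sg (w i) / 2 else (1 + sg b / 2 * sg (w i)) / 2) *
    ((1 + 2 * z i * sg b) / 2))]
  refine Finset.prod_congr rfl fun i _ => ?_
  split_ifs <;> simp only [sg_t, sg_f] <;> ring

end Extrap

open Extrap

/-- extrapolation of a multilinear function from the box `[-1/2,1/2]^ι` -/
theorem extrap {κ : Type} [Fintype κ] (c : κ → ℝ) (J : κ → Finset ι) (F : (ι → Bool) → ℝ)
    (Bd : ℝ) (h : ∀ p : ι → ℝ, (∀ i, |p i| ≤ 1 / 2) → |∑ q, c q * Dext (J q) F p| ≤ Bd)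
    (z : ι → ℝ) : |∑ q, c q * Dext (J q) F z| ≤ Bd * ∏ i, mx (z i) := by
  have e : ∑ q, c q * Dext (J q) F z = ∑ v : ι → Bool,
      (∑ q, c q * Dext (J q) F fun i => sg (v i) / 2) * ∏ i, (1 + 2 * z i * sg (v i)) / 2 := by
    simp only [Dext, wt_avg z, Finset.mul_sum, Finset.sum_mul]
    refine Eq.trans ?_ Finset.sum_comm
    refine Finset.sum_congr rfl fun q _ => ?_
    refine Eq.trans Finset.sum_comm ?_
    exact Finset.sum_congr rfl fun v _ => Finset.sum_congr rfl fun w _ => by ring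
  have e2 : ∑ v : ι → Bool, ∏ i, |(1 + 2 * z i * sg (v i)) / 2| = ∏ i, mx (z i) := by
    rw [sum_prod_bool (fun i b => |(1 + 2 * z i * sg b) / 2|)]
    refine Finset.prod_congr rfl fun i _ => ?_
    rw [sg_t, sg_f, abs_half, mx, abs_mul, abs_two]
  rw [e, ← e2, Finset.mul_sum]
  refine (Finset.abs_sum_le_sum_abs _ _).trans (Finset.sum_le_sum fun v _ => ?_)
  rw [abs_mul, Finset.abs_prod]
  refine mul_le_mul_of_nonneg_right (h _ fun i => ?_) (Finset.prod_nonneg fun _ _ => abs_nonneg _)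
  cases v i <;> norm_num [sg, abs_div]

theorem sum_wt_empty (z : ι → ℝ) : ∑ w, wt z ∅ w = 1 := by
  simp only [wt, Finset.notMem_empty, if_false]
  rw [sum_prod_bool (fun i b => (1 + z i * sg b) / 2)]
  exact Finset.prod_eq_one fun i _ => by rw [sg_t, sg_f]; ring

theorem sum_abs_wt_le (z : ι → ℝ) : ∑ w, |wt z ∅ w| ≤ ∏ i, mx (z i) := by
  simp only [wt, Finset.notMem_empty, if_false, Finset.abs_prod]
  rw [sum_prod_bool (fun i b => |(1 + z i * sg b) / 2|)]
  refine Finset.prod_le_prod (fun i _ => by positivity) fun i _ => ?_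
  rw [sg_t, sg_f, abs_half, mx]
  exact max_le_max le_rfl (by linarith [abs_nonneg (z i)])

/-- monomial expansion -/
theorem wt_expand (z : ι → ℝ) (J : Finset ι) (w : ι → Bool) :
    wt z J w = (1 / 2) ^ Fintype.card ι *
      ∑ S : Finset ι, if J ⊆ S then (∏ i ∈ S, sg (w i)) * ∏ i ∈ S \ J, z i else 0 := by
  have e : wt z J w = (1 / 2) ^ Fintype.card ι *
      ∏ i, (sg (w i) * (if i ∈ J then 1 else z i) + if i ∈ J then 0 else 1) := by
    rw [wt, ← Finset.card_univ, ← Finset.prod_const, ← Finset.prod_mul_distrib]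
    refine Finset.prod_congr rfl fun i _ => ?_
    split_ifs <;> ring
  rw [e, Fintype.prod_add]
  congr 1
  refine Finset.sum_congr rfl fun S _ => ?_
  split_ifs with hJ
  · have h1 : ∏ i ∈ Sᶜ, (if i ∈ J then (0 : ℝ) else 1) = 1 :=
      Finset.prod_eq_one fun i hi => if_neg fun h => Finset.mem_compl.mp hi (hJ h)
    rw [h1, mul_one, Finset.prod_mul_distrib, Finset.prod_ite, Finset.prod_const_one, one_mul,
      Finset.sdiff_eq_filter]
  · obtain ⟨i, hi, hiS⟩ := Finset.not_subset.mp hJ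
    have h0 : ∏ i ∈ Sᶜ, (if i ∈ J then (0 : ℝ) else 1) = 0 :=
      Finset.prod_eq_zero (Finset.mem_compl.mpr hiS) (if_pos hi)
    rw [h0, mul_zero]

theorem sum_wt_mul_sg (z : ι → ℝ) (J : Finset ι) :
    ∑ w, wt z ∅ w * ∏ i ∈ J, sg (w i) = ∏ i ∈ J, z i := by
  have e : ∀ (f : ι → ℝ), ∏ i ∈ J, f i = ∏ i, if i ∈ J then f i else 1 := fun f => by
    rw [Finset.prod_ite_mem, Finset.univ_inter]
  simp only [wt, Finset.notMem_empty, if_false]
  rw [e z]
  simp only [e fun i => sg (_ : Bool)]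
  simp only [← Finset.prod_mul_distrib]
  rw [sum_prod_bool (fun i b => (1 + z i * sg b) / 2 * if i ∈ J then sg b else 1)]
  refine Finset.prod_congr rfl fun i _ => ?_
  split_ifs <;> simp only [sg_t, sg_f] <;> ring

end Vale.Agent.P362
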