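import Vale.Agent.P362.Base

/-! # P362: Fft (see notes/P362.md) -/

namespace Vale.Agent.P362

open scoped BigOperators Matrix

theorem exists_dec (k d : ℕ) : ∃ dec : (Fin (Bw k d) → Bool) → ℤ,
    ∀ z : ℤ, |z| ≤ ((2 : ℤ) ^ d) ^ (k + 1) → ∃ s, dec s = z := by
  have hc : Fintype.card (Finset.Icc (-((2 : ℤ) ^ d) ^ (k + 1)) (((2 : ℤ) ^ d) ^ (k + 1))) ≤
      Fintype.card (Fin (Bw k d) → Bool) := by
    have h1 : (1 : ℤ) ≤ 2 ^ (d * (k + 1)) := one_le_pow₀ (by norm_num)
    rw [Fintype.card_coe, Int.card_Icc, Fintype.card_fun, Fintype.card_bool, Fintype.card_fin, Bw,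
      Int.toNat_le, ← pow_mul]
    push_cast
    rw [pow_add]
    linarith
  obtain ⟨e⟩ := Function.Embedding.nonempty_of_card_le hc
  have : Nonempty (Finset.Icc (-((2 : ℤ) ^ d) ^ (k + 1)) (((2 : ℤ) ^ d) ^ (k + 1))) :=
    ⟨⟨0, by simp⟩⟩
  refine ⟨fun s => (Function.invFun e s).1, fun z hz => ⟨e ⟨z, Finset.mem_Icc.2 (abs_le.1 hz)⟩, ?_⟩⟩
  simp only [Function.leftInverse_invFun e.injective _]

namespace FftAux

/-- the partial transform -/
def pt {d : ℕ} (u : X d → ℤ) : ℕ → X d → ℤ
  | 0 => u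
  | l + 1 => fun b => if h : l < d then pt u l (Function.update b ⟨l, h⟩ false) +
      sgz (b ⟨l, h⟩) * pt u l (Function.update b ⟨l, h⟩ true) else 0

/-- its kernel -/
def ker {d : ℕ} (l : ℕ) (b c : X d) (i : Fin d) : ℤ :=
  if i.1 < l then (if (b i && c i) = true then -1 else 1) else if c i = b i then 1 else 0

lemma pt_eq {d : ℕ} (u : X d → ℤ) (l : ℕ) (hl : l ≤ d) (b : X d) :
    pt u l b = ∑ c, (∏ i, ker l b c i) * u c := by
  induction l generalizing b with
  | zero =>
    simp only [pt, ker, Nat.not_lt_zero, if_false, Finset.prod_boole, Finset.mem_univ,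
      forall_const, ← funext_iff]
    simp
  | succ l ih =>
    simp only [pt, dif_pos (show l < d from hl), ih (by omega), Finset.mul_sum,
      ← Finset.sum_add_distrib]
    refine Finset.sum_congr rfl fun c _ => ?_
    have e : ∀ t, ∏ i, ker l (Function.update b ⟨l, hl⟩ t) c i =
        (if c ⟨l, hl⟩ = t then 1 else 0) *
          ∏ i ∈ Finset.univ.erase ⟨l, hl⟩, ker (l + 1) b c i := by
      intro t
      rw [← Finset.mul_prod_erase _ _ (Finset.mem_univ ⟨l, hl⟩)]
      congr 1
      · simp [ker]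
      · refine Finset.prod_congr rfl fun i hi => ?_
        have h1 := Finset.ne_of_mem_erase hi
        have h2 : i.1 < l + 1 ↔ i.1 < l := by
          have : i.1 ≠ l := fun e => h1 (Fin.ext e)
          omega
        simp only [ker, Function.update_of_ne h1, h2]
    rw [e, e, ← Finset.mul_prod_erase _ (ker (l + 1) b c) (Finset.mem_univ ⟨l, hl⟩)]
    simp only [ker, Nat.lt_succ_self, if_true, sgz]
    cases b ⟨l, hl⟩ <;> cases c ⟨l, hl⟩ <;> simp

lemma pt_last {d : ℕ} (u : X d → ℤ) (b : X d) : pt u d b = ∑ c, chi b c * u c := by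
  simp only [pt_eq u d le_rfl, ker, Fin.is_lt, if_true, chi]

lemma abs_sgz (b : Bool) : |sgz b| = 1 := by cases b <;> simp [sgz]

lemma abs_pt {d : ℕ} {u : X d → ℤ} {M : ℤ} (hM : 0 ≤ M) (h : ∀ c, |u c| ≤ M) (l : ℕ) (b : X d) :
    |pt u l b| ≤ 2 ^ l * M := by
  induction l generalizing b with
  | zero => simpa [pt] using h b
  | succ l ih =>
    simp only [pt]
    split_ifs with hl
    · refine (abs_add_le _ _).trans ?_
      rw [abs_mul, abs_sgz, one_mul, pow_succ]
      linarith [ih (Function.update b ⟨l, hl⟩ false), ih (Function.update b ⟨l, hl⟩ true)]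
    · rw [abs_zero]; positivity

lemma vv_succ {m d : ℕ} (w : Fin m × X d → Bool) (j : Fin m) (b : X d) :
    vv w (j + 1) b = pt (fun c => sgz (w (j, c)) * vv w j c) d b := by
  simp only [vv, dif_pos j.2, pt_last]

lemma abs_vv {m d : ℕ} (w : Fin m × X d → Bool) (j : ℕ) (b : X d) : |vv w j b| ≤ (2 ^ d) ^ j := by
  induction j generalizing b with
  | zero => simp [vv]
  | succ j ih =>
    by_cases h : j < m
    · rw [vv_succ w ⟨j, h⟩, pow_succ']
      exact abs_pt (by positivity) (fun c => by rw [abs_mul, abs_sgz, one_mul]; exact ih c) _ _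
    · simp only [vv, dif_neg h, abs_zero]
      positivity

lemma eq_pt {d : ℕ} {t : Fin (d + 1) → X d → ℤ} (h : ∀ (l : Fin d) (b : X d), t l.succ b =
    t l.castSucc (Function.update b l false) + sgz (b l) * t l.castSucc (Function.update b l true))
    (l : Fin (d + 1)) : ∀ b, t l b = pt (t 0) l b := by
  induction l using Fin.induction with
  | zero => exact fun _ => rfl
  | succ l ih =>
    intro b
    rw [h, ih, ih]
    simp only [Fin.val_succ, pt, dif_pos l.2, Fin.val_castSucc]

end FftAux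

open FftAux

/-- soundness of the FFT transcript -/
theorem valid_phi {k d B : ℕ} {dec : (Fin B → Bool) → ℤ} {θ : ℝ} {x : Idx k d B → Bool}
    {c a : X d} (h : Valid dec θ x c a) : θ ≤ phi (str x c) a := by
  have key : ∀ (j : Fin (k + 1)) b, tv dec x c a j (Fin.last d) b = vv (str x c) (j + 1) b := by
    intro j
    induction j using Fin.induction with
    | zero =>
      intro b
      rw [vv_succ, eq_pt fun l b => (h b).2.2.2.1 0 l, Fin.val_last]
      congr 1
      exact funext fun b => (h b).2.2.1 0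
    | succ j ih =>
      intro b
      rw [vv_succ, eq_pt fun l b => (h b).2.2.2.1 j.succ l, Fin.val_last]
      congr 1
      funext b
      rw [(h b).2.2.1 j.succ, Fin.cases_succ, ih]
      rfl
  have h1 := (h a).2.2.2.2
  rw [key] at h1
  rw [phi, le_div_iff₀ (by positivity)]
  exact h1

/-- completeness of the FFT transcript -/
theorem exists_cell {k d B : ℕ} {dec : (Fin B → Bool) → ℤ}
    (hdec : ∀ z : ℤ, |z| ≤ ((2 : ℤ) ^ d) ^ (k + 1) → ∃ s, dec s = z) {θ : ℝ}
    (x : Idx k d B → Bool) (c a : X d) (hc : ∀ i, x (c, .inl i) = true)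
    (ho : ∀ c', c' ≠ c → ∃ i, x (c', .inl i) = false) (hθ : θ ≤ phi (str x c) a) :
    ∃ cell : Cell k d B → Bool, Valid dec θ (setCell x c a cell) c a := by
  have hb : ∀ (j : Fin (k + 1)) (l : Fin (d + 1)) (b : X d), ∃ s, dec s =
      pt (fun b' => sgz (str x c (j, b')) * vv (str x c) j b') l b := by
    intro j l b
    refine hdec _ ((abs_pt (M := (2 ^ d) ^ j.1) (by positivity) (fun b' => by
      rw [abs_mul, abs_sgz, one_mul]; exact abs_vv _ _ _) _ _).trans ?_)
    rw [pow_succ']
    exact mul_le_mul (pow_le_pow_right₀ (by norm_num) (by omega))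
      (pow_le_pow_right₀ (one_le_pow₀ (by norm_num)) (by omega)) (by positivity) (by positivity)
  choose s hs using hb
  choose! P hP using ho
  refine ⟨Sum.elim (fun q => P q.1 q.2) (fun q => s q.1 q.2.1 q.2.2.1 q.2.2.2), fun b => ?_⟩
  set x' := setCell x c a
    (Sum.elim (fun q => P q.1 q.2) (fun q => s q.1 q.2.1 q.2.2.1 q.2.2.2)) with hx'
  have e1 : str x' c = str x c := rfl
  have e2 : ptr x' c a b = P b := funext fun e => by simp [ptr, hx', setCell]
  have e3 : ∀ j l b, tv dec x' c a j l b =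
      pt (fun b' => sgz (str x c (j, b')) * vv (str x c) j b') l b := fun j l b => by
    rw [← hs]
    simp [tv, hx', setCell]
  refine ⟨hc b, fun h => ?_, fun j => ?_, fun j l => ?_, ?_⟩
  · rw [e2]; exact hP b h
  · rw [e1, e3]
    induction j using Fin.cases with
    | zero => rfl
    | succ j =>
      rw [Fin.cases_succ, e3, Fin.val_last, ← vv_succ]
      rfl
  · simp only [e3, Fin.val_succ, pt, dif_pos l.2, Fin.val_castSucc]
  · rw [e3, Fin.val_last d, ← vv_succ]
    rw [phi, le_div_iff₀ (by positivity)] at hθ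
    exact hθ

theorem fn_false {k d B : ℕ} (dec : (Fin B → Bool) → ℤ) (θ : ℝ) (x : Idx k d B → Bool)
    (h : ∀ c, ∃ i, x (c, .inl i) = false) : fn dec θ x = false := by
  rw [fn, decide_eq_false_iff_not]
  rintro ⟨c, a, hv⟩
  obtain ⟨i, hi⟩ := h c
  rw [(hv i).1] at hi
  exact absurd hi (by simp)

end Vale.Agent.P362
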