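import Vale.Agent.P362.QRl

/-! # P362: Forr (see notes/P362.md) -/

namespace Vale.Agent.P362

open scoped BigOperators Matrix

theorem chi_comm {d : ℕ} (a b : X d) : chi a b = chi b a := by
  simp only [chi, Bool.and_comm]

theorem chi_sq {d : ℕ} (a b : X d) : chi a b * chi a b = 1 := by
  rw [chi, ← Finset.prod_mul_distrib]
  exact Finset.prod_eq_one fun i _ => by split_ifs <;> norm_num

theorem chi_orth {d : ℕ} (a b : X d) :
    ∑ c, chi a c * chi b c = if a = b then (2 : ℤ) ^ d else 0 := by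
  have e : ∑ c, chi a c * chi b c = ∏ i, ∑ t : Bool,
      ((if (a i && t) = true then -1 else 1) * (if (b i && t) = true then -1 else 1) : ℤ) := by
    rw [Finset.prod_univ_sum, Fintype.piFinset_univ]
    exact Finset.sum_congr rfl fun c _ => by rw [chi, chi, ← Finset.prod_mul_distrib]
  rw [e]
  split_ifs with h
  · subst h
    rw [Finset.prod_congr rfl (g := fun _ => (2 : ℤ)) fun i _ => by cases a i <;> simp]
    simp
  · obtain ⟨i, hi⟩ := Function.ne_iff.1 h
    refine Finset.prod_eq_zero (Finset.mem_univ i) ?_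
    revert hi
    cases a i <;> cases b i <;> simp

namespace ForrAux

/-- the normalised Walsh-Hadamard matrix -/
noncomputable def Hn (d : ℕ) : Matrix (X d) (X d) ℝ :=
  Matrix.of fun a b => (chi a b : ℝ) / Real.sqrt (2 ^ d)

theorem Hn_orth (d : ℕ) : (Hn d)ᵀ * Hn d = 1 := by
  ext a b
  have h := congrArg (fun z : ℤ => (z : ℝ)) (chi_orth a b)
  have p : (0 : ℝ) < 2 ^ d := by positivity
  simp only [Matrix.mul_apply, Matrix.transpose_apply, Hn, Matrix.of_apply, div_mul_div_comm,
    Real.mul_self_sqrt p.le, ← Finset.sum_div, Matrix.one_apply, chi_comm _ a, chi_comm _ b]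
  push_cast at h
  rw [h]
  split_ifs
  · exact div_self p.ne'
  · exact zero_div _

theorem impl_vv {ι : Type} {m d : ℕ} (emb : Fin m × X d → ι) (j : ℕ) (hj : j ≤ m) :
    ∃ V : (ι → Bool) → Matrix (X d) (X d) ℝ, Impl j V ∧ ∀ x b,
      V x b (fun _ => false) = (vv (x ∘ emb) j b : ℝ) / (Real.sqrt (2 ^ d)) ^ (j + 1) := by
  induction j with
  | zero => exact ⟨_, Impl.base _ (Hn_orth d), fun x b => by simp [Hn, chi, vv]⟩
  | succ j ih =>
    obtain ⟨V, hV, h⟩ := ih (by omega)
    refine ⟨_, hV.step (fun β => some (emb (⟨j, hj⟩, β))) _ (Hn_orth d), fun x b => ?_⟩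
    rw [Matrix.mul_apply]
    simp only [vv, dif_pos (show j < m from hj)]
    push_cast
    rw [Finset.sum_div]
    refine Finset.sum_congr rfl fun c _ => ?_
    have e : ((sgz (x (emb (⟨j, hj⟩, c))) : ℤ) : ℝ) = sg (x (emb (⟨j, hj⟩, c))) := by
      unfold sgz sg
      split_ifs <;> simp
    rw [ph, Matrix.mul_diagonal, h, Function.comp_apply, e, pow_succ _ (j + 1)]
    simp only [Hn, Matrix.of_apply, Option.elim_some]
    ring

end ForrAux

open ForrAux

/-- the forrelation circuit -/
theorem rl_phi {ι : Type} {m d : ℕ} (emb : Fin m × X d → ι) :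
    Rl m (fun (x : ι → Bool) (g : X d → ℝ) => ∑ a, (phi (x ∘ emb) a) ^ 2 * g a) := by
  obtain ⟨V, hV, h⟩ := impl_vv emb m le_rfl
  exact ⟨X d, inferInstance, inferInstance, fun _ => false, id, V, hV, fun x g => by
    simp only [h, phi, id]⟩

theorem abs_phi_le_one {m d : ℕ} (w : Fin m × X d → Bool) (a : X d) : |phi w a| ≤ 1 := by
  have h : ∑ a, (phi w a) ^ 2 * 1 = 1 := (rl_phi (m := m) (d := d) id).const_eq w 1
  rw [← sq_le_one_iff_abs_le_one, ← h, ← mul_one (phi w a ^ 2)]
  exact Finset.single_le_sum (f := fun a => (phi w a) ^ 2 * 1) (fun _ _ => by positivity)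
    (Finset.mem_univ a)

end Vale.Agent.P362
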