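import Vale.Agent.P362.Base

/-! # P362: G1 (see notes/P362.md) -/

namespace Vale.Agent.P362

open scoped BigOperators Matrix
open MeasureTheory ProbabilityTheory

theorem gauss_integrable_pow (e : ℕ) : Integrable (fun u : ℝ => u ^ e) (gaussianReal 0 1) :=
  integrable_pow_of_mem_interior_integrableExpSet (X := fun u : ℝ => u) (by simp) e

namespace G1

lemma int_pdf (e : ℕ) : Integrable (fun u : ℝ => gaussianPDFReal 0 1 u * u ^ e) := by
  have h := gauss_integrable_pow e
  rw [gaussianReal_of_var_ne_zero _ one_ne_zero,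
    integrable_withDensity_iff_integrable_smul' (measurable_gaussianPDF _ _)
      (ae_of_all _ fun _ => gaussianPDF_lt_top)] at h
  simpa using h

lemma deriv_pdf (u : ℝ) :
    HasDerivAt (gaussianPDFReal 0 1) (-u * gaussianPDFReal 0 1 u) u := by
  have h1 : HasDerivAt (fun x : ℝ => -(x - 0) ^ 2 / (2 * ((1 : NNReal) : ℝ))) (-u) u := by
    have h := (((hasDerivAt_id u).sub_const 0).pow 2).neg.div_const (2 * ((1 : NNReal) : ℝ))
    refine h.congr_deriv ?_
    simp
    ring
  have h2 := h1.exp.const_mul (Real.sqrt (2 * Real.pi * ((1 : NNReal) : ℝ)))⁻¹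
  rw [gaussianPDFReal_def]
  refine h2.congr_deriv ?_
  ring

end G1

theorem gauss_mom_rec (e : ℕ) :
    ∫ u, u ^ (e + 2) ∂gaussianReal 0 1 = (e + 1) * ∫ u, u ^ e ∂gaussianReal 0 1 := by
  have h := integral_eq_zero_of_hasDerivAt_of_integrable
    (f := fun u : ℝ => gaussianPDFReal 0 1 u * u ^ (e + 1))
    (f' := fun u : ℝ => (e + 1) * (gaussianPDFReal 0 1 u * u ^ e) -
      gaussianPDFReal 0 1 u * u ^ (e + 2))
    (fun u => ((G1.deriv_pdf u).mul (hasDerivAt_pow (e + 1) u)).congr_deriv (by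
      simp only [Nat.add_sub_cancel, Nat.cast_add, Nat.cast_one]; ring))
    (((G1.int_pdf e).const_mul _).sub (G1.int_pdf _)) (G1.int_pdf _)
  rw [integral_sub ((G1.int_pdf e).const_mul _) (G1.int_pdf _), integral_const_mul] at h
  rw [integral_gaussianReal_eq_integral_smul one_ne_zero,
    integral_gaussianReal_eq_integral_smul one_ne_zero]
  simp only [smul_eq_mul]
  linarith

variable {Y : Type} [Fintype Y] [DecidableEq Y]

theorem measurable_rot (U : Matrix Y Y ℝ) : Measurable (rot U) := by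
  unfold rot
  fun_prop

/-- rotation invariance -/
theorem map_rot {U : Matrix Y Y ℝ} (hU : Uᵀ * U = 1) : (gm Y).map (rot U) = gm Y := by
  have hU' : U * Uᵀ = 1 := mul_eq_one_comm.mp hU
  let v : Y → EuclideanSpace ℝ Y := fun a => WithLp.toLp 2 (U a)
  have hon : Orthonormal ℝ v := by
    rw [orthonormal_iff_ite]
    intro a b
    have := congrFun (congrFun hU' b) a
    rw [Matrix.mul_apply, Matrix.one_apply] at this
    simp only [v, PiLp.inner_apply, RCLike.inner_apply, conj_trivial]
    simp only [Matrix.transpose_apply] at this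
    rw [this]
    simp [eq_comm]
  let b : OrthonormalBasis Y ℝ (EuclideanSpace ℝ Y) := OrthonormalBasis.mk hon
    (hon.linearIndependent.span_eq_top_of_card_eq_finrank' (by simp)).ge
  have h1 := stdGaussian_eq_map_pi_orthonormalBasis b
  rw [← map_pi_eq_stdGaussian] at h1
  have h2 := congrArg (Measure.map (WithLp.ofLp : EuclideanSpace ℝ Y → (Y → ℝ))) h1
  rw [Measure.map_map (by fun_prop) (by fun_prop), Measure.map_map (by fun_prop) (by fun_prop)] at h2
  have e1 : (WithLp.ofLp : EuclideanSpace ℝ Y → (Y → ℝ)) ∘ (WithLp.toLp 2) = id := rfl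
  have e2 : (WithLp.ofLp : EuclideanSpace ℝ Y → (Y → ℝ)) ∘ (fun x : Y → ℝ => ∑ i, x i • b i) =
      rot U := by
    funext g c
    simp [b, v, rot, mul_comm]
  rw [e1, e2, Measure.map_id] at h2
  exact h2.symm

namespace G1

open MvPolynomial

lemma eval_mono (g : Y → ℝ) (s : Y →₀ ℕ) (c : ℝ) :
    eval g (monomial s c) = c * ∏ i, g i ^ s i := by
  rw [eval_monomial, Finsupp.prod_fintype _ _ fun i => pow_zero _]

lemma int_mono (s : Y → ℕ) : Integrable (fun g : Y → ℝ => ∏ i, g i ^ s i) (gm Y) :=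
  Integrable.fintype_prod (f := fun i (u : ℝ) => u ^ s i) fun i => gauss_integrable_pow _

lemma integral_mono (s : Y → ℕ) :
    ∫ g, ∏ i, g i ^ s i ∂gm Y = ∏ i, ∫ u, u ^ s i ∂gaussianReal 0 1 :=
  integral_fintype_prod_eq_prod (fun i (u : ℝ) => u ^ s i)

lemma int_poly (P : MvPolynomial Y ℝ) : Integrable (fun g : Y → ℝ => eval g P) (gm Y) := by
  induction P using MvPolynomial.induction_on' with
  | monomial s c => simp only [eval_mono]; exact (int_mono s).const_mul c
  | add p q hp hq => simp only [map_add]; exact hp.add hq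

lemma mom_succ (e : ℕ) :
    ∫ u, u ^ (e + 1) ∂gaussianReal 0 1 = e * ∫ u, u ^ (e - 1) ∂gaussianReal 0 1 := by
  cases e with
  | zero => simp
  | succ e => rw [gauss_mom_rec]; simp

lemma stein (a : Y) (P : MvPolynomial Y ℝ) :
    ∫ g, eval g (MvPolynomial.X a * P) ∂gm Y = ∫ g, eval g (pderiv a P) ∂gm Y := by
  induction P using MvPolynomial.induction_on' with
  | monomial s c =>
    rw [pderiv_monomial, MvPolynomial.X, monomial_mul, one_mul]
    simp only [eval_mono, integral_const_mul, integral_mono]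
    rw [← Finset.mul_prod_erase _ _ (Finset.mem_univ a),
      ← Finset.mul_prod_erase _ _ (Finset.mem_univ a)]
    have e1 : ∏ i ∈ Finset.univ.erase a,
        ∫ u, u ^ (Finsupp.single a 1 + s : Y →₀ ℕ) i ∂gaussianReal 0 1 =
        ∏ i ∈ Finset.univ.erase a,
        ∫ u, u ^ (s - Finsupp.single a 1 : Y →₀ ℕ) i ∂gaussianReal 0 1 :=
      Finset.prod_congr rfl fun i hi => by
        simp [Finsupp.single_eq_of_ne (Finset.ne_of_mem_erase hi)]
    rw [e1]
    simp only [Finsupp.coe_add, Pi.add_apply, Finsupp.single_eq_same, Finsupp.coe_tsub,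
      Pi.sub_apply]
    rw [add_comm 1, mom_succ]
    ring
  | add p q hp hq =>
    rw [mul_add, map_add]
    simp only [map_add]
    rw [integral_add (int_poly _) (int_poly _), integral_add (int_poly _) (int_poly _), hp, hq]

/-- the linear form -/
noncomputable def lf (U : Matrix Y Y ℝ) (b : Y) : MvPolynomial Y ℝ :=
  ∑ a, C (U a b) * MvPolynomial.X a

/-- the polynomial under the integral -/
noncomputable def pp (U : Matrix Y Y ℝ) (S T : Finset Y) : MvPolynomial Y ℝ :=
  (∏ a ∈ S, MvPolynomial.X a) * ∏ b ∈ T, lf U b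

lemma eval_pp (U : Matrix Y Y ℝ) (S T : Finset Y) (g : Y → ℝ) :
    eval g (pp U S T) = (∏ a ∈ S, g a) * ∏ b ∈ T, rot U g b := by
  simp [pp, lf, rot]

lemma pderiv_lf (U : Matrix Y Y ℝ) (a b : Y) : pderiv a (lf U b) = C (U a b) := by
  rw [lf, map_sum, Finset.sum_eq_single a]
  · rw [pderiv_C_mul, pderiv_X_self, mul_one]
  · intro c _ hc
    rw [pderiv_C_mul, pderiv_X_of_ne hc, mul_zero]
  · simp

lemma pderiv_prod (a : Y) (f : Y → MvPolynomial Y ℝ) (T : Finset Y) :
    pderiv a (∏ b ∈ T, f b) = ∑ b ∈ T, pderiv a (f b) * ∏ c ∈ T.erase b, f c := by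
  induction T using Finset.induction_on with
  | empty => simp
  | insert x T hx ih =>
    rw [Finset.prod_insert hx, pderiv_mul, ih, Finset.sum_insert hx, Finset.erase_insert hx,
      Finset.mul_sum]
    congr 1
    refine Finset.sum_congr rfl fun b hb => ?_
    have hne : x ≠ b := fun h => hx (h ▸ hb)
    rw [Finset.erase_insert_of_ne hne,
      Finset.prod_insert fun h => hx (Finset.mem_of_mem_erase h)]
    ring

end G1

theorem integrable_pm (U : Matrix Y Y ℝ) (S T : Finset Y) :
    Integrable (fun g : Y → ℝ => (∏ a ∈ S, g a) * ∏ b ∈ T, rot U g b) (gm Y) := by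
  simpa only [G1.eval_pp] using G1.int_poly (G1.pp U S T)

theorem pm_empty_empty (U : Matrix Y Y ℝ) : pm U ∅ ∅ = 1 := by
  simp [pm]

theorem pm_empty {U : Matrix Y Y ℝ} (hU : Uᵀ * U = 1) {T : Finset Y} (hT : T.Nonempty) :
    pm U ∅ T = 0 := by
  have h1 : pm U ∅ T = ∫ y, ∏ b ∈ T, y b ∂((gm Y).map (rot U)) := by
    rw [integral_map (measurable_rot U).aemeasurable
      (Measurable.aestronglyMeasurable (by fun_prop))]
    simp [pm]
  obtain ⟨b, hb⟩ := hT
  have h2 : ∀ y : Y → ℝ, ∏ b ∈ T, y b = ∏ i, y i ^ (if i ∈ T then 1 else 0) := fun y => by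
    simp only [pow_ite, pow_one, pow_zero]
    rw [Finset.prod_ite_mem, Finset.univ_inter]
  rw [h1, map_rot hU]
  simp only [h2]
  rw [G1.integral_mono]
  exact Finset.prod_eq_zero (Finset.mem_univ b) (by simp [hb])

/-- Stein's lemma -/
theorem pm_stein (U : Matrix Y Y ℝ) {S : Finset Y} (T : Finset Y) {a : Y} (ha : a ∈ S) :
    pm U S T = ∑ b ∈ T, U a b * pm U (S.erase a) (T.erase b) := by
  have e1 : G1.pp U S T = MvPolynomial.X a * G1.pp U (S.erase a) T := by
    rw [G1.pp, G1.pp, ← Finset.mul_prod_erase _ _ ha, mul_assoc]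
  have e2 : MvPolynomial.pderiv a (G1.pp U (S.erase a) T) =
      ∑ b ∈ T, MvPolynomial.C (U a b) * G1.pp U (S.erase a) (T.erase b) := by
    rw [G1.pp, MvPolynomial.pderiv_mul, G1.pderiv_prod, G1.pderiv_prod, Finset.sum_eq_zero,
      zero_mul, zero_add, Finset.mul_sum]
    · refine Finset.sum_congr rfl fun b _ => ?_
      rw [G1.pderiv_lf, G1.pp]
      ring
    · intro c hc
      rw [MvPolynomial.pderiv_X_of_ne (Finset.ne_of_mem_erase hc), zero_mul]
  have h := G1.stein a (G1.pp U (S.erase a) T)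
  rw [← e1, e2] at h
  simp only [map_sum, map_mul, MvPolynomial.eval_C, G1.eval_pp] at h
  rw [pm, h, integral_finsetSum _ fun b _ => (integrable_pm U _ _).const_mul _]
  simp only [integral_const_mul, pm]

end Vale.Agent.P362
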