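import Vale.Agent.P362.G1
import Vale.Agent.P362.Extrap

/-! # P362: G2a (see notes/P362.md) -/

namespace Vale.Agent.P362

open scoped BigOperators Matrix
open MeasureTheory ProbabilityTheory

variable {Y : Type} [Fintype Y] [DecidableEq Y] {k : ℕ}

namespace G2a

/-- the slice of `S` in block `j` -/
def sl (S : Finset (Fin (k + 1) × Y)) (j : Fin (k + 1)) : Finset Y :=
  Finset.univ.filter fun b => (j, b) ∈ S

lemma mem_sl {S : Finset (Fin (k + 1) × Y)} {j : Fin (k + 1)} {b : Y} :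
    b ∈ sl S j ↔ (j, b) ∈ S := by simp [sl]

lemma mem_gr {a : Fin (k + 1) → Y} {j : Fin (k + 1)} {b : Y} : (j, b) ∈ gr a ↔ b = a j := by
  simp only [gr, Finset.mem_image, Finset.mem_univ, true_and, Prod.mk.injEq]
  exact ⟨fun ⟨_, h1, h2⟩ => h1 ▸ h2.symm, fun h => ⟨j, rfl, h.symm⟩⟩

lemma prod_sl (S : Finset (Fin (k + 1) × Y)) (f : Fin (k + 1) × Y → ℝ) :
    ∏ i ∈ S, f i = ∏ j, ∏ b ∈ sl S j, f (j, b) := by
  simp only [sl, Finset.prod_filter]
  rw [← Fintype.prod_prod_type (fun i => if i ∈ S then f i else 1), Finset.prod_ite_mem,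
    Finset.univ_inter]

lemma prod_zz (U : Fin k → Matrix Y Y ℝ) (σ : ℝ) (S : Finset (Fin (k + 1) × Y))
    (ω : Fin k → Y → ℝ) : ∏ i ∈ S, zz U σ ω i =
      ∏ j : Fin k, σ ^ ((sl S j.castSucc).card + (sl S j.succ).card) *
        ((∏ a ∈ sl S j.castSucc, ω j a) * ∏ b ∈ sl S j.succ, rot (U j) (ω j) b) := by
  rw [prod_sl]
  simp only [zz, Finset.prod_mul_distrib]
  rw [Fin.prod_univ_succ, Fin.prod_univ_castSucc]
  simp only [Fin.cases_zero, Fin.cases_succ, Fin.lastCases_last, Fin.lastCases_castSucc,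
    Finset.prod_const_one, Finset.prod_mul_distrib, Finset.prod_const, pow_add]
  ring

lemma mom_zz (U : Fin k → Matrix Y Y ℝ) (σ : ℝ) (S : Finset (Fin (k + 1) × Y)) :
    ∫ ω, ∏ i ∈ S, zz U σ ω i ∂gms k Y =
      ∏ j : Fin k, σ ^ ((sl S j.castSucc).card + (sl S j.succ).card) *
        pm (U j) (sl S j.castSucc) (sl S j.succ) := by
  simp only [prod_zz]
  rw [gms, integral_fintype_prod_eq_prod (fun j (g : Y → ℝ) =>
    σ ^ ((sl S j.castSucc).card + (sl S j.succ).card) *
      ((∏ a ∈ sl S j.castSucc, g a) * ∏ b ∈ sl S j.succ, rot (U j) g b))]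
  simp only [integral_const_mul, pm]

lemma chain_sum (k : ℕ) (T : Fin (k + 1) → Finset Y) (F : Fin k → ℝ) (G : Fin k → Y → Y → ℝ)
    (h : ∀ j, ∀ a ∈ T j.castSucc, F j = ∑ b ∈ T j.succ, G j a b) :
    ∑ a : Fin (k + 1) → Y, (if ∀ j, a j ∈ T j then ∏ j, G j (a j.castSucc) (a j.succ) else 0) =
      (T 0).card * ∏ j, F j := by
  induction k with
  | zero =>
    rw [← (Equiv.funUnique (Fin 1) Y).symm.sum_comp]
    simp [Fin.forall_fin_one]
  | succ k ih =>
    have ih' := ih (fun j => T j.castSucc) (fun j => F j.castSucc) (fun j => G j.castSucc)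
      fun j a ha => h j.castSucc a ha
    rw [← (Fin.snocEquiv fun _ => Y).sum_comp, Fintype.sum_prod_type_right, Fin.prod_univ_castSucc,
      ← mul_assoc]
    simp only [Fin.castSucc_zero] at ih'
    rw [← ih', Finset.sum_mul]
    refine Finset.sum_congr rfl fun t _ => ?_
    simp only [Fin.snocEquiv_apply, Fin.forall_fin_succ', Fin.snoc_castSucc, Fin.snoc_last,
      Fin.prod_univ_castSucc, Fin.succ_castSucc, Fin.succ_last]
    by_cases ht : (∀ i : Fin k, t i.castSucc ∈ T i.castSucc.castSucc) ∧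
        t (Fin.last k) ∈ T (Fin.last k).castSucc
    · simp only [ht, true_and, and_self, if_true, implies_true]
      rw [h (Fin.last k) _ ht.2, Finset.mul_sum, Fin.succ_last, ← Finset.sum_filter]
      simp
    · simp [ht]

end G2a

open G2a

theorem integrable_zz (U : Fin k → Matrix Y Y ℝ) (σ : ℝ) (S : Finset (Fin (k + 1) × Y)) :
    Integrable (fun ω => ∏ i ∈ S, zz U σ ω i) (gms k Y) := by
  simp only [prod_zz]
  exact Integrable.fintype_prod (f := fun j (g : Y → ℝ) =>
    σ ^ ((sl S j.castSucc).card + (sl S j.succ).card) *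
      ((∏ a ∈ sl S j.castSucc, g a) * ∏ b ∈ sl S j.succ, rot (U j) g b))
    fun j => (integrable_pm _ _ _).const_mul _

/-- moments vanish when the first block is untouched -/
theorem zz_mom_zero {U : Fin k → Matrix Y Y ℝ} (hU : ∀ j, (U j)ᵀ * U j = 1) (σ : ℝ)
    {S : Finset (Fin (k + 1) × Y)} (hS : S.Nonempty) (h0 : ∀ i ∈ S, i.1 ≠ 0) :
    ∫ ω, ∏ i ∈ S, zz U σ ω i ∂gms k Y = 0 := by
  have h : ∃ j : Fin k, sl S j.castSucc = ∅ ∧ (sl S j.succ).Nonempty := by
    by_contra hc
    push Not at hc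
    have hall : ∀ j, sl S j = ∅ := fun j => by
      induction j using Fin.induction with
      | zero => exact Finset.eq_empty_of_forall_notMem fun b hb => h0 _ (mem_sl.mp hb) rfl
      | succ j ih => exact hc j ih
    obtain ⟨⟨j, b⟩, hi⟩ := hS
    have := mem_sl.mpr hi
    rw [hall] at this
    exact Finset.notMem_empty _ this
  obtain ⟨j, h1, h2⟩ := h
  rw [mom_zz]
  exact Finset.prod_eq_zero (Finset.mem_univ j) (by rw [h1, pm_empty (hU j) h2, mul_zero])

/-- iterated Stein identity along the chain -/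
theorem zz_mom_rec (U : Fin k → Matrix Y Y ℝ) (σ : ℝ) (S : Finset (Fin (k + 1) × Y)) :
    ((S.filter fun i => i.1 = 0).card : ℝ) * ∫ ω, ∏ i ∈ S, zz U σ ω i ∂gms k Y =
      σ ^ (2 * k) * ∑ a : Fin (k + 1) → Y, if gr a ⊆ S then
        hh U a * ∫ ω, ∏ i ∈ S \ gr a, zz U σ ω i ∂gms k Y else 0 := by
  have hc : (S.filter fun i => i.1 = 0).card = (sl S 0).card := by
    symm
    refine Finset.card_bij (fun b _ => ((0 : Fin (k + 1)), b)) (fun b hb => ?_)
      (fun _ _ _ _ h => (Prod.mk.inj h).2) fun i hi => ?_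
    · exact Finset.mem_filter.mpr ⟨mem_sl.mp hb, rfl⟩
    · obtain ⟨h1, h2⟩ := Finset.mem_filter.mp hi
      obtain ⟨j, b⟩ := i
      simp only at h2
      subst h2
      exact ⟨b, mem_sl.mpr h1, rfl⟩
  rw [hc, mom_zz, ← chain_sum k (sl S) _ (fun j a b => σ ^ 2 * U j a b *
    (σ ^ (((sl S j.castSucc).erase a).card + ((sl S j.succ).erase b).card) *
      pm (U j) ((sl S j.castSucc).erase a) ((sl S j.succ).erase b))), Finset.mul_sum]
  · refine Finset.sum_congr rfl fun a _ => ?_
    have h1 : gr a ⊆ S ↔ ∀ j, a j ∈ sl S j := by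
      simp only [mem_sl]
      exact ⟨fun h j => h (mem_gr.mpr rfl), fun h ⟨j, b⟩ hi => mem_gr.mp hi ▸ h j⟩
    have h2 : ∀ j, sl (S \ gr a) j = (sl S j).erase (a j) := fun j => by
      ext b
      simp only [mem_sl, Finset.mem_sdiff, mem_gr, Finset.mem_erase]
      tauto
    simp only [h1]
    split_ifs
    · rw [mom_zz]
      simp only [h2, Finset.prod_mul_distrib, hh, Finset.prod_const, Finset.card_univ,
        Fintype.card_fin, ← pow_mul]
      ring
    · simp
  · intro j a ha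
    rw [pm_stein (U j) _ ha, Finset.mul_sum]
    refine Finset.sum_congr rfl fun b hb => ?_
    rw [← Finset.card_erase_add_one ha, ← Finset.card_erase_add_one hb]
    ring

theorem gr_injective : Function.Injective (gr : (Fin (k + 1) → Y) → _) := by
  intro a a' h
  funext j
  have : (j, a j) ∈ gr a := mem_gr.mpr rfl
  rw [h] at this
  exact mem_gr.mp this

theorem card_gr (a : Fin (k + 1) → Y) : (gr a).card = k + 1 := by
  rw [gr, Finset.card_image_of_injective _ fun _ _ h => (Prod.mk.inj h).1]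
  simp

theorem sum_hh_sq {U : Fin k → Matrix Y Y ℝ} (hU : ∀ j, (U j)ᵀ * U j = 1) :
    ∑ a : Fin (k + 1) → Y, hh U a ^ 2 = Fintype.card Y := by
  have h := chain_sum k (fun _ => (Finset.univ : Finset Y)) (fun _ => 1)
    (fun j a b => U j a b ^ 2) fun j a _ => by
      have h' : U j * (U j)ᵀ = 1 := mul_eq_one_comm.mp (hU j)
      have := congrFun (congrFun h' a) a
      rw [Matrix.mul_apply, Matrix.one_apply_eq] at this
      rw [← this]
      exact Finset.sum_congr rfl fun b _ => by rw [Matrix.transpose_apply, sq]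
  simpa [hh, Finset.prod_pow] using h

theorem integrable_wt (U : Fin k → Matrix Y Y ℝ) (σ : ℝ) (w : Fin (k + 1) × Y → Bool) :
    Integrable (fun ω => wt (zz U σ ω) ∅ w) (gms k Y) := by
  simp only [wt_expand, Finset.empty_subset, if_true, Finset.sdiff_empty]
  exact (integrable_finsetSum _ fun S _ => (integrable_zz U σ S).const_mul _).const_mul _

theorem PP_sum (U : Fin k → Matrix Y Y ℝ) (σ : ℝ) : ∑ w, PP U σ w = 1 := by
  simp only [PP]
  rw [← integral_finsetSum _ fun w _ => integrable_wt U σ w]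
  simp [sum_wt_empty]

theorem PP_corr {U : Fin k → Matrix Y Y ℝ} (hU : ∀ j, (U j)ᵀ * U j = 1) (σ : ℝ) :
    ∑ w, PP U σ w * ∑ a : Fin (k + 1) → Y, hh U a * ∏ j, sg (w (j, a j)) =
      σ ^ (2 * k) * Fintype.card Y := by
  have h1 : ∀ a : Fin (k + 1) → Y, ∑ w, PP U σ w * ∏ j, sg (w (j, a j)) = σ ^ (2 * k) * hh U a := by
    intro a
    have e1 : ∀ w : Fin (k + 1) × Y → Bool, ∏ j, sg (w (j, a j)) = ∏ i ∈ gr a, sg (w i) := fun w => by
      rw [gr, Finset.prod_image fun _ _ _ _ h => (Prod.mk.inj h).1]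
    have e2 : ∀ j, sl (gr a) j = {a j} := fun j => by
      ext b; simp [mem_sl, mem_gr]
    simp only [e1, PP, ← integral_mul_const]
    rw [← integral_finsetSum _ fun w _ => (integrable_wt U σ w).mul_const _]
    simp only [sum_wt_mul_sg]
    rw [mom_zz]
    have e3 : ∀ (V : Matrix Y Y ℝ) (x y : Y), pm V {x} {y} = V x y := fun V x y => by
      rw [pm_stein V _ (Finset.mem_singleton_self x)]
      simp [pm_empty_empty]
    simp only [e2, e3, Finset.card_singleton, Finset.prod_mul_distrib, hh, Finset.prod_const,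
      Finset.card_univ, Fintype.card_fin, ← pow_mul]
  simp only [Finset.mul_sum]
  rw [Finset.sum_comm, ← sum_hh_sq hU, Finset.mul_sum]
  refine Finset.sum_congr rfl fun a _ => ?_
  rw [sq, mul_left_comm, ← h1 a, Finset.mul_sum]
  exact Finset.sum_congr rfl fun w _ => by ring

end Vale.Agent.P362
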