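import Vale.Agent.P362.G1

/-! # P362: G3 (see notes/P362.md) -/

namespace Vale.Agent.P362

open scoped BigOperators Matrix
open MeasureTheory ProbabilityTheory

variable {Y : Type} [Fintype Y] [DecidableEq Y]

namespace G3

lemma one_le_mx (u : ℝ) : 1 ≤ mx u := le_max_left _ _

lemma mx_nonneg (u : ℝ) : 0 ≤ mx u := zero_le_one.trans (one_le_mx u)

lemma mx_mul (x y : ℝ) : mx (x * y) ≤ mx x * mx y := by
  refine max_le (one_le_mul_of_one_le_of_one_le (one_le_mx x) (one_le_mx y)) ?_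
  have h1 : 2 * |x| ≤ mx x := le_max_right _ _
  have h2 : 2 * |y| ≤ mx y := le_max_right _ _
  have h3 := mul_le_mul h1 h2 (by positivity) (mx_nonneg x)
  rw [abs_mul]
  nlinarith [mul_nonneg (abs_nonneg x) (abs_nonneg y)]

lemma mx_sq (u : ℝ) {r : ℕ} (hr : 1 ≤ r) : mx u ^ 2 ≤ 1 + (2 * u) ^ (2 * r) := by
  have h0 : 0 ≤ (2 * u) ^ (2 * r) := by rw [pow_mul]; positivity
  rcases le_total (2 * |u|) 1 with h | h
  · rw [mx, max_eq_left h]; linarith
  · rw [mx, max_eq_right h]
    have h1 : (2 * |u|) ^ 2 ≤ (2 * |u|) ^ (2 * r) := pow_le_pow_right₀ h (by omega)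
    have h2 : (2 * |u|) ^ (2 * r) = (2 * u) ^ (2 * r) := by
      rw [pow_mul, pow_mul, mul_pow 2 |u|, mul_pow 2 u, sq_abs]
    linarith

lemma mom_le (r j : ℕ) (hj : j ≤ r) :
    0 ≤ ∫ u, u ^ (2 * j) ∂gaussianReal 0 1 ∧
      ∫ u, u ^ (2 * j) ∂gaussianReal 0 1 ≤ (2 * r : ℝ) ^ j := by
  induction j with
  | zero => simp
  | succ j ih =>
    obtain ⟨h0, h1⟩ := ih (by omega)
    rw [show 2 * (j + 1) = 2 * j + 2 by ring, gauss_mom_rec]
    refine ⟨by positivity, ?_⟩
    rw [pow_succ']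
    refine mul_le_mul ?_ h1 h0 (by positivity)
    have : (j : ℝ) + 1 ≤ r := by exact_mod_cast hj
    push_cast
    linarith

lemma int_q (σ : ℝ) (r : ℕ) :
    Integrable (fun u : ℝ => 1 + (2 * (σ * u)) ^ (2 * r)) (gaussianReal 0 1) := by
  have : (fun u : ℝ => 1 + (2 * (σ * u)) ^ (2 * r)) =
      fun u => 1 + (2 * σ) ^ (2 * r) * u ^ (2 * r) := by
    funext u; ring
  rw [this]
  exact (integrable_const _).add ((gauss_integrable_pow _).const_mul _)

lemma integral_q (σ : ℝ) (r : ℕ) :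
    ∫ u, (1 + (2 * (σ * u)) ^ (2 * r)) ∂gaussianReal 0 1 ≤ 1 + (8 * σ ^ 2 * r) ^ r := by
  have : (fun u : ℝ => 1 + (2 * (σ * u)) ^ (2 * r)) =
      fun u => 1 + (2 * σ) ^ (2 * r) * u ^ (2 * r) := by
    funext u; ring
  rw [this, integral_add (integrable_const _) ((gauss_integrable_pow _).const_mul _),
    integral_const_mul]
  have h := (mom_le r r le_rfl).2
  have h2 : (8 * σ ^ 2 * r) ^ r = (2 * σ) ^ (2 * r) * (2 * r : ℝ) ^ r := by
    rw [pow_mul, ← mul_pow]; congr 1; ring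
  have h3 : 0 ≤ (2 * σ) ^ (2 * r) := by rw [pow_mul]; positivity
  rw [h2]
  simp only [integral_const, probReal_univ, smul_eq_mul, mul_one]
  linarith [mul_le_mul_of_nonneg_left h h3]

lemma measurable_mx : Measurable mx := by
  unfold mx
  fun_prop

end G3

open G3

theorem tail_pair {U : Matrix Y Y ℝ} (hU : Uᵀ * U = 1) (σ : ℝ) (r : ℕ) (hr : 1 ≤ r) :
    Integrable (fun g : Y → ℝ => (∏ a, mx (σ * g a)) * ∏ b, mx (σ * rot U g b)) (gm Y) ∧
    ∫ g, (∏ a, mx (σ * g a)) * ∏ b, mx (σ * rot U g b) ∂gm Y ≤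
      (1 + (8 * σ ^ 2 * r) ^ r) ^ Fintype.card Y := by
  set Q : (Y → ℝ) → ℝ := fun g => ∏ a, (1 + (2 * (σ * g a)) ^ (2 * r)) with hQ
  have hQi : Integrable Q (gm Y) :=
    Integrable.fintype_prod (f := fun _ (u : ℝ) => 1 + (2 * (σ * u)) ^ (2 * r)) fun _ => int_q σ r
  have hQm : Measurable Q := by rw [hQ]; fun_prop
  have hQr : Integrable (fun g => Q (rot U g)) (gm Y) := by
    have := hQi
    rw [← map_rot hU, integrable_map_measure hQm.aestronglyMeasurable
      (measurable_rot U).aemeasurable] at this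
    exact this
  have hQe : ∫ g, Q (rot U g) ∂gm Y = ∫ g, Q g ∂gm Y := by
    rw [← integral_map (measurable_rot U).aemeasurable hQm.aestronglyMeasurable, map_rot hU]
  have hQb : ∫ g, Q g ∂gm Y ≤ (1 + (8 * σ ^ 2 * r) ^ r) ^ Fintype.card Y := by
    have := integral_fintype_prod_eq_pow (ι := Y) (μ := gaussianReal 0 1)
      (fun u : ℝ => 1 + (2 * (σ * u)) ^ (2 * r))
    rw [hQ, gm, this]
    refine pow_le_pow_left₀ (integral_nonneg fun u => ?_) (integral_q σ r) _
    have : 0 ≤ (2 * (σ * u)) ^ (2 * r) := by rw [pow_mul]; positivity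
    simp only [Pi.zero_apply]
    linarith
  have hA : ∀ g : Y → ℝ, (∏ a, mx (σ * g a)) ^ 2 ≤ Q g := fun g => by
    rw [← Finset.prod_pow]
    exact Finset.prod_le_prod (fun _ _ => sq_nonneg _) fun a _ => mx_sq _ hr
  have hle : ∀ g : Y → ℝ, (∏ a, mx (σ * g a)) * ∏ b, mx (σ * rot U g b) ≤
      (Q g + Q (rot U g)) / 2 := fun g => by
    nlinarith [hA g, hA (rot U g), sq_nonneg ((∏ a, mx (σ * g a)) - ∏ b, mx (σ * rot U g b))]
  have hint : Integrable (fun g : Y → ℝ => (∏ a, mx (σ * g a)) * ∏ b, mx (σ * rot U g b))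
      (gm Y) := by
    refine ((hQi.add hQr).div_const 2).mono' (Measurable.aestronglyMeasurable ?_)
      (ae_of_all _ fun g => ?_)
    · have hm : Measurable fun g : Y → ℝ => ∏ a, mx (σ * g a) :=
        Finset.measurable_prod _ fun a _ => measurable_mx.comp (by fun_prop)
      exact hm.mul (hm.comp (measurable_rot U))
    · rw [Real.norm_of_nonneg (mul_nonneg (Finset.prod_nonneg fun _ _ => mx_nonneg _)
        (Finset.prod_nonneg fun _ _ => mx_nonneg _))]
      exact hle g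
  refine ⟨hint, (integral_mono hint ((hQi.add hQr).div_const 2) hle).trans ?_⟩
  simp only [Pi.add_apply]
  rw [integral_div, integral_add hQi hQr, hQe]
  linarith

/-- a dominating integrable function for the chain -/
theorem tail_chain {k : ℕ} (hk : 1 ≤ k) {U : Fin k → Matrix Y Y ℝ} (hU : ∀ j, (U j)ᵀ * U j = 1)
    (σ : ℝ) (r : ℕ) (hr : 1 ≤ r) :
    ∃ Λ : (Fin k → Y → ℝ) → ℝ, Integrable Λ (gms k Y) ∧ (∀ ω, ∏ i, mx (zz U σ ω i) ≤ Λ ω) ∧
      ∫ ω, Λ ω ∂gms k Y ≤ (1 + (8 * σ ^ 2 * r) ^ r) ^ (Fintype.card Y * k) := by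
  let f : Fin k → (Y → ℝ) → ℝ := fun j g => (∏ a, mx (σ * g a)) * ∏ b, mx (σ * rot (U j) g b)
  refine ⟨fun ω => ∏ j, f j (ω j),
    Integrable.fintype_prod fun j => (tail_pair (hU j) σ r hr).1, fun ω => ?_, ?_⟩
  · let α : Fin (k + 1) → Y → ℝ := fun j b =>
      Fin.cases 1 (fun j : Fin k => mx (σ * rot (U j) (ω j) b)) j
    let β : Fin (k + 1) → Y → ℝ := fun j b =>
      Fin.lastCases 1 (fun j : Fin k => mx (σ * ω j b)) j
    have h1 : ∀ j b, mx (zz U σ ω (j, b)) ≤ α j b * β j b := fun j b => by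
      rcases Fin.eq_zero_or_eq_succ j with h0 | ⟨j0, h0⟩ <;>
        rcases Fin.eq_castSucc_or_eq_last j with ⟨j1, h1⟩ | h1
      · have a1 : α j b = 1 := by rw [h0]; rfl
        have a2 : β j b = mx (σ * ω j1 b) := by rw [h1]; simp [β]
        have a3 : zz U σ ω (j, b) = σ * ω j1 b := by
          have c1 : (Fin.cases 1 (fun j : Fin k => σ * rot (U j) (ω j) b) j : ℝ) = 1 := by
            rw [h0]; rfl
          have c2 : (Fin.lastCases 1 (fun j : Fin k => σ * ω j b) j : ℝ) = σ * ω j1 b := by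
            rw [h1]; simp
          unfold zz
          simp only [c1, c2, one_mul, mul_one]
        rw [a1, a2, a3, one_mul]
      · exfalso
        have := congrArg Fin.val (h0.symm.trans h1)
        simp at this
        omega
      · have a1 : α j b = mx (σ * rot (U j0) (ω j0) b) := by rw [h0]; rfl
        have a2 : β j b = mx (σ * ω j1 b) := by rw [h1]; simp [β]
        have a3 : zz U σ ω (j, b) = (σ * rot (U j0) (ω j0) b) * (σ * ω j1 b) := by
          have c1 : (Fin.cases 1 (fun j : Fin k => σ * rot (U j) (ω j) b) j : ℝ) = σ * rot (U j0) (ω j0) b := by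
            rw [h0]; rfl
          have c2 : (Fin.lastCases 1 (fun j : Fin k => σ * ω j b) j : ℝ) = σ * ω j1 b := by
            rw [h1]; simp
          unfold zz
          simp only [c1, c2, one_mul, mul_one]
        rw [a1, a2, a3]
        exact mx_mul _ _
      · have a1 : α j b = mx (σ * rot (U j0) (ω j0) b) := by rw [h0]; rfl
        have a2 : β j b = 1 := by rw [h1]; simp [β]
        have a3 : zz U σ ω (j, b) = σ * rot (U j0) (ω j0) b := by
          have c1 : (Fin.cases 1 (fun j : Fin k => σ * rot (U j) (ω j) b) j : ℝ) = σ * rot (U j0) (ω j0) b := by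
            rw [h0]; rfl
          have c2 : (Fin.lastCases 1 (fun j : Fin k => σ * ω j b) j : ℝ) = 1 := by
            rw [h1]; simp
          unfold zz
          simp only [c1, c2, one_mul, mul_one]
        rw [a1, a2, a3, mul_one]
    calc ∏ i, mx (zz U σ ω i) = ∏ j, ∏ b, mx (zz U σ ω (j, b)) := Fintype.prod_prod_type _
      _ ≤ ∏ j, ∏ b, α j b * β j b :=
        Finset.prod_le_prod (fun _ _ => Finset.prod_nonneg fun _ _ => mx_nonneg _) fun j _ =>
          Finset.prod_le_prod (fun _ _ => mx_nonneg _) fun b _ => h1 j b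
      _ = (∏ j, ∏ b, α j b) * ∏ j, ∏ b, β j b := by simp only [Finset.prod_mul_distrib]
      _ = ∏ j, f j (ω j) := by
        rw [Fin.prod_univ_succ, Fin.prod_univ_castSucc]
        simp [α, β, f, Finset.prod_mul_distrib, mul_comm]
  · rw [gms, integral_fintype_prod_eq_prod f, pow_mul]
    calc ∏ j, ∫ g, f j g ∂gm Y ≤ ∏ _j : Fin k, (1 + (8 * σ ^ 2 * r) ^ r) ^ Fintype.card Y :=
          Finset.prod_le_prod (fun j _ => integral_nonneg fun g =>
            mul_nonneg (Finset.prod_nonneg fun _ _ => mx_nonneg _)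
              (Finset.prod_nonneg fun _ _ => mx_nonneg _)) fun j _ => (tail_pair (hU j) σ r hr).2
      _ = _ := by simp

end Vale.Agent.P362
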