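import Vale.Agent.P362.G2a
import Vale.Agent.P362.G3
import Vale.Agent.P362.Extrap

/-! # P362: G2b (see notes/P362.md) -/

namespace Vale.Agent.P362

open scoped BigOperators Matrix
open MeasureTheory ProbabilityTheory

variable {Y : Type} [Fintype Y] [DecidableEq Y] {k : ℕ}

theorem PP_abs (hk : 1 ≤ k) {U : Fin k → Matrix Y Y ℝ} (hU : ∀ j, (U j)ᵀ * U j = 1) (σ : ℝ)
    (r : ℕ) (hr : 1 ≤ r) :
    ∑ w, |PP U σ w| ≤ (1 + (8 * σ ^ 2 * r) ^ r) ^ (Fintype.card Y * k) := by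
  obtain ⟨Λ, h1, h2, h3⟩ := tail_chain hk hU σ r hr
  calc ∑ w, |PP U σ w| ≤ ∑ w, ∫ ω, |wt (zz U σ ω) ∅ w| ∂gms k Y :=
        Finset.sum_le_sum fun w _ => abs_integral_le_integral_abs
    _ = ∫ ω, ∑ w, |wt (zz U σ ω) ∅ w| ∂gms k Y :=
        (integral_finsetSum _ fun w _ => (integrable_wt U σ w).abs).symm
    _ ≤ ∫ ω, Λ ω ∂gms k Y :=
        integral_mono (integrable_finsetSum _ fun w _ => (integrable_wt U σ w).abs) h1
          fun ω => (sum_abs_wt_le _).trans (h2 ω)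
    _ ≤ _ := h3

namespace G2b

/-- the chain point with the first block scaled by `s` -/
noncomputable def zs (U : Fin k → Matrix Y Y ℝ) (σ s : ℝ) (ω : Fin k → Y → ℝ)
    (i : Fin (k + 1) × Y) : ℝ := (if i.1 = 0 then s else 1) * zz U σ ω i

/-- number of elements in the first block -/
def n0 (S : Finset (Fin (k + 1) × Y)) : ℕ := (S.filter fun i => i.1 = 0).card

/-- unnormalised Fourier coefficient -/
noncomputable def Fh (F : (Fin (k + 1) × Y → Bool) → ℝ) (S : Finset (Fin (k + 1) × Y)) : ℝ :=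
  ∑ w, F w * ∏ i ∈ S, sg (w i)

lemma Dext_zs (U : Fin k → Matrix Y Y ℝ) (σ s : ℝ) (ω : Fin k → Y → ℝ)
    (J : Finset (Fin (k + 1) × Y)) (F : (Fin (k + 1) × Y → Bool) → ℝ) :
    Dext J F (zs U σ s ω) = (1 / 2) ^ Fintype.card (Fin (k + 1) × Y) *
      ∑ S, (if J ⊆ S then Fh F S * s ^ n0 (S \ J) else 0) * ∏ i ∈ S \ J, zz U σ ω i := by
  simp only [Dext, wt_expand, Finset.mul_sum]
  rw [Finset.sum_comm]
  refine Finset.sum_congr rfl fun S _ => ?_
  split_ifs
  · simp only [zs, Finset.prod_mul_distrib, Finset.prod_ite, Finset.prod_const, one_pow, mul_one,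
      Fh, n0, Finset.sum_mul, Finset.mul_sum]
    exact Finset.sum_congr rfl fun w _ => by ring
  · simp

lemma int_Dext (U : Fin k → Matrix Y Y ℝ) (σ s : ℝ)
    (J : Finset (Fin (k + 1) × Y)) (F : (Fin (k + 1) × Y → Bool) → ℝ) :
    Integrable (fun ω => Dext J F (zs U σ s ω)) (gms k Y) := by
  simp only [Dext_zs]
  exact (integrable_finsetSum _ fun S _ => (integrable_zz U σ _).const_mul _).const_mul _

lemma integral_Dext (U : Fin k → Matrix Y Y ℝ) (σ s : ℝ)
    (J : Finset (Fin (k + 1) × Y)) (F : (Fin (k + 1) × Y → Bool) → ℝ) :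
    ∫ ω, Dext J F (zs U σ s ω) ∂gms k Y = (1 / 2) ^ Fintype.card (Fin (k + 1) × Y) *
      ∑ S, (if J ⊆ S then Fh F S * s ^ n0 (S \ J) else 0) *
        ∫ ω, ∏ i ∈ S \ J, zz U σ ω i ∂gms k Y := by
  simp only [Dext_zs]
  rw [integral_const_mul, integral_finsetSum _ fun S _ => (integrable_zz U σ _).const_mul _]
  simp only [integral_const_mul]

lemma n0_sdiff {a : Fin (k + 1) → Y} {S : Finset (Fin (k + 1) × Y)} (h : gr a ⊆ S) :
    n0 (S \ gr a) = n0 S - 1 := by
  have h1 : ((S \ gr a).filter fun i => i.1 = 0) = (S.filter fun i => i.1 = 0).erase (0, a 0) := by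
    ext ⟨j, b⟩
    simp only [Finset.mem_filter, Finset.mem_sdiff, G2a.mem_gr, Finset.mem_erase, ne_eq,
      Prod.mk.injEq]
    constructor
    · rintro ⟨⟨h1, h2⟩, rfl⟩
      exact ⟨fun h => h2 h.2, h1, rfl⟩
    · rintro ⟨h1, h2, rfl⟩
      exact ⟨⟨h2, fun h => h1 ⟨rfl, h⟩⟩, rfl⟩
  have h2 : ((0 : Fin (k + 1)), a 0) ∈ S.filter fun i => i.1 = 0 :=
    Finset.mem_filter.mpr ⟨h (G2a.mem_gr.mpr rfl), rfl⟩
  rw [n0, h1, Finset.card_erase_of_mem h2, n0]

end G2b

open G2b in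
/-- the chain distribution fools functions with a small level-`(k+1)` chain sum -/
theorem PP_test (hk : 1 ≤ k) {U : Fin k → Matrix Y Y ℝ} (hU : ∀ j, (U j)ᵀ * U j = 1) (σ : ℝ)
    (r : ℕ) (hr : 1 ≤ r) (F : (Fin (k + 1) × Y → Bool) → ℝ) (Bd : ℝ)
    (hB : ∀ p : Fin (k + 1) × Y → ℝ, (∀ i, |p i| ≤ 1 / 2) →
      |∑ a : Fin (k + 1) → Y, hh U a * Dext (gr a) F p| ≤ Bd) :
    |∑ w, PP U σ w * F w - (∑ w, F w) / 2 ^ Fintype.card (Fin (k + 1) × Y)| ≤
      σ ^ (2 * k) * Bd * (1 + (8 * σ ^ 2 * r) ^ r) ^ (Fintype.card Y * k) := by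
  obtain ⟨Λ, h1, h2, h3⟩ := tail_chain hk hU σ r hr
  have hB0 : 0 ≤ Bd := (abs_nonneg _).trans (hB 0 fun i => by simp)
  have hσ : 0 ≤ σ ^ (2 * k) := by rw [pow_mul]; positivity
  set c : ℝ := (1 / 2) ^ Fintype.card (Fin (k + 1) × Y) with hc
  set m : Finset (Fin (k + 1) × Y) → ℝ := fun S => ∫ ω, ∏ i ∈ S, zz U σ ω i ∂gms k Y with hm
  let Φ : ℝ → ℝ := fun s => c * ∑ S, Fh F S * s ^ n0 S * m S
  let Φ' : ℝ → ℝ := fun s => c * ∑ S, Fh F S * (n0 S * s ^ (n0 S - 1)) * m S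
  have hd : ∀ s, HasDerivAt Φ (Φ' s) s := fun s =>
    (HasDerivAt.fun_sum fun S _ => ((hasDerivAt_pow _ s).const_mul _).mul_const _).const_mul c
  have e1 : Φ 1 = ∑ w, PP U σ w * F w := by
    have h := integral_Dext U σ 1 ∅ F
    have hz : ∀ ω, zs U σ 1 ω = zz U σ ω := fun ω => by funext i; simp [zs]
    simp only [hz, Finset.empty_subset, if_true, Finset.sdiff_empty, Dext] at h
    rw [integral_finsetSum _ fun w _ => (integrable_wt U σ w).const_mul _] at h
    simp only [integral_const_mul] at h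
    refine h.symm.trans (Finset.sum_congr rfl fun w _ => ?_)
    rw [PP, mul_comm]
  have e0 : Φ 0 = (∑ w, F w) / 2 ^ Fintype.card (Fin (k + 1) × Y) := by
    have : ∑ S, Fh F S * (0 : ℝ) ^ n0 S * m S = ∑ w, F w := by
      rw [Finset.sum_eq_single ∅]
      · simp [Fh, n0, hm]
      · intro S _ hS
        by_cases h0 : n0 S = 0
        · have : m S = 0 := zz_mom_zero hU σ (Finset.nonempty_iff_ne_empty.mpr hS)
            (Finset.filter_eq_empty_iff.mp (Finset.card_eq_zero.mp h0))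
          rw [this, mul_zero]
        · rw [zero_pow h0, mul_zero, zero_mul]
      · simp
    change c * _ = _
    rw [this, hc, one_div, inv_pow, mul_comm, div_eq_mul_inv]
  have e2 : ∀ s, Φ' s = σ ^ (2 * k) *
      ∫ ω, ∑ a : Fin (k + 1) → Y, hh U a * Dext (gr a) F (zs U σ s ω) ∂gms k Y := fun s => by
    rw [integral_finsetSum _ fun a _ => (int_Dext U σ s _ F).const_mul _]
    simp only [integral_const_mul, integral_Dext, Finset.mul_sum, Φ']
    rw [Finset.sum_comm]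
    refine Finset.sum_congr rfl fun S _ => ?_
    have h := zz_mom_rec U σ S
    calc c * (Fh F S * (n0 S * s ^ (n0 S - 1)) * m S)
        = c * Fh F S * s ^ (n0 S - 1) * (n0 S * m S) := by ring
      _ = _ := by
        rw [n0, hm, h, Finset.mul_sum, Finset.mul_sum]
        refine Finset.sum_congr rfl fun a _ => ?_
        split_ifs with ha
        · rw [n0_sdiff ha, n0]; ring
        · simp
  rw [← e1, ← e0, ← Real.norm_eq_abs]
  refine norm_image_sub_le_of_norm_deriv_le_segment_01' (f' := Φ')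
    (fun s _ => (hd s).hasDerivWithinAt) fun s hs => ?_
  rw [e2, Real.norm_eq_abs, abs_mul, abs_of_nonneg hσ, mul_assoc]
  refine mul_le_mul_of_nonneg_left ?_ hσ
  refine le_trans ?_ (mul_le_mul_of_nonneg_left h3 hB0)
  rw [← integral_const_mul, ← Real.norm_eq_abs]
  refine norm_integral_le_of_norm_le (h1.const_mul Bd) (ae_of_all _ fun ω => ?_)
  refine (extrap (hh U) gr F Bd hB _).trans (mul_le_mul_of_nonneg_left (le_trans ?_ (h2 ω)) hB0)
  refine Finset.prod_le_prod (fun _ _ => G3.mx_nonneg _) fun i _ => max_le_max le_rfl ?_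
  have : |(if i.1 = 0 then s else 1)| ≤ 1 := by
    split_ifs
    · rw [abs_of_nonneg hs.1]; exact hs.2.le
    · simp
  rw [zs, abs_mul]
  nlinarith [abs_nonneg (zz U σ ω i), abs_nonneg (if i.1 = 0 then s else 1)]

end Vale.Agent.P362
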