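import Vale.Agent.P362.G2b
import Vale.Agent.P362.Forr

/-! # P362: Hard1 (see notes/P362.md) -/

namespace Vale.Agent.P362

open scoped BigOperators Matrix

/-- the orthogonal matrices of the chain with address `a` -/
noncomputable def Uad (k d : ℕ) (a : X d) (j : Fin k) : Matrix (X d) (X d) ℝ :=
  Matrix.of fun b c => (chi c b : ℝ) / Real.sqrt (2 ^ d) *
    (if j.val + 1 = k then (chi a c : ℝ) else 1)

theorem Uad_orth (k d : ℕ) (a : X d) (j : Fin k) : (Uad k d a j)ᵀ * Uad k d a j = 1 := by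
  ext c c'
  have h := congrArg (Int.cast : ℤ → ℝ) (chi_orth c c')
  have h2 := congrArg (Int.cast : ℤ → ℝ) (chi_sq a c)
  have h3 : √(2 ^ d) * √(2 ^ d) = 2 ^ d := Real.mul_self_sqrt (by positivity)
  push_cast at h h2
  have e : ∀ x y s u v : ℝ, x / s * u * (y / s * v) = x * y / (s * s) * (u * v) := by
    intros; ring
  simp only [Matrix.mul_apply, Matrix.transpose_apply, Uad, Matrix.of_apply, e,
    ← Finset.sum_mul, ← Finset.sum_div, h, h3, Matrix.one_apply]
  by_cases e : c = c'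
  · subst e
    split_ifs <;> simp [*]
  · simp [e]

theorem hh_Uad_sq (k d : ℕ) (a : X d) (b : Fin (k + 1) → X d) :
    hh (Uad k d a) b ^ 2 = (1 / 2 ^ d) ^ k := by
  have : ∀ j c c', Uad k d a j c c' ^ 2 = 1 / 2 ^ d := fun j c c' => by
    have h := congrArg (Int.cast : ℤ → ℝ) (chi_sq c' c)
    have h2 := congrArg (Int.cast : ℤ → ℝ) (chi_sq a c')
    push_cast at h h2
    rw [Uad, Matrix.of_apply, mul_pow, div_pow, Real.sq_sqrt (by positivity), sq, h, sq]
    split_ifs <;> simp [*]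
  simp only [hh, ← Finset.prod_pow, this, Finset.prod_const, Finset.card_univ, Fintype.card_fin]

theorem vv_expand {d : ℕ} (s v : ℕ → X d → ℤ) (h0 : ∀ b, v 0 b = 1)
    (h : ∀ j b, v (j + 1) b = ∑ c, chi b c * (s j c * v j c)) (n : ℕ) (a : X d) :
    v (n + 1) a = ∑ b : Fin (n + 1) → X d, (∏ j : Fin n, chi (b j.succ) (b j.castSucc)) *
      chi a (b (Fin.last n)) * ∏ j : Fin (n + 1), s j (b j) := by
  induction n generalizing a with
  | zero =>
    rw [h, ← (Equiv.funUnique (Fin 1) (X d)).symm.sum_comp]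
    simp [h0]
  | succ n ih =>
    rw [h, ← (Fin.snocEquiv fun _ => X d).sum_comp, Fintype.sum_prod_type]
    refine Finset.sum_congr rfl fun c _ => ?_
    simp only [ih, Finset.mul_sum]
    refine Finset.sum_congr rfl fun b _ => ?_
    conv_rhs => rw [Fin.prod_univ_castSucc (n := n), Fin.prod_univ_castSucc (n := n + 1)]
    simp only [Fin.snocEquiv_apply, Fin.succ_castSucc, Fin.snoc_castSucc, Fin.succ_last,
      Fin.snoc_last, Fin.val_castSucc, Fin.val_last]
    ring

theorem phi_eq {k d : ℕ} (hk : 1 ≤ k) (w : Fin (k + 1) × X d → Bool) (a : X d) :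
    phi w a = (∑ b : Fin (k + 1) → X d, hh (Uad k d a) b * ∏ j, sg (w (j, b j))) / 2 ^ d := by
  obtain ⟨k, rfl⟩ := Nat.exists_eq_add_of_le' hk
  have h := congrArg (Int.cast : ℤ → ℝ) (vv_expand
    (fun j c => if h : j < k + 1 + 1 then sgz (w (⟨j, h⟩, c)) else 0) (vv w) (fun _ => rfl)
    (fun j b => by rw [vv]; split_ifs <;> simp [*]) (k + 1) a)
  have e : ∀ b, (sgz b : ℝ) = sg b := by simp [sg, sgz]
  simp only [Fin.is_lt, dif_pos, Fin.eta] at h
  push_cast at h
  rw [phi, h, pow_add _ (k + 1) 2, Real.sq_sqrt (by positivity), ← div_div, Finset.sum_div]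
  congr 1
  refine Finset.sum_congr rfl fun b _ => ?_
  have : ∏ j : Fin (k + 1), (if j.val + 1 = k + 1 then (chi a (b j.succ) : ℝ) else 1) =
      chi a (b (Fin.last _)) := by
    rw [Fin.prod_univ_castSucc, Finset.prod_eq_one fun j _ => if_neg (by simp; omega)]
    simp
  simp only [hh, Uad, Matrix.of_apply, Finset.prod_mul_distrib, this, Finset.prod_div_distrib, e,
    Finset.prod_const, Finset.card_univ, Fintype.card_fin]
  ring

/-- the conditioned positive part of the chain measure -/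
theorem hard1 {k d : ℕ} (hk : 1 ≤ k) (σ : ℝ) (hσ : 0 < σ) (hσ1 : σ ≤ 1) (r : ℕ) (hr : 1 ≤ r)
    (τ : ℝ) (hτ : (1 + (8 * σ ^ 2 * r) ^ r) ^ (2 ^ d * k) ≤ 1 + τ)
    (hτγ : τ ≤ σ ^ (2 * k) / 4) (a : X d) :
    ∃ D : (Fin (k + 1) × X d → Bool) → ℝ, (∀ w, 0 ≤ D w) ∧ ∑ w, D w = 1 ∧
      (∀ w, D w ≠ 0 → σ ^ (2 * k) / 4 ≤ phi w a) ∧
      ∀ (F : (Fin (k + 1) × X d → Bool) → ℝ) (Bd : ℝ), (∀ w, 0 ≤ F w) → (∀ w, F w ≤ 1) →
        (∀ p : Fin (k + 1) × X d → ℝ, (∀ i, |p i| ≤ 1 / 2) →
          |∑ b : Fin (k + 1) → X d, hh (Uad k d a) b * Dext (gr b) F p| ≤ Bd) →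
        ∑ w, D w * F w ≤ 4 / σ ^ (2 * k) *
          ((∑ w, F w) / 2 ^ Fintype.card (Fin (k + 1) × X d) +
            σ ^ (2 * k) * Bd * (1 + τ) + τ) := by
  classical
  have hc : Fintype.card (X d) = 2 ^ d := by simp
  have h1 := PP_sum (Uad k d a) σ
  have h2 := (PP_abs hk (Uad_orth k d a) σ r hr).trans (hc ▸ hτ)
  have h3 := PP_corr (Uad_orth k d a) σ
  have h4 := PP_test hk (Uad_orth k d a) σ r hr
  have hγ : 0 < σ ^ (2 * k) := by positivity
  have hγ1 : σ ^ (2 * k) ≤ 1 := pow_le_one₀ hσ.le hσ1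
  rw [hc] at h3 h4
  generalize σ ^ (2 * k) = γ at *
  generalize PP (Uad k d a) σ = P at *
  have h5 : ∑ w, P w * phi w a = γ := by
    simp only [phi_eq hk, ← mul_div_assoc, ← Finset.sum_div, h3]
    simp
  have h6 : ∑ w, (|P w| - P w) / 2 ≤ τ / 2 := by
    rw [← Finset.sum_div, Finset.sum_sub_distrib]; linarith
  let E := fun w => if γ / 4 ≤ phi w a then max (P w) 0 else 0
  have hE : ∀ w, 0 ≤ E w := fun w => by simp only [E]; positivity
  have hZ : γ / 4 ≤ ∑ w, E w := by
    have : ∑ w, P w * phi w a ≤ ∑ w, (E w + γ / 4 * |P w| + (|P w| - P w) / 2) :=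
      Finset.sum_le_sum fun w _ => by
        have := abs_le.1 (abs_phi_le_one w a)
        simp only [E]
        rcases le_total 0 (P w) with h | h
        · rw [abs_of_nonneg h, max_eq_left h]
          split_ifs <;> nlinarith
        · rw [abs_of_nonpos h, max_eq_right h, ite_self]
          nlinarith
    rw [Finset.sum_add_distrib, Finset.sum_add_distrib, ← Finset.mul_sum] at this
    nlinarith
  have hZ0 : 0 < ∑ w, E w := by linarith
  refine ⟨fun w => E w / ∑ w, E w, fun w => div_nonneg (hE w) hZ0.le,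
    by rw [← Finset.sum_div, div_self hZ0.ne'], fun w h => by_contra fun h' => h (by simp [E, h']),
    fun F Bd f0 f1 hB => ?_⟩
  have b0 := (abs_nonneg _).trans (hB 0 (by simp))
  have h7 := (abs_le.1 ((h4 F Bd hB).trans (mul_le_mul_of_nonneg_left hτ (by positivity)))).2
  have h8 : ∑ w, E w * F w ≤ ∑ w, (P w * F w + (|P w| - P w) / 2) :=
    Finset.sum_le_sum fun w _ => by
      have := f0 w
      have := f1 w
      simp only [E]
      rcases le_total 0 (P w) with h | h
      · rw [abs_of_nonneg h, max_eq_left h]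
        split_ifs <;> nlinarith
      · rw [abs_of_nonpos h, max_eq_right h, ite_self]
        nlinarith
  have h9 := h1 ▸ (Finset.sum_le_sum fun w _ => le_abs_self (P w)).trans h2
  rw [Finset.sum_add_distrib] at h8
  simp only [div_mul_eq_mul_div _ (∑ w, E w), ← Finset.sum_div _ _ (∑ w, E w)]
  refine (div_le_div_of_nonneg_left (Finset.sum_nonneg fun w _ => mul_nonneg (hE w) (f0 w))
    (by positivity) hZ).trans ?_
  rw [div_div_eq_mul_div, mul_div_assoc, mul_comm]
  gcongr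
  linarith

end Vale.Agent.P362
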