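import Vale.Agent.P362.Base

/-! # P362: Lev (see notes/P362.md) -/

namespace Vale.Agent.P362

open scoped BigOperators Matrix

namespace Levx

theorem taylor (u h : ℝ) (m : ℕ) :
    |(u + h) ^ (m + 2) - u ^ (m + 2) - (m + 2) * u ^ (m + 1) * h| ≤
      (m + 2) ^ 2 * h ^ 2 * (|u| + |h|) ^ m := by
  induction m with
  | zero =>
    have : (u + h) ^ (0 + 2) - u ^ (0 + 2) - ((0 : ℕ) + 2) * u ^ (0 + 1) * h = h ^ 2 := by
      push_cast
      ring
    rw [this, abs_of_nonneg (sq_nonneg h)]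
    have := sq_nonneg h
    push_cast
    nlinarith
  | succ m ih =>
    have e : (u + h) ^ (m + 1 + 2) - u ^ (m + 1 + 2) - ((m + 1 : ℕ) + 2) * u ^ (m + 1 + 1) * h =
        (u + h) * ((u + h) ^ (m + 2) - u ^ (m + 2) - (m + 2) * u ^ (m + 1) * h) +
          (m + 2) * h ^ 2 * u ^ (m + 1) := by
      push_cast
      ring
    rw [e]
    have hM : 0 ≤ |u| + |h| := by positivity
    have a1 : |(u + h) * ((u + h) ^ (m + 2) - u ^ (m + 2) - (m + 2) * u ^ (m + 1) * h)| ≤
        (|u| + |h|) * ((m + 2) ^ 2 * h ^ 2 * (|u| + |h|) ^ m) := by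
      rw [abs_mul]
      exact mul_le_mul (abs_add_le u h) ih (abs_nonneg _) hM
    have a2 : |(m + 2) * h ^ 2 * u ^ (m + 1)| ≤ (m + 2) * h ^ 2 * (|u| + |h|) ^ (m + 1) := by
      rw [abs_mul, abs_of_nonneg (by positivity : (0 : ℝ) ≤ (m + 2) * h ^ 2), abs_pow]
      refine mul_le_mul_of_nonneg_left ?_ (by positivity)
      exact pow_le_pow_left₀ (abs_nonneg _) (le_add_of_nonneg_right (abs_nonneg _)) _
    refine le_trans (abs_add_le _ _) (le_trans (add_le_add a1 a2) ?_)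
    have a3 : 0 ≤ h ^ 2 * (|u| + |h|) ^ (m + 1) := by positivity
    have a4 : (0 : ℝ) ≤ m := Nat.cast_nonneg m
    have e2 : (|u| + |h|) * ((m + 2) ^ 2 * h ^ 2 * (|u| + |h|) ^ m) +
        (m + 2) * h ^ 2 * (|u| + |h|) ^ (m + 1) =
        ((m + 2) ^ 2 + (m + 2)) * (h ^ 2 * (|u| + |h|) ^ (m + 1)) := by ring
    rw [e2, mul_assoc]
    refine mul_le_mul_of_nonneg_right ?_ a3
    push_cast
    nlinarith

theorem split_bound (m : ℕ) (R a b : ℝ) (hR : 1 ≤ R) (ha : 0 ≤ a) (hb : 0 ≤ b) :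
    (m + 2) ^ 2 * (2 * b) ^ 2 * (a + 2 * b) ^ m ≤
      1 / R ^ 2 * a ^ (m + 2) + ((2 * (m + 2) * 2 ^ m + 2) * R) ^ (m + 2) * b ^ (m + 2) := by
  have hm : (0 : ℝ) ≤ m := Nat.cast_nonneg m
  have h2 : (1 : ℝ) ≤ 2 ^ m := one_le_pow₀ (by norm_num)
  set γ : ℝ := 2 * (m + 2) * 2 ^ m with hγ
  have hγ1 : 2 * (m + 2) ≤ γ := by rw [hγ]; nlinarith
  have hR0 : 0 < R := by linarith
  rcases le_or_gt (γ * R * b) a with hc | hc
  · have b1 : 2 * b ≤ a := by
      have : 2 ≤ γ * R := by nlinarith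
      nlinarith
    have b2 : (a + 2 * b) ^ m ≤ 2 ^ m * a ^ m := by
      rw [← mul_pow]
      exact pow_le_pow_left₀ (by positivity) (by linarith) _
    have b3 : (γ * R * b) ^ 2 ≤ a ^ 2 := pow_le_pow_left₀ (by positivity) hc _
    have b4 : (m + 2) ^ 2 * (2 * b) ^ 2 * 2 ^ m ≤ 1 / R ^ 2 * a ^ 2 := by
      rw [one_div, ← div_eq_inv_mul, le_div_iff₀ (by positivity)]
      refine le_trans ?_ b3
      have e : (γ * R * b) ^ 2 = (m + 2) ^ 2 * (2 * b) ^ 2 * 2 ^ m * R ^ 2 * 2 ^ m := by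
        rw [hγ]; ring
      rw [e]
      exact le_mul_of_one_le_right (by positivity) h2
    have b5 : 0 ≤ ((γ + 2) * R) ^ (m + 2) * b ^ (m + 2) := by positivity
    calc (m + 2) ^ 2 * (2 * b) ^ 2 * (a + 2 * b) ^ m
        ≤ (m + 2) ^ 2 * (2 * b) ^ 2 * (2 ^ m * a ^ m) :=
          mul_le_mul_of_nonneg_left b2 (by positivity)
      _ = (m + 2) ^ 2 * (2 * b) ^ 2 * 2 ^ m * a ^ m := by ring
      _ ≤ 1 / R ^ 2 * a ^ 2 * a ^ m := mul_le_mul_of_nonneg_right b4 (by positivity)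
      _ = 1 / R ^ 2 * a ^ (m + 2) := by ring
      _ ≤ _ := le_add_of_nonneg_right b5
  · have b1 : a + 2 * b ≤ (γ + 2) * R * b := by nlinarith
    have b2 : (a + 2 * b) ^ m ≤ ((γ + 2) * R * b) ^ m :=
      pow_le_pow_left₀ (by positivity) b1 _
    have b3 : (m + 2) * (2 * b) ≤ (γ + 2) * R * b := by
      have : 2 * (m + 2) ≤ (γ + 2) * R := by nlinarith
      nlinarith
    have b4 : ((m + 2) * (2 * b)) ^ 2 ≤ ((γ + 2) * R * b) ^ 2 :=
      pow_le_pow_left₀ (by positivity) b3 _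
    have b5 : 0 ≤ 1 / R ^ 2 * a ^ (m + 2) := by positivity
    calc (m + 2) ^ 2 * (2 * b) ^ 2 * (a + 2 * b) ^ m
        = ((m + 2) * (2 * b)) ^ 2 * (a + 2 * b) ^ m := by ring
      _ ≤ ((γ + 2) * R * b) ^ 2 * ((γ + 2) * R * b) ^ m :=
          mul_le_mul b4 b2 (by positivity) (by positivity)
      _ = ((γ + 2) * R) ^ (m + 2) * b ^ (m + 2) := by
          rw [← pow_add, add_comm 2 m, mul_pow]
      _ ≤ _ := le_add_of_nonneg_left b5

theorem two_point (m : ℕ) (hP : Even (m + 2)) (R u v π0 π1 ψ0 ψ1 : ℝ) (hR : 1 ≤ R)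
    (h0 : 0 ≤ π0) (h1 : 0 ≤ π1) (hs : π0 + π1 = 1) (hz : π0 * ψ0 + π1 * ψ1 = 0)
    (g0 : |ψ0| ≤ 2) (g1 : |ψ1| ≤ 2) :
    π0 * (u + ψ0 * v) ^ (m + 2) + π1 * (u + ψ1 * v) ^ (m + 2) ≤
      (1 + 1 / R ^ 2) * u ^ (m + 2) +
        ((2 * (m + 2) * 2 ^ m + 2) * R) ^ (m + 2) * v ^ (m + 2) := by
  have key : ∀ ψ : ℝ, |ψ| ≤ 2 → (u + ψ * v) ^ (m + 2) ≤ u ^ (m + 2) + (m + 2) * u ^ (m + 1) * v * ψ +
      (m + 2) ^ 2 * (2 * |v|) ^ 2 * (|u| + 2 * |v|) ^ m := by
    intro ψ hψ
    have a1 := (abs_le.1 (taylor u (ψ * v) m)).2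
    have a2 : |ψ * v| ≤ 2 * |v| := by
      rw [abs_mul]
      exact mul_le_mul_of_nonneg_right hψ (abs_nonneg _)
    have a3 : (ψ * v) ^ 2 ≤ (2 * |v|) ^ 2 := by
      rw [← sq_abs (ψ * v)]
      exact pow_le_pow_left₀ (abs_nonneg _) a2 _
    have a4 : (|u| + |ψ * v|) ^ m ≤ (|u| + 2 * |v|) ^ m :=
      pow_le_pow_left₀ (by positivity) (by linarith) _
    have a5 : (m + 2) ^ 2 * (ψ * v) ^ 2 * (|u| + |ψ * v|) ^ m ≤
        (m + 2) ^ 2 * (2 * |v|) ^ 2 * (|u| + 2 * |v|) ^ m :=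
      mul_le_mul (mul_le_mul_of_nonneg_left a3 (by positivity)) a4 (by positivity) (by positivity)
    linarith
  have b := split_bound m R |u| |v| hR (abs_nonneg _) (abs_nonneg _)
  rw [hP.pow_abs, hP.pow_abs] at b
  have k0 := mul_le_mul_of_nonneg_left (key ψ0 g0) h0
  have k1 := mul_le_mul_of_nonneg_left (key ψ1 g1) h1
  generalize (m + 2) ^ 2 * (2 * |v|) ^ 2 * (|u| + 2 * |v|) ^ m = E at *
  generalize (m + 2) * u ^ (m + 1) * v = G at *
  have e : π0 * (u ^ (m + 2) + G * ψ0 + E) + π1 * (u ^ (m + 2) + G * ψ1 + E) =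
      (π0 + π1) * (u ^ (m + 2) + E) + G * (π0 * ψ0 + π1 * ψ1) := by ring
  rw [hs, hz] at e
  linarith

variable {ι : Type} [Fintype ι] [DecidableEq ι]

theorem sum_wt (z : ι → ℝ) (J : Finset ι) : ∑ w, wt z J w = if J = ∅ then 1 else 0 := by
  have := Finset.prod_univ_sum (fun _ : ι => (Finset.univ : Finset Bool))
    (fun i b => if i ∈ J then sg b / 2 else (1 + z i * sg b) / 2)
  rw [Fintype.piFinset_univ] at this
  unfold wt
  rw [← this]
  have e : ∀ i, (∑ b : Bool, if i ∈ J then sg b / 2 else (1 + z i * sg b) / 2) =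
      if i ∈ J then 0 else 1 := by
    intro i
    rw [Fintype.sum_bool]
    split_ifs <;> simp [sg] <;> ring
  simp only [e]
  split_ifs with h
  · simp [h]
  · obtain ⟨i, hi⟩ := Finset.nonempty_iff_ne_empty.2 h
    exact Finset.prod_eq_zero (Finset.mem_univ i) (if_pos hi)

/-- the weight without the coordinate `i` -/
noncomputable def wr (z : ι → ℝ) (J : Finset ι) (i : ι) (w : ι → Bool) : ℝ :=
  ∏ j ∈ Finset.univ.erase i, if j ∈ J then sg (w j) / 2 else (1 + z j * sg (w j)) / 2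

theorem wt_not {z : ι → ℝ} {J : Finset ι} {i : ι} (h : i ∉ J) (w : ι → Bool) :
    wt z J w = (1 + z i * sg (w i)) / 2 * wr z J i w := by
  unfold wt wr
  rw [← Finset.mul_prod_erase _ _ (Finset.mem_univ i), if_neg h]

theorem wt_ins (z : ι → ℝ) (J : Finset ι) (i : ι) (w : ι → Bool) :
    wt z (insert i J) w = sg (w i) / 2 * wr z J i w := by
  unfold wt wr
  rw [← Finset.mul_prod_erase _ _ (Finset.mem_univ i), if_pos (Finset.mem_insert_self _ _)]
  congr 1
  refine Finset.prod_congr rfl fun j hj => ?_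
  simp [Finset.ne_of_mem_erase hj]

theorem wt_upd {z : ι → ℝ} {J : Finset ι} {i : ι} (h : i ∉ J) (x : ℝ) (w : ι → Bool) :
    wt (Function.update z i x) J w = (1 + x * sg (w i)) / 2 * wr z J i w := by
  rw [wt_not h, Function.update_self]
  congr 1
  unfold wr
  refine Finset.prod_congr rfl fun j hj => ?_
  rw [Function.update_of_ne (Finset.ne_of_mem_erase hj)]

theorem dext_not {J : Finset ι} {i : ι} (h : i ∉ J) (t0 t1 : DT ι) (p : ι → ℝ) :
    Dext J (fun w => ind ((DT.node i t0 t1).eval w)) p =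
      (1 + p i) / 2 * Dext J (fun w => ind (t0.eval w)) (Function.update p i 1) +
      (1 - p i) / 2 * Dext J (fun w => ind (t1.eval w)) (Function.update p i (-1)) := by
  unfold Dext
  rw [Finset.mul_sum, Finset.mul_sum, ← Finset.sum_add_distrib]
  refine Finset.sum_congr rfl fun w _ => ?_
  rw [wt_not h, wt_upd h, wt_upd h]
  cases hw : w i <;> simp [DT.eval, hw, sg] <;> ring

theorem dext_ins {J : Finset ι} {i : ι} (h : i ∉ J) (t0 t1 : DT ι) (p : ι → ℝ) :
    Dext (insert i J) (fun w => ind ((DT.node i t0 t1).eval w)) p =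
      1 / 2 * Dext J (fun w => ind (t0.eval w)) (Function.update p i 1) +
      (-1) / 2 * Dext J (fun w => ind (t1.eval w)) (Function.update p i (-1)) := by
  unfold Dext
  rw [Finset.mul_sum, Finset.mul_sum, ← Finset.sum_add_distrib]
  refine Finset.sum_congr rfl fun w _ => ?_
  rw [wt_ins, wt_upd h, wt_upd h]
  cases hw : w i <;> simp [DT.eval, hw, sg] <;> ring

theorem sum_split (i : ι) (g : Finset ι → ℝ) :
    ∑ J, g J = ∑ J ∈ (Finset.univ.erase i).powerset, (g J + g (insert i J)) := by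
  rw [Finset.sum_add_distrib, ← Finset.sum_powerset_insert (Finset.notMem_erase i _),
    Finset.insert_erase (Finset.mem_univ i), Finset.powerset_univ]

theorem not_mem_of {i : ι} {J : Finset ι} (h : J ∈ (Finset.univ.erase i).powerset) : i ∉ J :=
  fun hi => Finset.notMem_erase i _ (Finset.mem_powerset.1 h hi)

theorem main (m : ℕ) (hP : Even (m + 2)) (R lam : ℝ) (hR : 1 ≤ R)
    (hlam : lam = ((2 * (m + 2) * 2 ^ m + 2) * R) ^ (m + 2)) (t : DT ι) :
    ∀ (p : ι → ℝ) (A : Finset ι → ℝ),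
      (∀ i, |p i| ≤ 1 / 2 ∨ (|p i| ≤ 1 ∧ ∀ J, i ∈ J → A J = 0)) →
      (∑ J, A J * Dext J (fun w => ind (t.eval w)) p) ^ (m + 2) ≤
        (1 + 1 / R ^ 2) ^ t.depth * ∑ J : Finset ι, lam ^ J.card * A J ^ (m + 2) := by
  have hl0 : 0 ≤ lam := by rw [hlam]; positivity
  have hq : (1 : ℝ) ≤ 1 + 1 / R ^ 2 := le_add_of_nonneg_right (by positivity)
  induction t with
  | leaf b =>
    intro p A _
    have e : ∑ J, A J * Dext J (fun w => ind ((DT.leaf b : DT ι).eval w)) p = A ∅ * ind b := by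
      simp only [Dext, DT.eval, ← Finset.mul_sum, sum_wt]
      simp
    rw [e, DT.depth, pow_zero, one_mul]
    have a1 : (A ∅ * ind b) ^ (m + 2) ≤ lam ^ (∅ : Finset ι).card * A ∅ ^ (m + 2) := by
      have := hP.pow_nonneg (A ∅)
      cases b <;> simp [ind, this]
    exact le_trans a1 (Finset.single_le_sum (f := fun J : Finset ι => lam ^ J.card * A J ^ (m + 2))
      (fun J _ => mul_nonneg (pow_nonneg hl0 _) (hP.pow_nonneg _)) (Finset.mem_univ _))
  | node i t0 t1 ih0 ih1 =>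
    intro p A hinv
    have hpi : |p i| ≤ 1 := by
      rcases hinv i with h | h
      · linarith
      · exact h.1
    have hpi' := abs_le.1 hpi
    obtain ⟨ψ0, ψ1, g0, g1, hz, k0, k1⟩ : ∃ ψ0 ψ1 : ℝ, |ψ0| ≤ 2 ∧ |ψ1| ≤ 2 ∧
        (1 + p i) / 2 * ψ0 + (1 - p i) / 2 * ψ1 = 0 ∧
        (∀ J, (1 + p i) / 2 * ψ0 * A (insert i J) = 1 / 2 * A (insert i J)) ∧
        (∀ J, (1 - p i) / 2 * ψ1 * A (insert i J) = (-1) / 2 * A (insert i J)) := by
      rcases hinv i with h | h
      · have h' := abs_le.1 h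
        have n0 : 0 < 1 + p i := by linarith
        have n1 : 0 < 1 - p i := by linarith
        refine ⟨1 / (1 + p i), -1 / (1 - p i), ?_, ?_, ?_, fun J => ?_, fun J => ?_⟩
        · rw [abs_of_pos (by positivity), div_le_iff₀ n0]
          linarith
        · rw [neg_div, abs_neg, abs_of_pos (by positivity), div_le_iff₀ n1]
          linarith
        · field_simp
          ring
        · field_simp
        · field_simp
      · refine ⟨0, 0, by simp, by simp, by simp, fun J => ?_, fun J => ?_⟩ <;>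
          simp [h.2 _ (Finset.mem_insert_self i J)]
    have hI : ∀ (x ψ : ℝ), |x| ≤ 1 → ∀ j, |Function.update p i x j| ≤ 1 / 2 ∨
        (|Function.update p i x j| ≤ 1 ∧ ∀ J, j ∈ J →
          (if i ∈ J then 0 else A J + ψ * A (insert i J)) = 0) := by
      intro x ψ hx j
      by_cases hj : j = i
      · subst hj
        rw [Function.update_self]
        exact Or.inr ⟨hx, fun J hJ => if_pos hJ⟩
      · rw [Function.update_of_ne hj]
        rcases hinv j with h | h
        · exact Or.inl h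
        · refine Or.inr ⟨h.1, fun J hJ => ?_⟩
          rw [h.2 J hJ, h.2 _ (Finset.mem_insert_of_mem hJ)]
          simp
    have r0 := ih0 _ _ (hI 1 ψ0 (by simp))
    have r1 := ih1 _ _ (hI (-1) ψ1 (by simp))
    have red : ∀ (ψ : ℝ) (G : Finset ι → ℝ → ℝ), (∀ J, G J 0 = 0) →
        ∑ J, G J (if i ∈ J then 0 else A J + ψ * A (insert i J)) =
          ∑ J ∈ (Finset.univ.erase i).powerset, G J (A J + ψ * A (insert i J)) := by
      intro ψ G hG
      rw [sum_split i]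
      refine Finset.sum_congr rfl fun J hJ => ?_
      rw [if_neg (not_mem_of hJ), if_pos (Finset.mem_insert_self _ _), hG, add_zero]
    rw [red ψ0 (fun J a => a * Dext J (fun w => ind (t0.eval w)) (Function.update p i 1))
        (by simp), red ψ0 (fun J a => lam ^ J.card * a ^ (m + 2)) (by simp)] at r0
    rw [red ψ1 (fun J a => a * Dext J (fun w => ind (t1.eval w)) (Function.update p i (-1)))
        (by simp), red ψ1 (fun J a => lam ^ J.card * a ^ (m + 2)) (by simp)] at r1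
    have hV : ∑ J, A J * Dext J (fun w => ind ((DT.node i t0 t1).eval w)) p =
        (1 + p i) / 2 * ∑ J ∈ (Finset.univ.erase i).powerset, (A J + ψ0 * A (insert i J)) *
          Dext J (fun w => ind (t0.eval w)) (Function.update p i 1) +
        (1 - p i) / 2 * ∑ J ∈ (Finset.univ.erase i).powerset, (A J + ψ1 * A (insert i J)) *
          Dext J (fun w => ind (t1.eval w)) (Function.update p i (-1)) := by
      rw [sum_split i, Finset.mul_sum, Finset.mul_sum, ← Finset.sum_add_distrib]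
      refine Finset.sum_congr rfl fun J hJ => ?_
      rw [dext_not (not_mem_of hJ), dext_ins (not_mem_of hJ)]
      linear_combination
        (-Dext J (fun w => ind (t0.eval w)) (Function.update p i 1)) * k0 J +
        (-Dext J (fun w => ind (t1.eval w)) (Function.update p i (-1))) * k1 J
    rw [hV]
    have π0 : 0 ≤ (1 + p i) / 2 := by linarith
    have π1 : 0 ≤ (1 - p i) / 2 := by linarith
    have cvx := (hP.convexOn_pow (𝕜 := ℝ)).2 (Set.mem_univ
      (∑ J ∈ (Finset.univ.erase i).powerset, (A J + ψ0 * A (insert i J)) *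
          Dext J (fun w => ind (t0.eval w)) (Function.update p i 1)))
      (Set.mem_univ (∑ J ∈ (Finset.univ.erase i).powerset, (A J + ψ1 * A (insert i J)) *
          Dext J (fun w => ind (t1.eval w)) (Function.update p i (-1)))) π0 π1 (by ring)
    simp only [smul_eq_mul] at cvx
    refine le_trans cvx ?_
    have nn : ∀ ψ : ℝ, 0 ≤ ∑ J ∈ (Finset.univ.erase i).powerset,
        lam ^ J.card * (A J + ψ * A (insert i J)) ^ (m + 2) :=
      fun ψ => Finset.sum_nonneg fun J _ => mul_nonneg (pow_nonneg hl0 _) (hP.pow_nonneg _)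
    have r0' := le_trans r0 (mul_le_mul_of_nonneg_right
      (pow_le_pow_right₀ hq (le_max_left t0.depth t1.depth)) (nn ψ0))
    have r1' := le_trans r1 (mul_le_mul_of_nonneg_right
      (pow_le_pow_right₀ hq (le_max_right t0.depth t1.depth)) (nn ψ1))
    refine le_trans (add_le_add (mul_le_mul_of_nonneg_left r0' π0)
      (mul_le_mul_of_nonneg_left r1' π1)) ?_
    rw [DT.depth, pow_succ (1 + 1 / R ^ 2), mul_left_comm ((1 + p i) / 2), mul_left_comm ((1 - p i) / 2),
      ← mul_add, mul_assoc]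
    refine mul_le_mul_of_nonneg_left ?_ (by positivity)
    rw [sum_split i, Finset.mul_sum, Finset.mul_sum, Finset.mul_sum, ← Finset.sum_add_distrib]
    refine Finset.sum_le_sum fun J hJ => ?_
    have tp := two_point m hP R (A J) (A (insert i J)) _ _ ψ0 ψ1 hR π0 π1 (by ring) hz g0 g1
    rw [← hlam] at tp
    rw [Finset.card_insert_of_notMem (not_mem_of hJ)]
    have a1 := mul_le_mul_of_nonneg_left tp (pow_nonneg hl0 J.card)
    have a2 : 0 ≤ 1 / R ^ 2 * (lam ^ (J.card + 1) * A (insert i J) ^ (m + 2)) :=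
      mul_nonneg (by positivity) (mul_nonneg (pow_nonneg hl0 _) (hP.pow_nonneg _))
    rw [pow_succ lam] at a2 ⊢
    linarith

end Levx

/-- level bound for decision trees (potential-function proof) -/
theorem level_bound (P : ℕ) (hP : Even P) (hP2 : 2 ≤ P) : ∃ β : ℝ, 0 < β ∧
    ∀ (ι : Type) [Fintype ι] [DecidableEq ι] (κ : Type) [Fintype κ] (t : DT ι) (Rr : ℕ),
      1 ≤ Rr → t.depth ≤ Rr ^ 2 → ∀ (c : κ → ℝ) (J : κ → Finset ι), Function.Injective J →
      ∀ p : ι → ℝ, (∀ i, |p i| ≤ 1 / 2) →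
      (∑ q, c q * Dext (J q) (fun w => ind (t.eval w)) p) ^ P ≤
        3 * ∑ q, (β * Rr) ^ (P * (J q).card) * c q ^ P := by
  obtain ⟨m, rfl⟩ : ∃ m, P = m + 2 := ⟨P - 2, by omega⟩
  refine ⟨2 * (m + 2) * 2 ^ m + 2, by positivity, ?_⟩
  intro ι _ _ κ _ t Rr hR ht c J hJ p hp
  have hR' : (1 : ℝ) ≤ Rr := by exact_mod_cast hR
  have h := Levx.main m hP Rr _ hR' rfl t p (Function.extend J c 0) fun i => Or.inl (hp i)
  have hz : ∀ I ∉ Set.range J, Function.extend J c 0 I = 0 := fun I hI =>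
    Function.extend_apply' _ _ _ hI
  rw [← Fintype.sum_of_injective J hJ (fun q => c q * Dext (J q) (fun w => ind (t.eval w)) p) _
      (fun I hI => by rw [hz I hI, zero_mul]) (fun q => by rw [hJ.extend_apply]),
    ← Fintype.sum_of_injective J hJ
      (fun q => ((2 * (m + 2) * 2 ^ m + 2) * (Rr : ℝ)) ^ ((m + 2) * (J q).card) * c q ^ (m + 2)) _
      (fun I hI => by rw [hz I hI]; simp) (fun q => by rw [hJ.extend_apply, pow_mul])] at h
  refine le_trans h (mul_le_mul_of_nonneg_right ?_ (Finset.sum_nonneg fun q _ =>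
    mul_nonneg (by positivity) (hP.pow_nonneg _)))
  have hq : (1 : ℝ) ≤ 1 + 1 / (Rr : ℝ) ^ 2 := le_add_of_nonneg_right (by positivity)
  calc (1 + 1 / (Rr : ℝ) ^ 2) ^ t.depth ≤ (1 + 1 / (Rr : ℝ) ^ 2) ^ (Rr ^ 2) :=
        pow_le_pow_right₀ hq ht
    _ ≤ Real.exp (1 / (Rr : ℝ) ^ 2) ^ (Rr ^ 2) :=
        pow_le_pow_left₀ (by positivity) (by linarith [Real.add_one_le_exp (1 / (Rr : ℝ) ^ 2)]) _
    _ = Real.exp 1 := by
        rw [← Real.exp_nat_mul]
        congr 1
        push_cast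
        field_simp
    _ ≤ 3 := by linarith [Real.exp_one_lt_d9]

end Vale.Agent.P362
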