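import Vale.Agent.P362.Base

/-! # P362: QNum (see notes/P362.md) -/

namespace Vale.Agent.P362

open scoped BigOperators Matrix
open Filter

/-- polynomially bounded functions -/
def Pol (f : ℕ → ℕ) : Prop := ∃ C e : ℕ, ∀ s, 1 ≤ s → f s ≤ C * s ^ e

theorem Pol.const (c : ℕ) : Pol fun _ => c := ⟨c, 0, by simp⟩

theorem Pol.id : Pol fun s => s := ⟨1, 1, by simp⟩

theorem Pol.add {f g : ℕ → ℕ} : Pol f → Pol g → Pol fun s => f s + g s := by
  rintro ⟨C, e, h⟩ ⟨C', e', h'⟩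
  refine ⟨C + C', e + e', fun s hs => ?_⟩
  rw [add_mul]
  exact add_le_add ((h s hs).trans (by gcongr; omega)) ((h' s hs).trans (by gcongr; omega))

theorem Pol.mul {f g : ℕ → ℕ} : Pol f → Pol g → Pol fun s => f s * g s := by
  rintro ⟨C, e, h⟩ ⟨C', e', h'⟩
  exact ⟨C * C', e + e', fun s hs => (mul_le_mul' (h s hs) (h' s hs)).trans_eq (by ring)⟩

theorem Pol.pow {f : ℕ → ℕ} (n : ℕ) : Pol f → Pol fun s => f s ^ n := by
  rintro ⟨C, e, h⟩
  exact ⟨C ^ n, e * n, fun s hs => (pow_le_pow_left' (h s hs) n).trans_eq (by ring)⟩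

theorem Pol.ev {f : ℕ → ℕ} (h : Pol f) : ∀ᶠ u in atTop, f u ≤ 2 ^ u := by
  obtain ⟨C, e, h⟩ := h
  have := (tendsto_pow_const_div_const_pow_of_one_lt e (r := 2) one_lt_two).const_mul (C : ℝ)
  filter_upwards [this.eventually_le_const (u := 1) (by simp), eventually_ge_atTop 1] with u h1 h2
  rw [← mul_div_assoc, div_le_one (by positivity)] at h1
  exact (h u h2).trans (by exact_mod_cast h1)

theorem pow_mul_le_one {x : ℝ} (h0 : 0 ≤ x) (h1 : x ≤ 1) (n : ℕ) : (1 - x) ^ n * (n * x) ≤ 1 :=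
  calc _ ≤ (1 - x) ^ n * (1 + x) ^ n := mul_le_mul_of_nonneg_left
        (by linarith [one_add_mul_le_pow (a := x) (by linarith) n]) (pow_nonneg (by linarith) _)
    _ ≤ 1 := by rw [← mul_pow]; exact pow_le_one₀ (by nlinarith) (by nlinarith)

theorem th_pos (k d : ℕ) (hd : 1 ≤ d) : 0 < th k d := by
  unfold th; positivity

theorem th_le_one (k d : ℕ) (hd : 1 ≤ d) : th k d ≤ 1 := by
  have : (1 : ℝ) ≤ d := by exact_mod_cast hd
  have : (1 / (48 * (d : ℝ))) ^ k ≤ 1 :=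
    pow_le_one₀ (by positivity) (div_le_one_of_le₀ (by linarith) (by positivity))
  unfold th; linarith

/-- parameter choice for `qub` with `d = 2 s`, `B = Bw k d`, `θ = th k d` -/
theorem q_params (k : ℕ) : ∃ C e : ℕ, ∀ s : ℕ, 1 ≤ s → ∃ t J Rr r : ℕ,
    2 * 2 ^ (2 * s) ≤ J ^ 2 ∧ 2 * (2 : ℝ) ^ (2 * s) * (7 / 8) ^ t ≤ 1 / 12 ∧
    ((t : ℝ) + 1) * (1 - th k (2 * s) ^ 2) ^ Rr ≤ 1 / 12 ∧
    (t : ℝ) * (Rr * (3 / 4) ^ r) ≤ 1 / 3 ∧
    t * (2 * J * (t * (Rr * (k + 1 + (2 * s + 1))))) +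
        t * (Rr * (k + 1 + r * (2 * J * (10 * (k + 1) * (2 * s + 1) * (Bw k (2 * s) + 1))))) ≤
      C * s ^ e * 2 ^ s := by
  obtain ⟨R, hR, e⟩ : ∃ R, Pol R ∧ ∀ s, R s = 12 * (40 * s + 1) * (16 * (96 * s) ^ (2 * k)) :=
    ⟨_, by
      repeat' with_reducible first
        | exact .const _ | exact .id | apply Pol.add | apply Pol.mul | apply Pol.pow,
      fun _ => rfl⟩
  obtain ⟨C, e', h⟩ : Pol fun s => 40 * s * (4 * (40 * s * (R s * (k + 1 + (2 * s + 1))))) +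
      40 * s * (R s * (k + 1 + 12 * (40 * s * R s) *
        (4 * (10 * (k + 1) * (2 * s + 1) * (2 * s * (k + 1) + 2 + 1))))) := by
    repeat' with_reducible first
      | exact .const _ | exact .id | exact hR | apply Pol.add | apply Pol.mul
  refine ⟨C, e', fun s hs => ⟨40 * s, 2 * 2 ^ s, R s, 12 * (40 * s * R s), ?_, ?_, ?_, ?_, ?_⟩⟩
  · rw [mul_pow, ← pow_mul, mul_comm s]; omega
  · rw [pow_mul, pow_mul, mul_assoc, ← mul_pow]
    have := pow_le_of_le_one (a := (2 : ℝ) ^ 2 * (7 / 8) ^ 40) (by positivity) (by norm_num)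
      (by omega : s ≠ 0)
    exact (mul_le_mul_of_nonneg_left this zero_le_two).trans (by norm_num)
  · have := pow_mul_le_one (sq_nonneg (th k (2 * s)))
      (pow_le_one₀ (th_pos _ _ (by omega)).le (th_le_one _ _ (by omega))) (R s)
    have e2 : (R s : ℝ) * th k (2 * s) ^ 2 = 12 * ((40 * s : ℕ) + 1) := by
      rw [e, th, div_pow, ← pow_mul, mul_comm k, one_div, inv_pow]
      push_cast
      rw [show (48 * (2 * s) : ℝ) = 96 * s by ring]
      field_simp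
      norm_num
    rw [e2] at this
    linarith
  · have := pow_mul_le_one (x := 1 / 4) (by norm_num) (by norm_num) (12 * (40 * s * R s))
    rw [show (1 - 1 / 4 : ℝ) = 3 / 4 by norm_num] at this
    push_cast at this ⊢
    linarith
  · refine le_trans ?_ (Nat.mul_le_mul_right _ (h s hs))
    have : k + 1 ≤ (k + 1) * 2 ^ s := Nat.le_mul_of_pos_right _ (by positivity)
    refine (Nat.add_le_add_left (Nat.mul_le_mul_left _ (Nat.mul_le_mul_left _
      (Nat.add_le_add_right this _))) _).trans_eq ?_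
    rw [Bw]; ring

/-- the final asymptotic comparison -/
theorem final_asym (α Cα : ℝ) (hα0 : 0 ≤ α) (hα : α < 4) : ∃ k : ℕ, 3 ≤ k ∧
    ∀ C e u0 : ℕ, ∃ u : ℕ, u0 ≤ u ∧ 1 ≤ u ∧ ∀ Rv Qv : ℕ,
      2 ^ (2 * ((k + 1) * u)) * 4 ^ (u * (k - 2)) / 100 < Rv →
      Qv ≤ C * ((k + 1) * u) ^ e * 2 ^ ((k + 1) * u) →
      ¬ (Rv : ℝ) ≤ Cα * (1 + (Qv : ℝ)) ^ α := by
  obtain ⟨j, hj⟩ := exists_nat_ge (7 / (4 - α))
  rw [div_le_iff₀ (by linarith)] at hj
  refine ⟨j + 3, by omega, fun C e u0 => ?_⟩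
  have hp : Pol fun u => ⌈Cα⌉₊ * (1 + C * ((j + 3 + 1) * u) ^ e) ^ 4 * 100 := by
    repeat' with_reducible first
      | exact .const _ | exact .id | apply Pol.add | apply Pol.mul | apply Pol.pow
  obtain ⟨u, h1, h2, h3⟩ := (hp.ev.and ((eventually_ge_atTop u0).and (eventually_ge_atTop 1))).exists
  refine ⟨u, h2, h3, fun Rv Qv hR hQ h => ?_⟩
  rw [Nat.div_lt_iff_lt_mul (by norm_num)] at hR
  obtain ⟨P, hP⟩ : ∃ P, P = C * ((j + 3 + 1) * u) ^ e := ⟨_, rfl⟩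
  rw [← hP] at h1 hQ
  have h4 : (1 + (Qv : ℝ)) ^ α ≤ ((1 + P) ^ 4 * 2 ^ ((4 * j + 9) * u) : ℕ) := by
    have : 1 + Qv ≤ (1 + P) * 2 ^ ((j + 3 + 1) * u) := by
      rw [add_mul, one_mul]; exact add_le_add Nat.one_le_two_pow hQ
    calc _ ≤ ((1 + P) * 2 ^ ((j + 3 + 1) * u) : ℝ) ^ α := by gcongr; exact_mod_cast this
      _ ≤ (1 + P) ^ (4 : ℝ) * 2 ^ (((4 * j + 9) * u : ℕ) : ℝ) := by
        rw [Real.mul_rpow (by positivity) (by positivity), ← Real.rpow_natCast,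
          ← Real.rpow_mul zero_le_two]
        gcongr
        · simp
        · norm_num
        · push_cast
          nlinarith [mul_nonneg (Nat.cast_nonneg (α := ℝ) u)
            (by nlinarith : (0 : ℝ) ≤ 4 * j + 9 - (j + 3 + 1) * α)]
      _ = _ := by norm_cast
  have h5 : Rv ≤ ⌈Cα⌉₊ * ((1 + P) ^ 4 * 2 ^ ((4 * j + 9) * u)) := by
    exact_mod_cast h.trans (mul_le_mul (Nat.le_ceil Cα) h4 (by positivity) (by positivity))
  have h6 : 2 ^ (2 * ((j + 3 + 1) * u)) * 4 ^ (u * (j + 3 - 2)) = 2 ^ u * 2 ^ ((4 * j + 9) * u) := by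
    rw [show 4 = 2 ^ 2 by rfl, ← pow_mul, ← pow_add, ← pow_add, show j + 3 - 2 = j + 1 by omega]
    congr 1; ring
  have := Nat.mul_le_mul_right (2 ^ ((4 * j + 9) * u)) h1
  nlinarith

end Vale.Agent.P362
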