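import Vale.Agent.P362.Hard1
import Vale.Agent.P362.Lev
import Vale.Agent.P362.QNum

/-! # P362: Hard2 (see notes/P362.md) -/

namespace Vale.Agent.P362

open scoped BigOperators Matrix

theorem one_add_pow_le {x : ℝ} (h0 : 0 ≤ x) {N : ℕ} (hN : 1 ≤ N) (h : N * x ≤ 1 / 2) :
    (1 + x) ^ N ≤ 1 + 2 * (N * x) := by
  have h1 : (1 : ℝ) ≤ N := by exact_mod_cast hN
  have h2 := one_add_mul_le_pow (a := -x) (by nlinarith) N
  have h3 : (1 + x) ^ N * (1 + -x) ^ N ≤ 1 := by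
    rw [← mul_pow]; exact pow_le_one₀ (by nlinarith) (by nlinarith)
  have h4 := mul_le_mul_of_nonneg_left h2 (by positivity : 0 ≤ (1 + x) ^ N)
  have h5 : 0 ≤ N * x := by positivity
  by_contra hc
  nlinarith

/-- the hard distributions: an address cannot be guessed -/
theorem hard (k : ℕ) (hk : 3 ≤ k) : ∃ u0 : ℕ, ∀ u : ℕ, u0 ≤ u →
    100 * 4 ^ (u * (k - 2)) ≤ 2 ^ (2 * ((k + 1) * u)) ∧
    ∃ D : X (2 * ((k + 1) * u)) → (Fin (k + 1) × X (2 * ((k + 1) * u)) → Bool) → ℝ,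
      (∀ a w, 0 ≤ D a w) ∧ (∀ a, ∑ w, D a w = 1) ∧
      (∀ a w, D a w ≠ 0 → th k (2 * ((k + 1) * u)) ≤ phi w a) ∧
      ∀ t : X (2 * ((k + 1) * u)) → DT (Fin (k + 1) × X (2 * ((k + 1) * u))),
        (∀ a, (t a).depth ≤ 4 ^ (u * (k - 2))) →
        (∀ w, (Finset.univ.filter fun a => (t a).eval w = true).card ≤ 4 ^ (u * (k - 2))) →
        ∑ a, ∑ w, D a w * ind ((t a).eval w) ≤
          (Fintype.card (X (2 * ((k + 1) * u))) : ℝ) / 10 := by
  classical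
  obtain ⟨j, rfl⟩ := Nat.exists_eq_add_of_le' (by omega : 2 ≤ k)
  obtain ⟨β, hβ, hl⟩ := level_bound (2 * (j + 2 + 1)) (even_two_mul _) (by omega)
  have hp : Pol fun u => 240 * (j + 2) * (48 * (2 * ((j + 2 + 1) * u))) ^ (j + 2) +
      720 * ⌈β⌉₊ + 100 := by
    repeat' with_reducible first
      | exact .const _ | exact .id | apply Pol.add | apply Pol.mul | apply Pol.pow
  obtain ⟨u0, hu⟩ := Filter.eventually_atTop.1 (hp.ev.and (Filter.eventually_ge_atTop 1))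
  refine ⟨u0, fun u h => ?_⟩
  obtain ⟨h1, h2⟩ := hu u h
  have hn : 2 ^ (2 * ((j + 2 + 1) * u)) = 4 ^ (u * j) * (2 ^ u) ^ 6 := by
    rw [show 4 = 2 ^ 2 by rfl, ← pow_mul, ← pow_mul, ← pow_add]; congr 1; ring
  have h6 : 2 ^ u ≤ (2 ^ u) ^ 6 := Nat.le_self_pow (by omega) _
  rw [Nat.add_sub_cancel]
  refine ⟨by rw [hn, mul_comm]; exact Nat.mul_le_mul_left _ (by omega), ?_⟩
  obtain ⟨d, hd⟩ : ∃ d, d = 2 * ((j + 2 + 1) * u) := ⟨_, rfl⟩
  rw [← hd] at h1 hn ⊢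
  have d0 : (1 : ℝ) ≤ d := by exact_mod_cast hd ▸ Nat.mul_pos two_pos (Nat.mul_pos (by omega) h2)
  have e : √(1 / (48 * (d : ℝ))) ^ 2 = 1 / (48 * d) := Real.sq_sqrt (by positivity)
  obtain ⟨G, hG⟩ : ∃ G : ℝ, G = (48 * d) ^ (j + 2) := ⟨_, rfl⟩
  have G1 : 1 ≤ G := hG ▸ one_le_pow₀ (by linarith)
  have eG : √(1 / (48 * (d : ℝ))) ^ (2 * (j + 2)) = G⁻¹ := by rw [pow_mul, e, hG, one_div, inv_pow]
  have hβ' := Nat.le_ceil β
  have h1' : 240 * (j + 2) * G + 720 * β + 100 ≤ 2 ^ u := by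
    have : (240 * (j + 2) * G + 720 * ⌈β⌉₊ + 100 : ℝ) ≤ 2 ^ u := by rw [hG]; exact_mod_cast h1
    linarith
  have hn' : (2 : ℝ) ^ d = 4 ^ (u * j) * (2 ^ u) ^ 6 := by exact_mod_cast hn
  have h6' : (2 : ℝ) ^ u ≤ (2 ^ u) ^ 6 := by exact_mod_cast h6
  have K1 : (1 : ℝ) ≤ 4 ^ (u * j) := one_le_pow₀ (by norm_num)
  have n1 : (1 : ℝ) ≤ 2 ^ d := one_le_pow₀ (by norm_num)
  have jG : 0 ≤ j * G := by positivity
  have hτ : (1 + (8 * √(1 / (48 * (d : ℝ))) ^ 2 * (3 * d : ℕ)) ^ (3 * d)) ^ (2 ^ d * (j + 2)) ≤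
      1 + G⁻¹ / 120 := by
    have : ((2 ^ d * (j + 2) : ℕ) : ℝ) * (1 / 2) ^ (3 * d) ≤ G⁻¹ / 240 := by
      rw [one_div, inv_pow, mul_comm 3, pow_mul, ← div_eq_mul_inv, inv_eq_one_div, div_div,
        div_le_div_iff₀ (by positivity) (by positivity)]
      push_cast
      have : (j + 2) * (G * 240) ≤ (2 ^ d) ^ 2 := by nlinarith
      nlinarith
    have hi := inv_le_one_of_one_le₀ G1
    rw [e, show 8 * (1 / (48 * (d : ℝ))) * (3 * d : ℕ) = 1 / 2 by push_cast; field_simp; norm_num]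
    exact (one_add_pow_le (by positivity) (Nat.mul_pos (by positivity) (by omega))
      (by linarith)).trans (by linarith)
  choose D D0 D1 D2 D3 using fun a : X d => hard1 (k := j + 2) (by omega) √(1 / (48 * (d : ℝ)))
    (by positivity) (Real.sqrt_le_one.2 (div_le_one_of_le₀ (by linarith) (by positivity))) (3 * d)
    (by exact_mod_cast (by linarith : (1 : ℝ) ≤ 3 * d)) _ hτ
    (by rw [eG]; gcongr; norm_num) a
  refine ⟨D, D0, D1, fun a w h => ?_, fun t t1 t2 => ?_⟩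
  · simpa only [th, pow_mul, e] using D2 a w h
  have hB : ∀ a (p : Fin (j + 2 + 1) × X d → ℝ), (∀ i, |p i| ≤ 1 / 2) →
      |∑ b, hh (Uad (j + 2) d a) b * Dext (gr b) (fun w => ind ((t a).eval w)) p| ≤ 1 / 240 := by
    intro a p hp
    have := hl _ _ (t a) (2 ^ (u * j)) Nat.one_le_two_pow
      (by rw [← pow_mul, mul_comm, pow_mul]; exact t1 a) (hh (Uad (j + 2) d a)) gr gr_injective p hp
    rw [← (even_two_mul _).pow_abs] at this
    simp only [card_gr, pow_mul (hh _ _), hh_Uad_sq, Finset.sum_const, Finset.card_univ,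
      Fintype.card_fun, Fintype.card_fin, Fintype.card_bool, nsmul_eq_mul] at this
    refine le_of_pow_le_pow_left₀ (n := 2 * (j + 2 + 1)) (by omega) (by norm_num) (this.trans ?_)
    have b1 : β / 2 ^ u ≤ 1 / 720 := by
      rw [div_le_div_iff₀ (by positivity) (by positivity)]; nlinarith
    calc _ = 3 * ((β / 2 ^ u) ^ (j + 2 + 1)) ^ (2 * (j + 2 + 1)) := by
          push_cast
          simp only [hd, mul_pow, div_pow, one_pow, ← pow_mul]
          field_simp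
          ring
      _ ≤ 3 ^ (2 * (j + 2 + 1)) * (1 / 720) ^ (2 * (j + 2 + 1)) := by
          gcongr
          · exact le_self_pow₀ (by norm_num) (by omega)
          · exact (pow_le_of_le_one (by positivity) (by linarith) (by omega)).trans b1
      _ = _ := by rw [← mul_pow]; norm_num
  have h0 : ∀ b, 0 ≤ ind b ∧ ind b ≤ 1 := by simp [ind]
  refine (Finset.sum_le_sum fun a _ =>
    D3 a _ _ (fun _ => (h0 _).1) (fun _ => (h0 _).2) (hB a)).trans ?_
  have hs : (∑ a, ∑ w, ind ((t a).eval w)) / 2 ^ Fintype.card (Fin (j + 2 + 1) × X d) ≤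
      4 ^ (u * j) := by
    rw [Finset.sum_comm, div_le_iff₀' (by positivity)]
    refine (Finset.sum_le_card_nsmul _ _ (4 ^ (u * j)) fun w _ => ?_).trans_eq (by simp)
    simp only [ind, Finset.sum_boole]
    exact_mod_cast t2 w
  simp only [← Finset.mul_sum, add_assoc, Finset.sum_add_distrib (f := fun _ => _ / _),
    ← Finset.sum_div, Finset.sum_const, Finset.card_univ, nsmul_eq_mul] at eG ⊢
  simp only [add_assoc] at hs
  have hc : (Fintype.card (X d) : ℝ) = 2 ^ d := by simp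
  rw [eG, hc, div_inv_eq_mul]
  refine (mul_le_mul_of_nonneg_left (add_le_add_left hs _) (by positivity)).trans ?_
  have hi := inv_le_one_of_one_le₀ G1
  have e2 : 4 * G * (4 ^ (u * j) + 2 ^ d * (G⁻¹ * (1 / 240) * (1 + G⁻¹ / 120) + G⁻¹ / 120)) =
      4 * G * 4 ^ (u * j) + 2 ^ d * ((1 + G⁻¹ / 120) / 60 + 1 / 30) := by field_simp; ring
  have : 4 ^ (u * j) * (120 * G) ≤ 2 ^ d := by rw [hn']; gcongr; nlinarith
  rw [e2]
  nlinarith

end Vale.Agent.P362
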