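import Vale.Agent.P362.Base

/-! # P362: LB (see notes/P362.md) -/

namespace Vale.Agent.P362

open scoped BigOperators Matrix

namespace LBx

/-- the locations queried by a run -/
def qs {ι : Type} (x : ι → Bool) : DT ι → List ι
  | .leaf _ => []
  | .node i t0 t1 => i :: (if x i = true then qs x t1 else qs x t0)

theorem qs_length {ι : Type} (x : ι → Bool) (t : DT ι) : (qs x t).length ≤ t.depth := by
  induction t with
  | leaf b => simp [qs]
  | node i t0 t1 h0 h1 =>
    simp only [qs, DT.depth, List.length_cons]
    split_ifs <;> omega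

theorem eval_congr {ι : Type} (x y : ι → Bool) (t : DT ι) (h : ∀ i ∈ qs x t, x i = y i) :
    t.eval x = t.eval y := by
  induction t with
  | leaf b => rfl
  | node i t0 t1 h0 h1 =>
    have hi := h i (by simp [qs])
    simp only [DT.eval, ← hi]
    split_ifs with hx
    · exact h1 fun j hj => h j (by simp [qs, hx, hj])
    · exact h0 fun j hj => h j (by simp [qs, hx, hj])

theorem sum_count {ι C : Type} [Fintype C] [DecidableEq C] (g : ι → C) (l : List ι) :
    ∑ c, l.countP (fun i => decide (g i = c)) = l.length := by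
  induction l with
  | nil => simp
  | cons i l ih =>
    simp only [List.countP_cons, Finset.sum_add_distrib, ih, List.length_cons, decide_eq_true_eq]
    simp

theorem card_le_length {L C : Type} [Fintype C] [DecidableEq C] (g : L → Option C) (l : List L)
    (p : C → Prop) [DecidablePred p] (h : ∀ a, p a → ∃ x ∈ l, g x = some a) :
    (Finset.univ.filter p).card ≤ l.length := by
  refine le_trans (Finset.card_le_card (t := (l.filterMap g).toFinset) ?_)
    (le_trans (List.toFinset_card_le _) (List.length_filterMap_le _ _))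
  intro a ha
  simp only [List.mem_toFinset, List.mem_filterMap]
  exact h a (Finset.mem_filter.1 ha).2

theorem sum_prod_one {C β : Type} [Fintype C] [DecidableEq C] [Fintype β] (μ : β → ℝ)
    (h : ∑ b, μ b = 1) : ∑ s : C → β, ∏ c, μ (s c) = 1 := by
  have := Finset.prod_univ_sum (fun _ : C => (Finset.univ : Finset β)) (fun _ b => μ b)
  rw [Fintype.piFinset_univ] at this
  rw [← this]
  simp [h]

theorem resample {C β : Type} [Fintype C] [DecidableEq C] [Fintype β] (μ : β → ℝ)
    (h0 : ∀ b, 0 ≤ μ b) (h : ∑ b, μ b = 1) (c : C) (g : (C → β) → ℝ) (B : ℝ)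
    (hB : ∀ s, ∑ b, μ b * g (Function.update s c b) ≤ B) :
    ∑ s : C → β, (∏ c, μ (s c)) * g s ≤ B := by
  have inv : Function.Involutive
      (fun p : (C → β) × β => (Function.update p.1 c p.2, p.1 c)) := by
    rintro ⟨s, b⟩
    simp
  have key : ∀ (s : C → β) (b : β),
      (∏ c', μ (Function.update s c b c')) * μ (s c) = (∏ c', μ (s c')) * μ b := by
    intro s b
    rw [← Finset.mul_prod_erase _ _ (Finset.mem_univ c),
      ← Finset.mul_prod_erase _ (fun c' => μ (s c')) (Finset.mem_univ c), Function.update_self,
      Finset.prod_congr rfl (fun c' hc' => by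
        rw [Function.update_of_ne (Finset.ne_of_mem_erase hc')])]
    ring
  have e1 := Equiv.sum_comp inv.toPerm
    (fun p : (C → β) × β => (∏ c', μ (p.1 c')) * μ p.2 * g p.1)
  simp only [Function.Involutive.coe_toPerm, key, Fintype.sum_prod_type] at e1
  have e2 : ∑ s : C → β, ∑ b, (∏ c', μ (s c')) * μ b * g s =
      ∑ s : C → β, (∏ c, μ (s c)) * g s := by
    refine Finset.sum_congr rfl fun s _ => ?_
    rw [← Finset.sum_mul, ← Finset.mul_sum, h, mul_one]
  rw [← e2, ← e1]
  calc ∑ s : C → β, ∑ b, (∏ c', μ (s c')) * μ b * g (Function.update s c b)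
      ≤ ∑ s : C → β, (∏ c', μ (s c')) * B := by
        refine Finset.sum_le_sum fun s _ => ?_
        simp only [mul_assoc]
        rw [← Finset.mul_sum]
        exact mul_le_mul_of_nonneg_left (hB s) (Finset.prod_nonneg fun c' _ => h0 _)
    _ = B := by rw [← Finset.sum_mul, sum_prod_one μ h, one_mul]

variable {C S Ce : Type} [DecidableEq C]

/-- the clean values inside a block -/
def cv (w : S → Bool) : Loc C S Ce → Bool
  | .inl _ => true
  | .inr (.inl σ) => w σ
  | .inr (.inr _) => false

/-- the block locations queried by the clean run, within a budget -/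
def tr (xo : C × Loc C S Ce → Bool) (c : C) (w : S → Bool) :
    DT (C × Loc C S Ce) → ℕ → List (Loc C S Ce)
  | .leaf _, _ => []
  | .node i t0 t1, k =>
    if i.1 = c then
      match k with
      | 0 => []
      | k + 1 => i.2 :: (if cv w i.2 = true then tr xo c w t1 k else tr xo c w t0 k)
    else if xo i = true then tr xo c w t1 k else tr xo c w t0 k

/-- the tree deciding whether the clean run meets a marked location -/
def cl (xo : C × Loc C S Ce → Bool) (c : C) (π : Loc C S Ce → Bool) :
    DT (C × Loc C S Ce) → ℕ → DT S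
  | .leaf _, _ => .leaf false
  | .node i t0 t1, k =>
    if i.1 = c then
      match k with
      | 0 => .leaf false
      | k + 1 => if π i.2 = true then .leaf true else
        match i.2 with
        | .inl _ => cl xo c π t1 k
        | .inr (.inl σ) => .node σ (cl xo c π t0 k) (cl xo c π t1 k)
        | .inr (.inr _) => cl xo c π t0 k
    else if xo i = true then cl xo c π t1 k else cl xo c π t0 k

theorem tr_length (xo : C × Loc C S Ce → Bool) (c : C) (w : S → Bool)
    (t : DT (C × Loc C S Ce)) (k : ℕ) : (tr xo c w t k).length ≤ k := by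
  induction t generalizing k with
  | leaf b => simp [tr]
  | node i t0 t1 h0 h1 =>
    unfold tr
    by_cases a : i.1 = c
    · rw [if_pos a]
      cases k with
      | zero => simp
      | succ k =>
        have := h0 k
        have := h1 k
        simp only [List.length_cons]
        split_ifs <;> omega
    · rw [if_neg a]
      split_ifs
      · exact h1 k
      · exact h0 k

theorem cl_depth (xo : C × Loc C S Ce → Bool) (c : C) (π : Loc C S Ce → Bool)
    (t : DT (C × Loc C S Ce)) (k : ℕ) : (cl xo c π t k).depth ≤ k := by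
  induction t generalizing k with
  | leaf b => simp [cl, DT.depth]
  | node i t0 t1 h0 h1 =>
    obtain ⟨c', l⟩ := i
    unfold cl
    by_cases a : c' = c
    · rw [if_pos a]
      cases k with
      | zero => simp [DT.depth]
      | succ k =>
        have := h0 k
        have := h1 k
        dsimp only
        split_ifs
        · simp [DT.depth]
        · rcases l with _ | _ | _
          · dsimp only
            omega
          · simp only [DT.depth]
            omega
          · dsimp only
            omega
    · rw [if_neg a]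
      split_ifs
      · exact h1 k
      · exact h0 k

theorem cl_eval (xo : C × Loc C S Ce → Bool) (c : C) (π : Loc C S Ce → Bool) (w : S → Bool)
    (t : DT (C × Loc C S Ce)) (k : ℕ) :
    (cl xo c π t k).eval w = true ↔ ∃ l ∈ tr xo c w t k, π l = true := by
  induction t generalizing k with
  | leaf b => simp [cl, tr, DT.eval]
  | node i t0 t1 h0 h1 =>
    obtain ⟨c', l⟩ := i
    unfold cl tr
    by_cases a : c' = c
    · rw [if_pos a, if_pos a]
      cases k with
      | zero => simp [DT.eval]
      | succ k =>
        dsimp only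
        by_cases hp : π l = true
        · simp [hp, DT.eval]
        · rw [if_neg hp]
          rcases l with _ | σ | _
          · simp [cv, h1, hp]
          · by_cases hw : w σ = true <;> simp [cv, DT.eval, h0, h1, hp, hw]
          · simp [cv, h0, hp]
    · rw [if_neg a, if_neg a]
      split_ifs
      · exact h1 k
      · exact h0 k

theorem hit_tr (x xo : C × Loc C S Ce → Bool) (c : C) (w : S → Bool) (bad : Loc C S Ce → Prop)
    (hin : ∀ l, ¬ bad l → x (c, l) = cv w l) (hout : ∀ i, i.1 ≠ c → x i = xo i)
    (t : DT (C × Loc C S Ce)) (k : ℕ)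
    (hk : (qs x t).countP (fun i => decide (i.1 = c)) ≤ k)
    (h : ∃ i ∈ qs x t, i.1 = c ∧ bad i.2) : ∃ l ∈ tr xo c w t k, bad l := by
  induction t generalizing k with
  | leaf b => simp [qs] at h
  | node i t0 t1 h0 h1 =>
    obtain ⟨c', l⟩ := i
    unfold tr
    by_cases hc : c' = c
    · subst hc
      rw [if_pos rfl]
      cases k with
      | zero => simp [qs] at hk
      | succ k =>
        dsimp only
        by_cases hb : bad l
        · exact ⟨l, by simp, hb⟩
        · have hx := hin l hb
          simp only [qs, List.countP_cons, decide_true, if_true, add_le_add_iff_right,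
            List.mem_cons, exists_eq_or_imp, hb, and_false, false_or, hx] at hk h ⊢
          split_ifs at hk h ⊢
          · exact h1 k hk h
          · exact h0 k hk h
    · rw [if_neg hc]
      have hx := hout (c', l) hc
      simp only [qs, List.countP_cons, hc, decide_false, Bool.false_eq_true, if_false, add_zero,
        List.mem_cons, exists_eq_or_imp, false_and, false_or, hx] at hk h
      split_ifs at hk h ⊢
      · exact h1 k hk h
      · exact h0 k hk h

/-- the rejecting inputs -/
def x0 (s : C → C × (S → Bool) × C) : C × Loc C S Ce → Bool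
  | (c, .inl i) => decide (i ≠ (s c).2.2)
  | (c, .inr (.inl σ)) => (s c).2.1 σ
  | (_, .inr (.inr _)) => false

/-- fill the column of one candidate -/
def y1 (c : C) (s : C → C × (S → Bool) × C) : C × Loc C S Ce → Bool
  | (c', .inl i) => decide (c' = c ∨ i ≠ (s c').2.2)
  | (c', .inr (.inl σ)) => (s c').2.1 σ
  | (_, .inr (.inr _)) => false

/-- the address of a cell location -/
def adr : Loc C S Ce → Option C
  | .inr (.inr (a, _)) => some a
  | _ => none

/-- the index of a column location -/
def cix : Loc C S Ce → Option C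
  | .inl i => some i
  | _ => none

theorem agree (c : C) (s : C → C × (S → Bool) × C) (cell : Ce → Bool) (i : C × Loc C S Ce)
    (h : ¬ (i.1 = c ∧ (cix i.2 = some (s c).2.2 ∨ adr i.2 = some (s c).1))) :
    x0 s i = setCell (y1 c s) c (s c).1 cell i := by
  obtain ⟨c', j | σ | ⟨a, e⟩⟩ := i
  · by_cases hc : c' = c
    · subst hc
      simpa [x0, y1, setCell, cix, adr] using h
    · simp [x0, y1, setCell, hc]
  · simp [x0, y1, setCell]
  · have : ¬ (c' = c ∧ a = (s c).1) := by simpa [cix, adr] using h
    simp [x0, y1, setCell, this]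

theorem ind_nonneg (b : Bool) : 0 ≤ ind b := by unfold ind; split_ifs <;> norm_num

theorem ind_le_one (b : Bool) : ind b ≤ 1 := by unfold ind; split_ifs <;> norm_num

end LBx

open LBx

/-- the classical lower bound (distributional form) -/
theorem lb {C S Ce : Type} [Fintype C] [DecidableEq C] [Nonempty C] [Fintype S] [DecidableEq S]
    [Fintype Ce] [DecidableEq Ce] (f : (C × Loc C S Ce → Bool) → Bool)
    (good : C → (S → Bool) → Prop) (D : C → (S → Bool) → ℝ) (K T : ℕ)
    (hf0 : ∀ x, (∀ c, ∃ i, x (c, .inl i) = false) → f x = false)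
    (hf1 : ∀ x c a, (∀ i, x (c, .inl i) = true) → (∀ c', c' ≠ c → ∃ i, x (c', .inl i) = false) →
      good a (fun s => x (c, .inr (.inl s))) → ∃ cell, f (setCell x c a cell) = true)
    (hD0 : ∀ a w, 0 ≤ D a w) (hD1 : ∀ a, ∑ w, D a w = 1) (hDg : ∀ a w, D a w ≠ 0 → good a w)
    (hhard : ∀ t : C → DT S, (∀ a, (t a).depth ≤ K) →
      (∀ w, (Finset.univ.filter fun a => (t a).eval w = true).card ≤ K) →
      ∑ a, ∑ w, D a w * ind ((t a).eval w) ≤ (Fintype.card C : ℝ) / 10)
    (hK1 : 1 ≤ K) (hK : 100 * K ≤ Fintype.card C) (hT : 100 * T ≤ Fintype.card C * K) :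
    ∃ (Θ : Type) (_ : Fintype Θ) (ν : Θ → ℝ) (inp : Θ → (C × Loc C S Ce → Bool)),
      (∀ θ, 0 ≤ ν θ) ∧ ∑ θ, ν θ = 1 ∧ ∀ t : DT (C × Loc C S Ce), t.depth ≤ T →
        ∑ θ, ν θ * ind (t.eval (inp θ) == f (inp θ)) ≤ 3 / 5 := by
  classical
  set n : ℝ := (Fintype.card C : ℝ) with hn
  have hn0 : 0 < n := by
    rw [hn]
    exact_mod_cast Fintype.card_pos
  have hK0 : (0 : ℝ) < K := by exact_mod_cast hK1
  have hKn : 100 * (K : ℝ) ≤ n := by rw [hn]; exact_mod_cast hK
  have hTn : 100 * (T : ℝ) ≤ n * K := by rw [hn]; exact_mod_cast hT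
  let μ : C × (S → Bool) × C → ℝ := fun b => D b.1 b.2.1 / n ^ 2
  have hμ0 : ∀ b, 0 ≤ μ b := fun b => div_nonneg (hD0 _ _) (by positivity)
  have hμ1 : ∑ b, μ b = 1 := by
    simp only [μ, Fintype.sum_prod_type, Finset.sum_const, Finset.card_univ, nsmul_eq_mul, ← hn]
    simp only [← Finset.mul_sum, ← Finset.sum_div, hD1, Finset.sum_const, Finset.card_univ,
      nsmul_eq_mul, ← hn]
    field_simp
  have hcell : ∀ (c : C) (s : C → C × (S → Bool) × C), ∃ cell : Ce → Bool,
      (∏ c', μ (s c')) ≠ 0 → f (setCell (y1 c s) c (s c).1 cell) = true := by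
    intro c s
    by_cases h : (∏ c', μ (s c')) = 0
    · exact ⟨fun _ => false, fun h' => absurd h h'⟩
    · have h1 : μ (s c) ≠ 0 := Finset.prod_ne_zero_iff.1 h c (Finset.mem_univ c)
      have h2 : D (s c).1 (s c).2.1 ≠ 0 := fun h3 => h1 (by simp [μ, h3])
      obtain ⟨cell, hc⟩ := hf1 (y1 c s) c (s c).1 (fun i => by simp [y1])
        (fun c' hc' => ⟨(s c').2.2, by simp [y1, hc']⟩) (hDg _ _ h2)
      exact ⟨cell, fun _ => hc⟩
  choose cell hcell using hcell
  have hM0 : ∀ s : C → C × (S → Bool) × C, 0 ≤ ∏ c', μ (s c') :=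
    fun s => Finset.prod_nonneg fun c' _ => hμ0 _
  have hM1 := sum_prod_one (C := C) μ hμ1
  refine ⟨Bool × C × (C → C × (S → Bool) × C), inferInstance,
    fun θ => (∏ c', μ (θ.2.2 c')) / (2 * n),
    fun θ => if θ.1 = true then setCell (y1 θ.2.1 θ.2.2) θ.2.1 (θ.2.2 θ.2.1).1 (cell θ.2.1 θ.2.2)
      else x0 θ.2.2, fun θ => div_nonneg (hM0 _) (by positivity), ?_, ?_⟩
  · simp only [Fintype.sum_prod_type, ← Finset.sum_div, hM1, Finset.sum_const, Finset.card_univ,
      nsmul_eq_mul, ← hn, Fintype.card_bool]
    field_simp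
    norm_num
  intro t ht
  let cnt : C → (C → C × (S → Bool) × C) → ℕ := fun c s =>
    (qs (x0 s) t).countP (fun i => decide (i.1 = c))
  let H : C → (C → C × (S → Bool) × C) → ℝ := fun c s =>
    if cnt c s ≤ K ∧ ∃ i ∈ qs (x0 s) t, i.1 = c ∧
      (cix i.2 = some (s c).2.2 ∨ adr i.2 = some (s c).1) then 1 else 0
  have pt : ∀ c s, (∏ c', μ (s c')) *
        ind (t.eval (setCell (y1 c s) c (s c).1 (cell c s)) ==
          f (setCell (y1 c s) c (s c).1 (cell c s))) +
      (∏ c', μ (s c')) * ind (t.eval (x0 s) == f (x0 s)) ≤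
      (∏ c', μ (s c')) * (1 + cnt c s / K + H c s) := by
    intro c s
    rw [← mul_add]
    by_cases hz : (∏ c', μ (s c')) = 0
    · simp [hz]
    refine mul_le_mul_of_nonneg_left ?_ (hM0 s)
    rw [hcell c s hz, hf0 (x0 s) fun c' => ⟨(s c').2.2, by simp [x0]⟩]
    have hc0 : (0 : ℝ) ≤ cnt c s / K := by positivity
    by_cases hh : ∃ i ∈ qs (x0 s) t, i.1 = c ∧
      (cix i.2 = some (s c).2.2 ∨ adr i.2 = some (s c).1)
    · have a1 := ind_le_one (t.eval (setCell (y1 c s) c (s c).1 (cell c s)) == true)
      have a2 := ind_le_one (t.eval (x0 s) == false)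
      by_cases hk : cnt c s ≤ K
      · have : H c s = 1 := if_pos ⟨hk, hh⟩
        linarith
      · have h1 : (1 : ℝ) ≤ cnt c s / K := by
          rw [le_div_iff₀ hK0, one_mul]
          exact_mod_cast (not_le.1 hk).le
        have : H c s = 0 := if_neg fun h => hk h.1
        linarith
    · have h1 := eval_congr (x0 s) (setCell (y1 c s) c (s c).1 (cell c s)) t
        fun i hi => agree c s _ i fun h => hh ⟨i, hi, h⟩
      have : H c s = 0 := if_neg fun h => hh h.2
      rw [← h1, this]
      cases t.eval (x0 s) <;> simp [ind, hc0]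
  have hH : ∀ c, ∑ s : C → C × (S → Bool) × C, (∏ c', μ (s c')) * H c s ≤ 11 / 100 := by
    intro c
    refine resample μ hμ0 hμ1 c (H c) _ fun s => ?_
    let tt : C → DT S := fun a => cl (x0 s) c (fun l => decide (adr l = some a)) t K
    have htt : ∀ a w, (tt a).eval w = true ↔ ∃ l ∈ tr (x0 s) c w t K, adr l = some a := by
      intro a w
      simp only [tt, cl_eval, decide_eq_true_eq]
    have h1 := hhard tt (fun a => cl_depth _ _ _ _ _) fun w =>
      le_trans (card_le_length adr (tr (x0 s) c w t K) _ fun a ha => (htt a w).1 ha)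
        (tr_length _ _ _ _ _)
    have h2 : ∀ w : S → Bool, ∑ z : C,
        (if ∃ l ∈ tr (x0 s) c w t K, cix l = some z then (1 : ℝ) else 0) ≤ K := by
      intro w
      rw [Finset.sum_boole]
      exact_mod_cast le_trans (card_le_length cix (tr (x0 s) c w t K) _ fun a ha => ha)
        (tr_length _ _ _ _ _)
    have h3 : ∀ (a : C) (w : S → Bool) (z : C), H c (Function.update s c (a, w, z)) ≤
        (if ∃ l ∈ tr (x0 s) c w t K, cix l = some z then (1 : ℝ) else 0) +
          ind ((tt a).eval w) := by
      intro a w z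
      have a1 := ind_nonneg ((tt a).eval w)
      by_cases hh : cnt c (Function.update s c (a, w, z)) ≤ K ∧
          ∃ i ∈ qs (x0 (Function.update s c (a, w, z))) t, i.1 = c ∧
          (cix i.2 = some (Function.update s c (a, w, z) c).2.2 ∨
            adr i.2 = some (Function.update s c (a, w, z) c).1)
      · have e1 : H c (Function.update s c (a, w, z)) = 1 := if_pos hh
        rw [Function.update_self] at hh
        obtain ⟨l, hl, hb⟩ := hit_tr (x0 (Function.update s c (a, w, z))) (x0 s) c w
          (fun l => cix l = some z ∨ adr l = some a)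
          (fun l hl => by
            rcases l with j | σ | ⟨a', e⟩
            · simpa [x0, cv, cix, adr] using hl
            · simp [x0, cv]
            · simp [x0, cv])
          (fun i hi => by
            obtain ⟨c', j | σ | q⟩ := i
            · simp [x0, Function.update_of_ne hi]
            · simp [x0, Function.update_of_ne hi]
            · simp [x0]) t K hh.1 hh.2
        rw [e1]
        rcases hb with hb | hb
        · rw [if_pos ⟨l, hl, hb⟩]
          linarith
        · rw [(htt a w).2 ⟨l, hl, hb⟩]
          split_ifs <;> simp [ind]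
      · have e1 : H c (Function.update s c (a, w, z)) = 0 := if_neg hh
        rw [e1]
        split_ifs <;> linarith
    calc ∑ b, μ b * H c (Function.update s c b)
        ≤ ∑ a, ∑ w, D a w / n ^ 2 * (K + n * ind ((tt a).eval w)) := by
          simp only [Fintype.sum_prod_type]
          refine Finset.sum_le_sum fun a _ => Finset.sum_le_sum fun w _ => ?_
          simp only [μ]
          rw [← Finset.mul_sum]
          refine mul_le_mul_of_nonneg_left ?_ (div_nonneg (hD0 _ _) (by positivity))
          refine le_trans (Finset.sum_le_sum fun z _ => h3 a w z) ?_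
          rw [Finset.sum_add_distrib, Finset.sum_const, Finset.card_univ, nsmul_eq_mul, ← hn]
          linarith [h2 w]
      _ = K / n + (∑ a, ∑ w, D a w * ind ((tt a).eval w)) / n := by
          have e1 : ∀ a w, D a w / n ^ 2 * (K + n * ind ((tt a).eval w)) =
              D a w * (K / n ^ 2) + D a w * ind ((tt a).eval w) / n := by
            intro a w
            field_simp
          simp only [e1, Finset.sum_add_distrib, ← Finset.sum_mul, hD1, ← Finset.sum_div,
            Finset.sum_const, Finset.card_univ, nsmul_eq_mul, ← hn]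
          field_simp
      _ ≤ 11 / 100 := by
          have a1 : (K : ℝ) / n ≤ 1 / 100 := by
            rw [div_le_iff₀ hn0]
            linarith
          have a2 : (∑ a, ∑ w, D a w * ind ((tt a).eval w)) / n ≤ 1 / 10 := by
            rw [div_le_iff₀ hn0]
            linarith
          linarith
  have hcnt : ∑ c, ∑ s : C → C × (S → Bool) × C, (∏ c', μ (s c')) * (cnt c s / K) ≤ n / 100 := by
    rw [Finset.sum_comm]
    calc ∑ s : C → C × (S → Bool) × C, ∑ c, (∏ c', μ (s c')) * (cnt c s / K)
        ≤ ∑ s : C → C × (S → Bool) × C, (∏ c', μ (s c')) * (n / 100) := by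
          refine Finset.sum_le_sum fun s _ => ?_
          rw [← Finset.mul_sum]
          refine mul_le_mul_of_nonneg_left ?_ (hM0 s)
          rw [← Finset.sum_div, ← Nat.cast_sum, div_le_iff₀ hK0]
          have a1 : ∑ c, cnt c s ≤ T := by
            simp only [cnt]
            rw [sum_count (fun i : C × Loc C S Ce => i.1)]
            exact le_trans (qs_length _ _) ht
          have a2 : ((∑ c, cnt c s : ℕ) : ℝ) ≤ T := by exact_mod_cast a1
          linarith
      _ = n / 100 := by rw [← Finset.sum_mul, hM1, one_mul]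
  have tot : ∑ c, ∑ s : C → C × (S → Bool) × C,
      (∏ c', μ (s c')) * (1 + cnt c s / K + H c s) ≤ n + n / 100 + n * (11 / 100) := by
    simp only [mul_add, Finset.sum_add_distrib, mul_one, hM1]
    have a1 : ∑ c, ∑ s : C → C × (S → Bool) × C, (∏ c', μ (s c')) * H c s ≤ n * (11 / 100) := by
      refine le_trans (Finset.sum_le_sum fun c _ => hH c) ?_
      rw [Finset.sum_const, Finset.card_univ, nsmul_eq_mul, ← hn]
    rw [Finset.sum_const, Finset.card_univ, nsmul_eq_mul, ← hn, mul_one]
    linarith
  rw [Fintype.sum_prod_type, Fintype.sum_bool, ← Finset.sum_add_distrib, Fintype.sum_prod_type]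
  simp only [if_true, Bool.false_eq_true, if_false, div_mul_eq_mul_div, ← add_div,
    ← Finset.sum_div]
  rw [div_le_iff₀ (by positivity)]
  refine le_trans (Finset.sum_le_sum fun c _ => Finset.sum_le_sum fun s _ => pt c s) ?_
  linarith

end Vale.Agent.P362
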