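import Vale.Agent.P362.Tourn
import Vale.Agent.P362.Forr
import Vale.Agent.P362.Fft

/-! # P362: QUB (see notes/P362.md) -/

namespace Vale.Agent.P362

open scoped BigOperators Matrix

/-- two rounds of reading -/
theorem Det.two {ι Ω Z1 Z2 : Type} [Fintype Z1] [Fintype Z2] [Nonempty Ω] (p1 : Z1 → ι)
    (p2 : (Z1 → Bool) → Z2 → ι) (h : (ι → Bool) → Ω)
    (hf : ∀ x x', (∀ z, x (p1 z) = x' (p1 z)) →
      (∀ z, x (p2 (fun z => x (p1 z)) z) = x' (p2 (fun z => x (p1 z)) z)) → h x = h x') :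
    Det (Fintype.card Z1 + Fintype.card Z2) h := by
  have H := (Det.read p1).bind fun s => (Det.read (p2 s)).map fun t => (s, t)
  have F : h.FactorsThrough fun x => (fun z => x (p1 z), fun z => x (p2 (fun z => x (p1 z)) z)) :=
    fun x x' e => by
      obtain ⟨e1, e2⟩ := Prod.ext_iff.1 e
      refine hf x x' (congrFun e1) fun z => (congrFun e2 z).trans ?_
      simp only at e1
      simp only [e1]
  obtain ⟨φ, hφ⟩ := (Function.factorsThrough_iff _).1 F
  exact hφ ▸ H.map φ

open Classical in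
theorem chk_det {k d B : ℕ} (dec : (Fin B → Bool) → ℤ) (θ : ℝ) (c a b : X d) :
    Det (10 * (k + 1) * (d + 1) * (B + 1))
      (fun x : Idx k d B → Bool => decide (Chk dec θ x c a b)) := by
  refine (Det.two (Z2 := Bool ⊕ Fin (k + 1) ⊕ (Fin (k + 1) × Fin (d + 1) × Fin B) ⊕
    (Fin (k + 1) × Fin d × Bool × Fin B) ⊕ Fin B)
    (fun e : Fin d => (c, .inr (.inr (a, .inl (b, e)))))
    (fun π => Sum.elim (fun β => if β then (c, .inl b) else (b, .inl π))
      (Sum.elim (fun j => (c, .inr (.inl (j, b))))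
      (Sum.elim (fun z => (c, .inr (.inr (a, .inr (z.1, z.2.1, b, z.2.2)))))
      (Sum.elim (fun z => (c, .inr (.inr (a, .inr (z.1, z.2.1.castSucc,
        Function.update b z.2.1 z.2.2.1, z.2.2.2)))))
      fun e => (c, .inr (.inr (a, .inr (Fin.last k, Fin.last d, a, e)))))))) _
    fun x x' h1 h2 => ?_).mono ?_
  · have e1 : x (c, .inl b) = x' (c, .inl b) := h2 (.inl true)
    have e2 : x (b, .inl (ptr x c a b)) = x' (b, .inl (ptr x' c a b)) :=
      (h2 (.inl false)).trans (congrArg (fun π => x' (b, .inl π)) (funext h1))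
    have e3 : ∀ j, str x c (j, b) = str x' c (j, b) := fun j => h2 (.inr (.inl j))
    have e4 : ∀ j l, tv dec x c a j l b = tv dec x' c a j l b := fun j l =>
      congrArg dec (funext fun e => h2 (.inr (.inr (.inl (j, l, e)))))
    have e5 : ∀ j (l : Fin d) β, tv dec x c a j l.castSucc (Function.update b l β) =
        tv dec x' c a j l.castSucc (Function.update b l β) := fun j l β =>
      congrArg dec (funext fun e => h2 (.inr (.inr (.inr (.inl (j, l, β, e))))))
    have e6 : tv dec x c a (Fin.last k) (Fin.last d) a =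
        tv dec x' c a (Fin.last k) (Fin.last d) a :=
      congrArg dec (funext fun e => h2 (.inr (.inr (.inr (.inr e)))))
    exact decide_eq_decide.2 (by simp only [Chk, e1, e2, e3, e4, e5, e6])
  · simp only [Fintype.card_sum, Fintype.card_prod, Fintype.card_fin, Fintype.card_bool]
    ring_nf
    omega

theorem qub {k d B : ℕ} (dec : (Fin B → Bool) → ℤ) (θ : ℝ) (hθ : 0 < θ) (hθ1 : θ ≤ 1)
    (t J Rr r : ℕ) (hJ : 2 * 2 ^ d ≤ J ^ 2) (ht : 2 * (2 : ℝ) ^ d * (7 / 8) ^ t ≤ 1 / 12)
    (hR : ((t : ℝ) + 1) * (1 - θ ^ 2) ^ Rr ≤ 1 / 12)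
    (hr : (t : ℝ) * (Rr * (3 / 4) ^ r) ≤ 1 / 3) :
    ∃ p : (Idx k d B → Bool) → ℝ,
      RlB (t * (2 * J * (t * (Rr * (k + 1 + (d + 1))))) +
        t * (Rr * (k + 1 + r * (2 * J * (10 * (k + 1) * (d + 1) * (B + 1)))))) p ∧
      (∀ x, fn dec θ x = true → 2 / 3 ≤ p x) ∧ ∀ x, fn dec θ x = false → p x ≤ 1 / 3 := by
  classical
  have hc : Fintype.card (X d) = 2 ^ d := by simp
  have E : ∀ c : X d, Rl (k + 1) fun (x : Idx k d B → Bool) (g : X d → ℝ) =>
      ∑ a, phi (str x c) a ^ 2 * g a := fun c => rl_phi fun p => ((c, .inr (.inl p)) : Idx k d B)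
  choose p p1 p2 p3 using fun c a : X d => grover
    (fun b (x : Idx k d B → Bool) => decide (Chk dec θ x c a b)) (chk_det dec θ c a) J r (by omega)
  have D : ∀ c a c' : X d, RlB (d + 1)
      fun x : Idx k d B → Bool => ind (!x (c', .inl (ptr x c a c'))) := fun c a c' => by
    simpa using (Det.two (fun e : Fin d => ((c, .inr (.inr (a, .inl (c', e)))) : Idx k d B))
      (fun π (_ : Unit) => (c', .inl π)) (fun x => !x (c', .inl (ptr x c a c')))
      fun x x' h1 h2 => congrArg _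
        ((h2 ()).trans (congrArg (fun π => x' (c', .inl π)) (funext h1)))).toRlB
  have lb : ∀ {T} {q : X d → (Idx k d B → Bool) → ℝ}, (∀ a, RlB T (q a)) → ∀ x c a,
      Valid dec θ x c a → q a x = 1 →
      1 - (1 - θ ^ 2) ^ Rr ≤ 1 - (1 - ∑ a, phi (str x c) a ^ 2 * q a x) ^ Rr := by
    intro T q hq x c a hv h
    have h1 := (RlB.mix (E c) hq).le_one x
    have h2 := Finset.single_le_sum (f := fun a => phi (str x c) a ^ 2 * q a x)
      (fun a _ => mul_nonneg (sq_nonneg _) ((hq a).nonneg x)) (Finset.mem_univ a)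
    have h3 := pow_le_pow_left₀ hθ.le (valid_phi hv) 2
    rw [h, mul_one] at h2
    gcongr
    linarith
  refine tournament _ _ _ _ t J ((1 - θ ^ 2) ^ Rr) (Rr * (3 / 4) ^ r)
    (fun c c' => (RlB.mix (E c) fun a => D c a c').repeatOr Rr)
    (fun c => (RlB.mix (E c) (p1 c)).repeatOr Rr) _ (fun x hx c => ?_) (fun x hx => ?_)
    (pow_nonneg (by nlinarith) _) (by positivity) hR hr (by omega) (by simpa using ht)
  · have h1 := ((E c).le x fun a => p3 c a x (by
      simpa [Valid] using not_exists.1 (not_exists.1 (of_decide_eq_false hx) c) a)).trans_eq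
      ((E c).const_eq x _)
    have h2 := one_add_mul_le_pow (a := -∑ a, phi (str x c) a ^ 2 * p c a x)
      (by linarith [(RlB.mix (E c) (p1 c)).le_one x]) Rr
    have := mul_le_mul_of_nonneg_left h1 (Nat.cast_nonneg Rr)
    rw [← sub_eq_add_neg] at h2
    linarith
  · obtain ⟨c, a, hv⟩ := of_decide_eq_true hx
    refine ⟨c, lb (p1 c) x c a hv (p2 c a x fun b => decide_eq_true (hv b)), fun c' h =>
      ⟨lb (fun a => D c a c') x c a hv (by simp [(hv c').2.1 h, ind]), ?_⟩⟩
    simp [fun b => (hv b).1, ind]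

end Vale.Agent.P362
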