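import Vale.Agent.P362.Base

/-! # P362: Yao (see notes/P362.md) -/

namespace Vale.Agent.P362

open scoped BigOperators Matrix

namespace YaoAux

/-- query all positions of a list, then continue -/
theorem tree_list {ι : Type} [DecidableEq ι] (L : List ι) (cont : (ι → Bool) → DT ι) (D : ℕ)
    (hD : ∀ y, (cont y).depth ≤ D) (y0 : ι → Bool) : ∃ t : DT ι, t.depth ≤ L.length + D ∧
      ∀ x, t.eval x = (cont fun i => if i ∈ L then x i else y0 i).eval x := by
  induction L generalizing y0 with
  | nil => exact ⟨cont y0, by simpa using hD y0, fun x => by simp⟩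
  | cons j L ih =>
    obtain ⟨t0, h0, e0⟩ := ih (Function.update y0 j false)
    obtain ⟨t1, h1, e1⟩ := ih (Function.update y0 j true)
    refine ⟨.node j t0 t1, ?_, fun x => ?_⟩
    · simp only [DT.depth, List.length_cons]
      omega
    · have e : (fun i => if i ∈ j :: L then x i else y0 i) =
          fun i => if i ∈ L then x i else Function.update y0 j (x j) i := by
        funext i
        by_cases h : i = j
        · simp [h]
        · simp [h]
      rw [e, DT.eval]
      cases hx : x j
      · simp [e0]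
      · simp [e1]

/-- relabelling of the queries -/
def relab {ι κ : Type} (e : ι → κ) : DT ι → DT κ
  | .leaf b => .leaf b
  | .node i t0 t1 => .node (e i) (relab e t0) (relab e t1)

theorem depth_relab {ι κ : Type} (e : ι → κ) (t : DT ι) : (relab e t).depth = t.depth := by
  induction t with
  | leaf b => rfl
  | node i t0 t1 h0 h1 => simp only [relab, DT.depth, h0, h1]

theorem eval_relab {ι κ : Type} (e : ι → κ) (t : DT ι) (x : κ → Bool) :
    (relab e t).eval x = t.eval (x ∘ e) := by
  induction t with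
  | leaf b => rfl
  | node i t0 t1 h0 h1 => simp only [relab, DT.eval, h0, h1, Function.comp_apply]

theorem rcomputes_of_tree {n : ℕ} {f : (Fin n → Bool) → Bool} (t : DT (Fin n))
    (ht : ∀ x, t.eval x = f x) : RComputes t.depth f := by
  refine ⟨PMF.pure t, fun t' h => ?_, fun x => ?_⟩
  · rw [PMF.support_pure, Set.mem_singleton_iff] at h
    rw [h]
  · rw [(PMF.toOuterMeasure_apply_eq_one_iff _ _).2 (by simpa using ht x)]
    exact ENNReal.div_le_of_le_mul (by norm_num)

end YaoAux

open YaoAux

theorem exists_tree {n : ℕ} (f : (Fin n → Bool) → Bool) :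
    ∃ t : DT (Fin n), t.depth ≤ n ∧ ∀ x, t.eval x = f x := by
  obtain ⟨t, h1, h2⟩ := tree_list (List.finRange n) (fun y => .leaf (f y)) 0 (fun _ => le_rfl)
    fun _ => false
  exact ⟨t, by simpa using h1, fun x => by simpa [DT.eval] using h2 x⟩

theorem R_le_of_tree {n : ℕ} {f : (Fin n → Bool) → Bool} (t : DT (Fin n))
    (ht : ∀ x, t.eval x = f x) : R f ≤ t.depth := by
  exact Nat.sInf_le (rcomputes_of_tree t ht)

/-- easy direction of Yao's principle, with transport along `ι ≃ Fin n` -/
theorem lt_R_of_hard {ι : Type} {n : ℕ} (e : ι ≃ Fin n) (f : (ι → Bool) → Bool) (T : ℕ)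
    {Θ : Type} [Fintype Θ] (ν : Θ → ℝ) (inp : Θ → (ι → Bool)) (h0 : ∀ θ, 0 ≤ ν θ)
    (h1 : ∑ θ, ν θ = 1)
    (h : ∀ t : DT ι, t.depth ≤ T → ∑ θ, ν θ * ind (t.eval (inp θ) == f (inp θ)) ≤ 3 / 5) :
    T < R (fun y : Fin n → Bool => f (y ∘ e)) := by
  by_contra hT
  obtain ⟨t0, -, ht0⟩ := exists_tree fun y : Fin n → Bool => f (y ∘ e)
  obtain ⟨μ, hμ, hs⟩ : RComputes (R fun y : Fin n → Bool => f (y ∘ e)) _ :=
    Nat.sInf_mem (s := {T | RComputes T fun y : Fin n → Bool => f (y ∘ e)})
      ⟨_, rcomputes_of_tree t0 ht0⟩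
  have e1 : ∀ θ, (inp θ ∘ e.symm) ∘ e = inp θ := fun θ => by funext i; simp
  have key : (2 / 3 : ENNReal) ≤ ENNReal.ofReal (3 / 5) :=
    calc (2 / 3 : ENNReal) = ∑ θ, ENNReal.ofReal (ν θ) * (2 / 3) := by
          rw [← Finset.sum_mul, ← ENNReal.ofReal_sum_of_nonneg fun θ _ => h0 θ, h1]
          simp
      _ ≤ ∑ θ, ENNReal.ofReal (ν θ) * ∑' t, Set.indicator
          {t : DT (Fin n) | t.eval (inp θ ∘ e.symm) = f (inp θ)} μ t :=
          Finset.sum_le_sum fun θ _ => mul_le_mul_right (by
            simpa only [e1, PMF.toOuterMeasure_apply] using hs (inp θ ∘ e.symm)) _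
      _ = ∑' t, μ t * ENNReal.ofReal
          (∑ θ, ν θ * ind ((relab e.symm t).eval (inp θ) == f (inp θ))) := by
          simp only [← ENNReal.tsum_mul_left]
          rw [← Summable.tsum_finsetSum fun _ _ => ENNReal.summable]
          refine tsum_congr fun t => ?_
          rw [ENNReal.ofReal_sum_of_nonneg fun θ _ => mul_nonneg (h0 θ) (by
            unfold ind; split_ifs <;> norm_num), Finset.mul_sum]
          refine Finset.sum_congr rfl fun θ _ => ?_
          rw [eval_relab]
          by_cases h : t.eval (inp θ ∘ e.symm) = f (inp θ)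
          · simp [h, ind, mul_comm]
          · simp [h, ind]
      _ ≤ ∑' t, μ t * ENNReal.ofReal (3 / 5) := by
          refine ENNReal.tsum_le_tsum fun t => ?_
          by_cases ht : μ t = 0
          · simp [ht]
          · refine mul_le_mul_right (ENNReal.ofReal_le_ofReal (h _ ?_)) _
            rw [depth_relab]
            exact (hμ t ht).trans (not_lt.1 hT)
      _ = ENNReal.ofReal (3 / 5) := by rw [ENNReal.tsum_mul_right, PMF.tsum_coe, one_mul]
  have := ENNReal.toReal_mono ENNReal.ofReal_ne_top key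
  rw [ENNReal.toReal_ofReal (by norm_num)] at this
  norm_num at this

end Vale.Agent.P362
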