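import Vale.Agent.P362.QFinal
import Vale.Agent.P362.QUB
import Vale.Agent.P362.QNum
import Vale.Agent.P362.Hard2
import Vale.Agent.P362.LB
import Vale.Agent.P362.Yao
import Vale.Agent.P362.DegBs
import Vale.Agent.P362.DTub

/-! # P362: assembly -/

namespace Vale.Agent.P362

open scoped BigOperators Matrix

theorem qcomputes_Q {n : ℕ} (hn : 1 ≤ n) (f : (Fin n → Bool) → Bool) : QComputes (Q f) f := by
  have hne : {T | QComputes T f}.Nonempty := by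
    refine ⟨Fintype.card (Fin n), ?_⟩
    refine qcomputes_of_RlB hn (Det.all f).toRlB ?_ ?_
    · intro x hx; simp [hx, ind]; norm_num
    · intro x hx; simp [hx, ind]
  exact Nat.sInf_mem hne

theorem four_mem : (4 : ℝ) ∈ Admissible := by
  refine ⟨by norm_num, 1296 ^ 2, fun n hn f => ?_⟩
  have h := qcomputes_Q hn f
  obtain ⟨t, ht, hev⟩ := tree_of_bounds f (1296 * Q f ^ 2) (1296 * Q f ^ 2)
    (fun M y hM => deg_le h M y hM) (fun x 𝓑 hd hs => bs_le h x 𝓑 hd hs)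
  have h1 : R f ≤ 1296 * Q f ^ 2 * (1296 * Q f ^ 2) := (R_le_of_tree t hev).trans ht
  have h2 : (R f : ℝ) ≤ 1296 ^ 2 * (Q f : ℝ) ^ 4 := by
    have : (R f : ℝ) ≤ ((1296 * Q f ^ 2 * (1296 * Q f ^ 2) : ℕ) : ℝ) := by exact_mod_cast h1
    push_cast at this
    nlinarith [this]
  have h3 : (Q f : ℝ) ^ 4 ≤ (1 + (Q f : ℝ)) ^ (4 : ℝ) := by
    have : (1 + (Q f : ℝ)) ^ (4 : ℝ) = (1 + (Q f : ℝ)) ^ (4 : ℕ) := by
      rw [← Real.rpow_natCast]; norm_num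
    rw [this]
    exact pow_le_pow_left₀ (by positivity) (by linarith) 4
  calc (R f : ℝ) ≤ 1296 ^ 2 * (Q f : ℝ) ^ 4 := h2
    _ ≤ 1296 ^ 2 * (1 + (Q f : ℝ)) ^ (4 : ℝ) := by gcongr

theorem sep_aux (k s K Cst : ℕ) (hs1 : 1 ≤ s) (hK1 : 1 ≤ K) (hK : 100 * K ≤ 2 ^ (2 * s))
    (D : X (2 * s) → (Fin (k + 1) × X (2 * s) → Bool) → ℝ) (hD0 : ∀ a w, 0 ≤ D a w)
    (hD1 : ∀ a, ∑ w, D a w = 1) (hDg : ∀ a w, D a w ≠ 0 → th k (2 * s) ≤ phi w a)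
    (hhard : ∀ t : X (2 * s) → DT (Fin (k + 1) × X (2 * s)), (∀ a, (t a).depth ≤ K) →
        (∀ w, (Finset.univ.filter fun a => (t a).eval w = true).card ≤ K) →
        ∑ a, ∑ w, D a w * ind ((t a).eval w) ≤ (Fintype.card (X (2 * s)) : ℝ) / 10)
    (t J Rr r : ℕ) (hJ : 2 * 2 ^ (2 * s) ≤ J ^ 2)
    (ht : 2 * (2 : ℝ) ^ (2 * s) * (7 / 8) ^ t ≤ 1 / 12)
    (hR : ((t : ℝ) + 1) * (1 - th k (2 * s) ^ 2) ^ Rr ≤ 1 / 12)
    (hr : (t : ℝ) * (Rr * (3 / 4) ^ r) ≤ 1 / 3)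
    (hcost : t * (2 * J * (t * (Rr * (k + 1 + (2 * s + 1))))) +
        t * (Rr * (k + 1 + r * (2 * J * (10 * (k + 1) * (2 * s + 1) * (Bw k (2 * s) + 1))))) ≤
      Cst) :
    ∃ n : ℕ, 1 ≤ n ∧ ∃ f : (Fin n → Bool) → Bool, 2 ^ (2 * s) * K / 100 < R f ∧ Q f ≤ Cst := by
  obtain ⟨dec, hdec⟩ := exists_dec k (2 * s)
  have hcard : Fintype.card (X (2 * s)) = 2 ^ (2 * s) := by simp [X]
  obtain ⟨n, ⟨eq⟩⟩ : ∃ n, Nonempty (Idx k (2 * s) (Bw k (2 * s)) ≃ Fin n) :=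
    ⟨_, ⟨Fintype.equivFin _⟩⟩
  have hn : 1 ≤ n := Fin.pos (eq (fun _ => false, .inl fun _ => false))
  refine ⟨n, hn, fun y => fn dec (th k (2 * s)) (y ∘ eq), ?_, ?_⟩
  · obtain ⟨Θ, _, ν, inp, h0, h1, h2⟩ := lb (C := X (2 * s)) (S := Fin (k + 1) × X (2 * s))
      (Ce := Cell k (2 * s) (Bw k (2 * s))) (fun x => fn dec (th k (2 * s)) x)
      (fun a w => th k (2 * s) ≤ phi w a) D K (2 ^ (2 * s) * K / 100)
      (fun x hx => fn_false dec _ x hx)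
      (fun x c a hc ho hg => by
        obtain ⟨cell, hv⟩ := exists_cell hdec x c a hc ho hg
        exact ⟨cell, by simp only [fn, decide_eq_true_eq]; exact ⟨c, a, hv⟩⟩)
      hD0 hD1 hDg hhard hK1 (by rw [hcard]; exact hK)
      (by rw [hcard]; exact Nat.mul_div_le _ _)
    exact lt_R_of_hard eq (fun x => fn dec (th k (2 * s)) x) _ ν inp h0 h1 h2
  · obtain ⟨p, hp, hp1, hp0⟩ := qub (k := k) (d := 2 * s) dec (th k (2 * s))
      (th_pos k _ (by omega)) (th_le_one k _ (by omega)) t J Rr r hJ ht hR hr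
    have hp' : RlB _ (fun y : Fin n → Bool => p (y ∘ eq)) := Rl.comap eq hp
    have hc := qcomputes_of_RlB (f := fun y => fn dec (th k (2 * s)) (y ∘ eq)) hn hp'
      (fun y hy => hp1 _ hy) (fun y hy => hp0 _ hy)
    exact (Nat.sInf_le hc).trans hcost

theorem separation (k : ℕ) (hk : 3 ≤ k) : ∃ C e u0 : ℕ, ∀ u : ℕ, u0 ≤ u → 1 ≤ u →
    ∃ n : ℕ, 1 ≤ n ∧ ∃ f : (Fin n → Bool) → Bool,
      2 ^ (2 * ((k + 1) * u)) * 4 ^ (u * (k - 2)) / 100 < R f ∧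
      Q f ≤ C * ((k + 1) * u) ^ e * 2 ^ ((k + 1) * u) := by
  obtain ⟨C, e, hq⟩ := q_params k
  obtain ⟨u0, hh⟩ := hard k hk
  refine ⟨C, e, u0, fun u hu hu1 => ?_⟩
  obtain ⟨hK, D, hD0, hD1, hDg, hhard⟩ := hh u hu
  have hs1 : 1 ≤ (k + 1) * u := Nat.mul_pos (Nat.succ_pos k) hu1
  obtain ⟨t, J, Rr, r, hJ, ht, hR, hr, hcost⟩ := hq _ hs1
  exact sep_aux k ((k + 1) * u) _ _ hs1 (Nat.one_le_pow _ _ (by norm_num)) hK D hD0 hD1 hDg hhard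
    t J Rr r hJ ht hR hr hcost

theorem four_le {α : ℝ} (hα : α ∈ Admissible) : 4 ≤ α := by
  by_contra hlt
  obtain ⟨h0, Cα, hC⟩ := hα
  obtain ⟨k, hk, hfin⟩ := final_asym α Cα h0 (not_le.mp hlt)
  obtain ⟨C, e, u0, hsep⟩ := separation k hk
  obtain ⟨u, hu, hu1, hu2⟩ := hfin C e u0
  obtain ⟨n, hn, f, hR, hQ⟩ := hsep u hu hu1
  exact hu2 _ _ hR hQ (hC n hn f)

theorem isLeast_four : IsLeast Admissible 4 := ⟨four_mem, fun _ h => four_le h⟩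

theorem alphaTot_eq : alphaTot = 4 := isLeast_four.csInf_eq

end Vale.Agent.P362
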