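import Vale.Agent.P362.QRl

/-! # P362: QAmp (see notes/P362.md) -/

namespace Vale.Agent.P362

open scoped BigOperators Matrix

namespace Amp

/-- amplitudes of the good and the bad part after `j` iterations -/
def ab (a : ℝ) : ℕ → ℝ × ℝ
  | 0 => (1, 1)
  | j + 1 => (2 * (-(ab a j).1 * a + (ab a j).2 * (1 - a)) + (ab a j).1,
      2 * (-(ab a j).1 * a + (ab a j).2 * (1 - a)) - (ab a j).2)

theorem ab_trig (θ : ℝ) (j : ℕ) :
    (ab (Real.sin θ ^ 2) j).1 * Real.sin θ = Real.sin ((2 * j + 1) * θ) ∧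
      (ab (Real.sin θ ^ 2) j).2 * Real.cos θ = Real.cos ((2 * j + 1) * θ) := by
  induction j with
  | zero => simp [ab]
  | succ j ih =>
    have e : (2 * ((j + 1 : ℕ) : ℝ) + 1) * θ = (2 * j + 1) * θ + 2 * θ := by push_cast; ring
    have h := Real.sin_sq_add_cos_sq θ
    rw [e, Real.sin_add, Real.cos_add, Real.sin_two_mul, Real.cos_two_mul, ← ih.1, ← ih.2]
    simp only [ab]
    constructor
    · linear_combination (-2 * ((ab (Real.sin θ ^ 2) j).1 + (ab (Real.sin θ ^ 2) j).2) *
        Real.sin θ) * h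
    · linear_combination (-2 * (ab (Real.sin θ ^ 2) j).2 * Real.cos θ) * h

theorem sum_sin_sq (θ : ℝ) (J : ℕ) :
    4 * Real.sin (2 * θ) * ∑ j ∈ Finset.range J, Real.sin ((2 * j + 1) * θ) ^ 2 =
      2 * J * Real.sin (2 * θ) - Real.sin (4 * J * θ) := by
  induction J with
  | zero => simp
  | succ J ih =>
    rw [Finset.sum_range_succ, mul_add, ih, Real.sin_sq_eq_half_sub]
    have e1 : 4 * ((J + 1 : ℕ) : ℝ) * θ = 2 * ((2 * J + 1) * θ) + 2 * θ := by push_cast; ring
    have e2 : 4 * (J : ℝ) * θ = 2 * ((2 * J + 1) * θ) - 2 * θ := by ring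
    rw [e1, e2, Real.sin_add, Real.sin_sub]
    push_cast
    ring

theorem avg_ge {a : ℝ} (h1 : a ≤ 1 / 2) {J : ℕ} (hJ : 1 ≤ (J : ℝ) ^ 2 * (2 * a)) :
    (J : ℝ) / 4 ≤ ∑ j ∈ Finset.range J, (ab a j).1 ^ 2 * a := by
  have h0 : 0 < a := by
    by_contra h
    nlinarith [sq_nonneg (J : ℝ), not_lt.1 h]
  have hs : Real.sin (Real.arcsin (Real.sqrt a)) = Real.sqrt a :=
    Real.sin_arcsin (by linarith [Real.sqrt_nonneg a]) (Real.sqrt_le_one.2 (by linarith))
  have hc : 0 ≤ Real.cos (Real.arcsin (Real.sqrt a)) := Real.cos_arcsin_nonneg _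
  have hs0 : 0 ≤ Real.sin (Real.arcsin (Real.sqrt a)) := by rw [hs]; positivity
  have hs2 : Real.sin (Real.arcsin (Real.sqrt a)) ^ 2 = a := by rw [hs, Real.sq_sqrt h0.le]
  generalize Real.arcsin (Real.sqrt a) = θ at *
  subst hs2
  have h2 := sum_sin_sq θ J
  simp only [← mul_pow, (ab_trig θ _).1]
  have h3 : 0 ≤ Real.sin (2 * θ) := by rw [Real.sin_two_mul]; positivity
  have h4 : 1 ≤ J * Real.sin (2 * θ) := by
    refine (one_le_sq_iff₀ (by positivity)).1 (hJ.trans ?_)
    rw [mul_pow, Real.sin_two_mul, mul_pow, mul_pow, Real.cos_sq']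
    exact mul_le_mul_of_nonneg_left (by nlinarith) (sq_nonneg _)
  have h5 : 0 < Real.sin (2 * θ) := by
    rcases h3.eq_or_lt with h | h
    · rw [← h] at h4; norm_num at h4
    · exact h
  refine le_of_mul_le_mul_left ?_ (show 0 < 4 * Real.sin (2 * θ) by positivity)
  rw [h2]
  linarith [Real.sin_le_one (4 * J * θ)]

theorem iter {ι B : Type} [Fintype B] [DecidableEq B] {T : ℕ} {V : (ι → Bool) → Matrix B B ℝ}
    (h : Impl T V) (b0 : B) (good : B → Bool) (j : ℕ) :
    ∃ W : (ι → Bool) → Matrix B B ℝ, Impl ((2 * j + 1) * T) W ∧ ∀ x β, W x β b0 =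
      (if good β then (ab (∑ β, V x β b0 ^ 2 * ind (good β)) j).1
        else (ab (∑ β, V x β b0 ^ 2 * ind (good β)) j).2) * V x β b0 := by
  induction j with
  | zero => exact ⟨V, by simpa using h, fun x β => by simp [ab]⟩
  | succ j ih =>
    obtain ⟨W, h1, h2⟩ := ih
    have hD : (Matrix.diagonal fun β => -sg (good β))ᵀ * Matrix.diagonal (fun β => -sg (good β)) =
        (1 : Matrix B B ℝ) := by
      rw [Matrix.diagonal_transpose, Matrix.diagonal_mul_diagonal, ← Matrix.diagonal_one]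
      congr 1
      funext β
      cases good β <;> simp [sg]
    have h3 := (((h1.left hD).mul h.transpose).left
      (orth_refl (Pi.single b0 1) (c := 2) (by simp))).mul h
    rw [show (2 * j + 1) * T + T + T = (2 * (j + 1) + 1) * T by ring] at h3
    refine ⟨_, h3, fun x β => ?_⟩
    have e1 : V x * (V x)ᵀ = 1 := mul_eq_one_comm.1 (h.orth x)
    rw [sub_mul, one_mul, mul_sub, ← Matrix.mul_assoc, e1, one_mul, Matrix.smul_mul,
      Matrix.mul_smul, Matrix.vecMulVec_mul, Matrix.mul_vecMulVec]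
    simp only [Matrix.sub_apply, Matrix.smul_apply, Matrix.vecMulVec_apply, Matrix.diagonal_mul,
      Matrix.mulVec_single_one, Matrix.single_one_vecMul, Matrix.col_apply, Matrix.row_apply,
      smul_eq_mul]
    rw [Matrix.mul_apply]
    simp only [Matrix.diagonal_mul, Matrix.transpose_apply, h2, ab]
    have hs := h.sum_sq x b0
    generalize (ab (∑ β, V x β b0 ^ 2 * ind (good β)) j).1 = p
    generalize (ab (∑ β, V x β b0 ^ 2 * ind (good β)) j).2 = q
    have e2 : ∑ β, V x β b0 * (-sg (good β) * ((if good β then p else q) * V x β b0)) =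
        (p + q) * (∑ β, V x β b0 ^ 2 * ind (good β)) - q * ∑ β, V x β b0 ^ 2 := by
      rw [Finset.mul_sum, Finset.mul_sum, ← Finset.sum_sub_distrib]
      refine Finset.sum_congr rfl fun β _ => ?_
      cases good β <;> simp [sg, ind] <;> ring
    rw [e2, hs]
    cases good β <;> simp [sg] <;> ring

end Amp

open Amp in
/-- amplitude amplification with a random number of Grover iterations -/
theorem Rl.amp {ι Ω : Type} {T : ℕ} {E : (ι → Bool) → (Ω → ℝ) → ℝ} (h : Rl T E)
    (G : Ω → Bool) (J : ℕ) (hJ : 1 ≤ J) :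
    ∃ κ : (ι → Bool) → ℝ, (∀ x, 0 ≤ κ x) ∧
      (∀ x, 1 ≤ (J : ℝ) ^ 2 * E x (fun ω => ind (G ω)) →
        1 / 4 ≤ κ x * E x (fun ω => ind (G ω))) ∧
      Rl (2 * J * T) (fun x (g : Option Ω → ℝ) =>
        κ x * E x (fun ω => ind (G ω) * g (some ω)) +
          (1 - κ x * E x (fun ω => ind (G ω))) * g none) := by
  obtain ⟨B, _, _, b0, out, V, h1, h2⟩ := h.bind fun ω =>
    Rl.const (ι := ι) (fun _ : Bool => (1 / 2 : ℝ)) (fun _ => by norm_num) (by simp) fun c => (ω, c)
  let good : B → Bool := fun β => G (out β).1 && (out β).2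
  have h3 : ∀ x (f : Ω → ℝ), ∑ β, V x β b0 ^ 2 * (ind (good β) * f (out β).1) =
      1 / 2 * E x fun ω => ind (G ω) * f ω := by
    intro x f
    rw [← h2 x fun p => ind (G p.1 && p.2) * f p.1, ← h.smul]
    simp [ind]
  have h4 : ∀ x, ∑ β, V x β b0 ^ 2 * ind (good β) = 1 / 2 * E x fun ω => ind (G ω) := fun x => by
    simpa using h3 x fun _ => 1
  have hJ0 : (0 : ℝ) < J := by exact_mod_cast hJ
  have hF : ∀ j : Fin J, Rl (2 * J * T) fun x (g : Option Ω → ℝ) =>
      (ab (1 / 2 * E x fun ω => ind (G ω)) j).1 ^ 2 / 2 * E x (fun ω => ind (G ω) * g (some ω)) +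
        (1 - (ab (1 / 2 * E x fun ω => ind (G ω)) j).1 ^ 2 / 2 * E x fun ω => ind (G ω)) *
          g none := by
    intro j
    obtain ⟨W, k1, k2⟩ := iter h1 b0 good j
    refine ⟨B, _, _, b0, fun β => if good β then some (out β).1 else none, W,
      k1.mono (Nat.mul_le_mul_right _ (by omega)), fun x g => ?_⟩
    have k3 := k1.sum_sq x b0
    simp only [k2, h4] at k3 ⊢
    generalize (ab (1 / 2 * E x fun ω => ind (G ω)) j).1 = p at *
    generalize (ab (1 / 2 * E x fun ω => ind (G ω)) j).2 = q at *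
    have k4 : ∑ β, ((if good β then p else q) * V x β b0) ^ 2 *
        g (if good β then some (out β).1 else none) =
        p ^ 2 * ∑ β, V x β b0 ^ 2 * (ind (good β) * g (some (out β).1)) +
          (∑ β, ((if good β then p else q) * V x β b0) ^ 2 -
            p ^ 2 * ∑ β, V x β b0 ^ 2 * ind (good β)) * g none := by
      simp only [Finset.mul_sum, ← Finset.sum_sub_distrib, Finset.sum_mul, ← Finset.sum_add_distrib]
      refine Finset.sum_congr rfl fun β _ => ?_
      cases good β <;> simp [ind] <;> ring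
    rw [k4, k3, h3 x fun ω => g (some ω), h4]
    ring
  have h5 := (Rl.const (ι := ι) (fun _ : Fin J => (1 / J : ℝ)) (fun _ => by positivity)
    (by simp [hJ0.ne']) id).bind hF
  rw [zero_add] at h5
  refine ⟨fun x => ∑ j : Fin J, 1 / J * ((ab (1 / 2 * E x fun ω => ind (G ω)) j).1 ^ 2 / 2),
    fun x => by positivity, fun x hx => ?_, ?_⟩
  · have h6 : E x (fun ω => ind (G ω)) ≤ 1 := by
      rw [← h.const_eq x 1]
      exact h.le x fun ω => by cases G ω <;> simp [ind]
    have h7 := avg_ge (a := 1 / 2 * E x fun ω => ind (G ω)) (J := J) (by linarith) (by linarith)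
    rw [Finset.sum_range] at h7
    beta_reduce
    rw [← Finset.mul_sum, mul_assoc, one_div_mul_eq_div, le_div_iff₀ hJ0, Finset.sum_mul]
    refine le_trans (by linarith) (h7.trans (le_of_eq (Finset.sum_congr rfl fun j _ => by ring)))
  · refine (congrArg (Rl (2 * J * T)) ?_).mp h5
    funext x g
    have h6 : ∑ _j : Fin J, (1 / J : ℝ) = 1 := by simp [hJ0.ne']
    have h7 : ∀ (c : Fin J → ℝ) (u v w : ℝ), ∑ j, 1 / J * (c j * u + (1 - c j * v) * w) =
        (∑ j, 1 / J * c j) * u + (1 - (∑ j, 1 / J * c j) * v) * w := fun c u v w => by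
      rw [sub_mul, ← congrArg (· * w) h6]
      simp only [Finset.sum_mul, ← Finset.sum_sub_distrib, ← Finset.sum_add_distrib]
      exact Finset.sum_congr rfl fun j _ => by ring
    exact h7 _ _ _ _

end Vale.Agent.P362
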