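import Vale.Agent.P362.QAmp

/-! # P362: QComb (see notes/P362.md) -/

namespace Vale.Agent.P362

open scoped BigOperators Matrix

variable {ι : Type} {Ω Ω' : Type}

theorem Rl.congrC {T : ℕ} {E E' : (ι → Bool) → (Ω → ℝ) → ℝ} (h : Rl T E)
    (e : ∀ x g, E x g = E' x g) : Rl T E' := by
  have : E = E' := funext fun x => funext fun g => e x g
  exact this ▸ h

theorem RlB.congrC {T : ℕ} {p q : (ι → Bool) → ℝ} (h : RlB T p) (e : ∀ x, p x = q x) :
    RlB T q := by
  have : p = q := funext e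
  exact this ▸ h

theorem Det.congrC {T : ℕ} {h h' : (ι → Bool) → Ω} (H : Det T h) (e : ∀ x, h x = h' x) :
    Det T h' := by
  have : h = h' := funext e
  exact this ▸ H

theorem Det.mono {T T' : ℕ} {h : (ι → Bool) → Ω} (H : Det T h) (hT : T ≤ T') : Det T' h :=
  Rl.mono H hT

theorem Det.const (ω : Ω) : Det (ι := ι) 0 (fun _ => ω) :=
  (Rl.const (ι := ι) (Z := Unit) (fun _ => 1) (fun _ => zero_le_one) (by simp)
    fun _ => ω).congrC fun x g => by simp

theorem Det.map {T : ℕ} {h : (ι → Bool) → Ω} (H : Det T h) (φ : Ω → Ω') :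
    Det T (fun x => φ (h x)) :=
  Rl.map H φ

theorem Det.bind {T1 T2 : ℕ} {h : (ι → Bool) → Ω} {h' : Ω → (ι → Bool) → Ω'} (H : Det T1 h)
    (H' : ∀ ω, Det T2 (h' ω)) : Det (T1 + T2) (fun x => h' (h x) x) :=
  Rl.bind (E2 := fun ω x (g : Ω' → ℝ) => g (h' ω x)) H H'

theorem Det.pair {T1 T2 : ℕ} {h : (ι → Bool) → Ω} {h' : (ι → Bool) → Ω'} (H : Det T1 h)
    (H' : Det T2 h') : Det (T1 + T2) (fun x => (h x, h' x)) :=
  Det.bind (h' := fun ω x => (ω, h' x)) H fun ω => H'.map fun ω' => (ω, ω')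

theorem Det.piFinC {T : ℕ} (n : ℕ) {h : Fin n → (ι → Bool) → Ω} (H : ∀ z, Det T (h z)) :
    Det (n * T) (fun x z => h z x) := by
  induction n with
  | zero =>
    rw [zero_mul]
    exact (Det.const (ι := ι) (Fin.elim0 : Fin 0 → Ω)).congrC fun x => funext fun z => z.elim0
  | succ n ih =>
    have h1 := ((ih (h := fun z => h z.succ) fun z => H z.succ).pair (H 0)).map
      fun p : (Fin n → Ω) × Ω => (Fin.cons p.2 p.1 : Fin (n + 1) → Ω)
    rw [Nat.succ_mul]
    refine h1.congrC fun x => funext fun z => ?_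
    refine Fin.cases ?_ (fun i => ?_) z <;> simp

theorem Det.pi {Z : Type} [Fintype Z] {T : ℕ} {h : Z → (ι → Bool) → Ω} (H : ∀ z, Det T (h z)) :
    Det (Fintype.card Z * T) (fun x z => h z x) := by
  have h1 := (Det.piFinC (Fintype.card Z) (h := fun i => h ((Fintype.equivFin Z).symm i))
    fun i => H _).map fun (f : Fin (Fintype.card Z) → Ω) z => f (Fintype.equivFin Z z)
  exact h1.congrC fun x => funext fun z => by simp

/-- read a word -/
theorem Det.read {Z : Type} [Fintype Z] (pos : Z → ι) :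
    Det (Fintype.card Z) (fun (x : ι → Bool) z => x (pos z)) := by
  have h1 := Det.pi (h := fun z (x : ι → Bool) => x (pos z)) fun z => Det.query (pos z)
  rwa [mul_one] at h1

theorem Det.toRlB {T : ℕ} {h : (ι → Bool) → Bool} (H : Det T h) :
    RlB T (fun x => ind (h x)) :=
  Rl.toRlB H

theorem RlB.mono {T T' : ℕ} {p : (ι → Bool) → ℝ} (h : RlB T p) (hT : T ≤ T') : RlB T' p :=
  Rl.mono h hT

theorem RlB.not {T : ℕ} {p : (ι → Bool) → ℝ} (h : RlB T p) : RlB T (fun x => 1 - p x) :=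
  (Rl.map h fun b => !b).congrC fun x g => by
    simp only [Bool.not_true, Bool.not_false]
    ring

theorem RlB.mix {T1 T2 : ℕ} {E : (ι → Bool) → (Ω → ℝ) → ℝ} {p : Ω → (ι → Bool) → ℝ}
    (h : Rl T1 E) (hp : ∀ ω, RlB T2 (p ω)) :
    RlB (T1 + T2) (fun x => E x (fun ω => p ω x)) :=
  (Rl.bind (E2 := fun ω x (g : Bool → ℝ) => p ω x * g true + (1 - p ω x) * g false) h
    hp).toRlB.congrC fun x => by simp [ind]

theorem RlB.and {T1 T2 : ℕ} {p q : (ι → Bool) → ℝ} (hp : RlB T1 p) (hq : RlB T2 q) :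
    RlB (T1 + T2) (fun x => p x * q x) := by
  have h0 : RlB T2 (fun _ : ι → Bool => (0 : ℝ)) :=
    ((Det.const (ι := ι) false).toRlB.mono (Nat.zero_le _)).congrC fun x => by simp [ind]
  refine (RlB.mix (p := fun b x => if b = true then q x else 0) hp fun b => ?_).congrC
    fun x => by simp
  cases b
  · simpa using h0
  · simpa using hq

theorem RlB.prod {C : Type} (s : Finset C) {T : ℕ} {p : C → (ι → Bool) → ℝ}
    (h : ∀ c ∈ s, RlB T (p c)) : RlB (s.card * T) (fun x => ∏ c ∈ s, p c x) := by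
  classical
  induction s using Finset.induction_on with
  | empty =>
    rw [Finset.card_empty, zero_mul]
    exact (Det.const (ι := ι) true).toRlB.congrC fun x => by simp [ind]
  | insert c s hc ih =>
    rw [Finset.card_insert_of_notMem hc, Nat.succ_mul]
    refine ((ih fun c' hc' => h c' (Finset.mem_insert_of_mem hc')).and
      (h c (Finset.mem_insert_self _ _))).congrC fun x => ?_
    rw [Finset.prod_insert hc, mul_comm]

theorem RlB.powC {T : ℕ} {p : (ι → Bool) → ℝ} (h : RlB T p) (r : ℕ) :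
    RlB (r * T) (fun x => p x ^ r) := by
  have h1 := RlB.prod (Finset.range r) (p := fun _ => p) fun _ _ => h
  rw [Finset.card_range] at h1
  exact h1.congrC fun x => by simp

theorem RlB.repeatOr {T : ℕ} {p : (ι → Bool) → ℝ} (h : RlB T p) (r : ℕ) :
    RlB (r * T) (fun x => 1 - (1 - p x) ^ r) :=
  (h.not.powC r).not

/-- Grover search for a violated check, repeated `r` times -/
theorem grover {Z : Type} [Fintype Z] [Nonempty Z] {T : ℕ} (chk : Z → (ι → Bool) → Bool)
    (h : ∀ z, Det T (chk z)) (J r : ℕ) (hJ : Fintype.card Z ≤ J ^ 2) :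
    ∃ p : (ι → Bool) → ℝ, RlB (r * (2 * J * T)) p ∧ (∀ x, (∀ z, chk z x = true) → p x = 1) ∧
      ∀ x, (∃ z, chk z x = false) → p x ≤ (3 / 4) ^ r := by
  have hZ : 0 < Fintype.card Z := Fintype.card_pos
  have hZ' : (0 : ℝ) < Fintype.card Z := by exact_mod_cast hZ
  have hJ1 : 1 ≤ J := by
    rcases Nat.eq_zero_or_pos J with rfl | h0
    · simp only [ne_eq, OfNat.ofNat_ne_zero, not_false_eq_true, zero_pow] at hJ
      omega
    · exact h0
  have h1 := Rl.bind (E2 := fun z x (g : Bool → ℝ) => g (chk z x))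
    (Rl.const (ι := ι) (Z := Z) (fun _ => 1 / (Fintype.card Z : ℝ)) (fun _ => by positivity)
      (by simp) id) h
  rw [zero_add] at h1
  obtain ⟨κ, -, hκ, h2⟩ := h1.amp (fun b => !b) J hJ1
  have h3 : RlB (2 * J * T) fun x =>
      κ x * ∑ z, 1 / (Fintype.card Z : ℝ) * ind (!chk z x) :=
    (Rl.map h2 Option.isSome).toRlB.congrC fun x => by simp [ind]
  refine ⟨_, h3.not.powC r, fun x hx => by simp [hx, ind], fun x ⟨z, hz⟩ => ?_⟩
  refine pow_le_pow_left₀ (h3.not.nonneg x) ?_ r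
  have h4 : 1 / (Fintype.card Z : ℝ) * ind (!chk z x) ≤
      ∑ z, 1 / (Fintype.card Z : ℝ) * ind (!chk z x) :=
    Finset.single_le_sum (f := fun z => 1 / (Fintype.card Z : ℝ) * ind (!chk z x))
      (fun z _ => mul_nonneg (by positivity) (by unfold ind; split_ifs <;> norm_num))
      (Finset.mem_univ z)
  have h5 : ind (!chk z x) = 1 := by simp [hz, ind]
  rw [h5, mul_one] at h4
  have h6 : (Fintype.card Z : ℝ) ≤ (J : ℝ) ^ 2 := by exact_mod_cast hJ
  have h7 := hκ x (by
    calc (1 : ℝ) = Fintype.card Z * (1 / (Fintype.card Z : ℝ)) := by field_simp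
      _ ≤ _ := mul_le_mul h6 h4 (by positivity) (by positivity))
  simp only [id] at h7
  linarith

/-- every function is computed with `n` queries -/
theorem Det.all [Fintype ι] (f : (ι → Bool) → Ω) : Det (Fintype.card ι) f :=
  (Det.read (ι := ι) id).map f

end Vale.Agent.P362
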