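import Vale.Agent.P362.Base

/-! # P362: QCore (see notes/P362.md) -/

namespace Vale.Agent.P362

open scoped BigOperators Matrix

variable {ι : Type} {B : Type} [Fintype B] [DecidableEq B]

omit [Fintype B] in
theorem ph_transpose (lab : B → Option ι) (x : ι → Bool) : (ph lab x)ᵀ = ph lab x :=
  Matrix.diagonal_transpose _

theorem ph_mul_self (lab : B → Option ι) (x : ι → Bool) : ph lab x * ph lab x = 1 := by
  rw [ph, Matrix.diagonal_mul_diagonal, ← Matrix.diagonal_one]
  congr 1
  funext β
  cases lab β with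
  | none => simp
  | some i => cases h : x i <;> simp [sg, h]

theorem orth_mul {U V : Matrix B B ℝ} (hU : Uᵀ * U = 1) (hV : Vᵀ * V = 1) :
    (U * V)ᵀ * (U * V) = 1 := by
  rw [Matrix.transpose_mul, Matrix.mul_assoc, ← Matrix.mul_assoc Uᵀ, hU, Matrix.one_mul, hV]

theorem Impl.congr {T : ℕ} {V V' : (ι → Bool) → Matrix B B ℝ} (h : Impl T V)
    (e : ∀ x, V' x = V x) : Impl T V' := by
  rwa [funext e]

theorem Impl.orth {T : ℕ} {V : (ι → Bool) → Matrix B B ℝ} (h : Impl T V) (x : ι → Bool) :
    (V x)ᵀ * V x = 1 := by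
  induction h with
  | base U hU => exact hU
  | step _ lab U hU ih =>
    exact orth_mul (orth_mul hU (by rw [ph_transpose, ph_mul_self])) ih

theorem Impl.phase (lab : B → Option ι) : Impl 1 (ph lab) :=
  (Impl.step (Impl.base 1 (by simp)) lab 1 (by simp)).congr fun x => by simp

theorem Impl.left {T : ℕ} {V : (ι → Bool) → Matrix B B ℝ} (h : Impl T V) {U : Matrix B B ℝ}
    (hU : Uᵀ * U = 1) : Impl T (fun x => U * V x) := by
  cases h with
  | base W hW => exact Impl.base _ (orth_mul hU hW)
  | step h lab W hW =>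
    exact (Impl.step h lab _ (orth_mul hU hW)).congr fun x => by simp only [Matrix.mul_assoc]

theorem Impl.mul {T1 T2 : ℕ} {V1 V2 : (ι → Bool) → Matrix B B ℝ} (h1 : Impl T1 V1)
    (h2 : Impl T2 V2) : Impl (T1 + T2) (fun x => V2 x * V1 x) := by
  induction h2 with
  | base U hU => exact h1.left hU
  | step _ lab U hU ih =>
    exact (Impl.step ih lab U hU).congr fun x => by simp only [Matrix.mul_assoc]

theorem Impl.transpose {T : ℕ} {V : (ι → Bool) → Matrix B B ℝ} (h : Impl T V) :
    Impl T (fun x => (V x)ᵀ) := by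
  have key : ∀ U : Matrix B B ℝ, Uᵀ * U = 1 → Uᵀᵀ * Uᵀ = 1 := fun U hU => by
    rw [Matrix.transpose_transpose]; exact mul_eq_one_comm.1 hU
  induction h with
  | base U hU => exact Impl.base _ (key U hU)
  | @step T V _ lab U hU ih =>
    have := ((Impl.base _ (key U hU)).mul (Impl.phase lab)).mul ih
    rw [show 0 + 1 + T = T + 1 by omega] at this
    exact this.congr fun x => by simp only [Matrix.transpose_mul, ph_transpose]

theorem Impl.mono {T T' : ℕ} {V : (ι → Bool) → Matrix B B ℝ} (h : Impl T V) (hT : T ≤ T') :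
    Impl T' V := by
  induction T', hT using Nat.le_induction with
  | base => exact h
  | succ T' _ ih =>
    exact (Impl.step ih (fun _ => none) 1 (by simp)).congr fun x => by simp [ph]

theorem Impl.inv_zero {V : (ι → Bool) → Matrix B B ℝ} (h : Impl 0 V) :
    ∃ U : Matrix B B ℝ, Uᵀ * U = 1 ∧ ∀ x, V x = U := by
  cases h with
  | base U hU => exact ⟨U, hU, fun _ => rfl⟩

theorem Impl.inv_succ {T : ℕ} {V : (ι → Bool) → Matrix B B ℝ} (h : Impl (T + 1) V) :
    ∃ (V' : (ι → Bool) → Matrix B B ℝ) (lab : B → Option ι) (U : Matrix B B ℝ),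
      Impl T V' ∧ Uᵀ * U = 1 ∧ ∀ x, V x = U * ph lab x * V' x := by
  cases h with
  | step h lab U hU => exact ⟨_, lab, U, h, hU, fun _ => rfl⟩

theorem Impl.sigma {C : Type} [Fintype C] [DecidableEq C] {B' : C → Type}
    [∀ c, Fintype (B' c)] [∀ c, DecidableEq (B' c)] {T : ℕ}
    {V : ∀ c, (ι → Bool) → Matrix (B' c) (B' c) ℝ} (h : ∀ c, Impl T (V c)) :
    Impl T (fun x => Matrix.blockDiagonal' (fun c => V c x)) := by
  have key : ∀ U : ∀ c, Matrix (B' c) (B' c) ℝ, (∀ c, (U c)ᵀ * U c = 1) →
      (Matrix.blockDiagonal' U)ᵀ * Matrix.blockDiagonal' U = 1 := fun U hU => by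
    rw [Matrix.blockDiagonal'_transpose, ← Matrix.blockDiagonal'_mul, funext hU]
    exact Matrix.blockDiagonal'_one
  induction T generalizing V with
  | zero =>
    choose U hU e using fun c => (h c).inv_zero
    exact (Impl.base _ (key U hU)).congr fun x => by simp only [e]
  | succ T ih =>
    choose V' lab U h1 hU e using fun c => (h c).inv_succ
    refine (Impl.step (ih h1) (fun β => lab β.1 β.2) _ (key U hU)).congr fun x => ?_
    simp only [e, Matrix.blockDiagonal'_mul, ph, Matrix.blockDiagonal'_diagonal]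

theorem Impl.reindex {B' : Type} [Fintype B'] [DecidableEq B'] (e : B ≃ B') {T : ℕ}
    {V : (ι → Bool) → Matrix B B ℝ} (h : Impl T V) :
    Impl T (fun x => Matrix.reindex e e (V x)) := by
  have key : ∀ U : Matrix B B ℝ, Uᵀ * U = 1 →
      (Matrix.reindex e e U)ᵀ * Matrix.reindex e e U = 1 := fun U hU => by
    simp [hU]
  induction h with
  | base U hU => exact Impl.base _ (key U hU)
  | step _ lab U hU ih =>
    refine (Impl.step ih (fun β => lab (e.symm β)) _ (key U hU)).congr fun x => ?_
    simp only [Matrix.reindex_apply, ← Matrix.submatrix_mul_equiv _ _ _ e.symm, ph,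
      Matrix.submatrix_diagonal_equiv, Function.comp_def]

theorem Impl.comap {ι' : Type} (e : ι → ι') {T : ℕ} {V : (ι → Bool) → Matrix B B ℝ}
    (h : Impl T V) : Impl T (fun x' : ι' → Bool => V (x' ∘ e)) := by
  induction h with
  | base U hU => exact Impl.base _ hU
  | step _ lab U hU ih =>
    refine (Impl.step ih (fun β => (lab β).map e) _ hU).congr fun x => ?_
    have : ph lab (x ∘ e) = ph (fun β => (lab β).map e) x :=
      congrArg Matrix.diagonal (funext fun β => by dsimp only; cases lab β <;> rfl)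
    rw [← this]

/-- the reflection `1 - c v vᵀ` is orthogonal when `c |v|² = 2` or `v = 0` -/
theorem orth_refl (v : B → ℝ) {c : ℝ} (h : c * (c * (v ⬝ᵥ v) - 2) = 0) :
    (1 - c • Matrix.vecMulVec v v)ᵀ * (1 - c • Matrix.vecMulVec v v) = 1 := by
  rw [Matrix.transpose_sub, Matrix.transpose_one, Matrix.transpose_smul,
    Matrix.transpose_vecMulVec, sub_mul, mul_sub, mul_sub, one_mul, one_mul, mul_one,
    Matrix.smul_mul, Matrix.mul_smul, Matrix.vecMulVec_mul_vecMulVec, Matrix.vecMulVec_smul,
    smul_smul, smul_smul, show c * c * (v ⬝ᵥ v) = c + c by linarith, add_smul]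
  abel

/-- state preparation (Householder reflection) -/
theorem exists_orth_col (u : B → ℝ) (hu : ∑ β, u β ^ 2 = 1) (b0 : B) :
    ∃ U : Matrix B B ℝ, Uᵀ * U = 1 ∧ ∀ β, U β b0 = u β := by
  let v : B → ℝ := Pi.single b0 1 - u
  have hv : v ⬝ᵥ v = 2 * (1 - u b0) := by
    have : u ⬝ᵥ u = 1 := by simpa only [dotProduct, sq] using hu
    simp only [v, sub_dotProduct, dotProduct_sub, single_dotProduct, dotProduct_single, this,
      Pi.single_eq_same, Pi.sub_apply]
    ring
  by_cases h : 1 - u b0 = 0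
  · rw [h, mul_zero, dotProduct_self_eq_zero] at hv
    refine ⟨1, by simp, fun β => ?_⟩
    rw [← sub_eq_zero.1 hv, Matrix.one_apply, Pi.single_apply]
  · refine ⟨1 - (1 - u b0)⁻¹ • Matrix.vecMulVec v v, orth_refl v (by rw [hv]; field_simp; ring),
      fun β => ?_⟩
    simp only [Matrix.sub_apply, Matrix.smul_apply, Matrix.vecMulVec_apply, v, Pi.sub_apply,
      Pi.single_eq_same, smul_eq_mul, Matrix.one_apply, Pi.single_apply, if_true]
    field_simp
    ring

end Vale.Agent.P362
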