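import Vale.Agent.P362.QRl

/-! # P362: QFinal (see notes/P362.md) -/

namespace Vale.Agent.P362

open scoped BigOperators Matrix Kronecker

namespace QFin

variable {n m : ℕ}

/-- the resting embedding of a real vector -/
noncomputable def emb (i0 : Fin n) (v : Fin m → ℝ) : QB n m → ℂ :=
  fun q => if q.1 = i0 ∧ q.2.1 = false then (v q.2.2 : ℂ) else 0

/-- the embedding used at a query -/
noncomputable def rdy (i0 : Fin n) (lab : Fin m → Option (Fin n)) (v : Fin m → ℝ) : QB n m → ℂ :=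
  fun q => if q.1 = (lab q.2.2).getD i0 then
    ((sg (q.2.1 && (lab q.2.2).isSome) / √2 * v q.2.2 : ℝ) : ℂ) else 0

lemma oracle_mulVec (x : Fin n → Bool) (ψ : QB n m → ℂ) (q : QB n m) :
    (oracle x *ᵥ ψ) q = ψ (q.1, xor q.2.1 (x q.1), q.2.2) := by
  obtain ⟨i, b, z⟩ := q
  simp only [Matrix.mulVec, dotProduct, oracle, Matrix.of_apply]
  rw [Finset.sum_eq_single (i, xor b (x i), z)]
  · simp
  · rintro ⟨i', b', z'⟩ - hne
    rw [if_neg, zero_mul]
    intro h
    simp only [Prod.mk.injEq] at h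
    obtain ⟨rfl, rfl, rfl⟩ := h
    simp at hne
  · simp

lemma oracle_rdy (i0 : Fin n) (lab : Fin m → Option (Fin n)) (x : Fin n → Bool) (v : Fin m → ℝ) :
    oracle x *ᵥ rdy i0 lab v = rdy i0 lab (ph lab x *ᵥ v) := by
  funext q
  obtain ⟨i, b, z⟩ := q
  rw [oracle_mulVec]
  simp only [rdy, ph, Matrix.mulVec_diagonal]
  split_ifs with h
  · refine congrArg _ ?_
    cases hl : lab z with
    | none => simp
    | some j =>
      rw [hl, Option.getD_some] at h
      subst h
      cases b <;> cases hx : x i <;> simp [sg, hx] <;> ring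
  · rfl

/-- a real orthogonal matrix acting on the workspace -/
noncomputable def lift (U : Matrix (Fin m) (Fin m) ℝ) : Matrix (QB n m) (QB n m) ℂ :=
  (1 : Matrix (Fin n) (Fin n) ℂ) ⊗ₖ ((1 : Matrix Bool Bool ℂ) ⊗ₖ U.map Complex.ofRealHom)

lemma map_mem {Y : Type} [Fintype Y] [DecidableEq Y] {U : Matrix Y Y ℝ} (hU : Uᵀ * U = 1) :
    U.map Complex.ofRealHom ∈ Matrix.unitaryGroup Y ℂ := by
  rw [Matrix.mem_unitaryGroup_iff']
  have e : star (U.map Complex.ofRealHom) = Uᵀ.map Complex.ofRealHom := by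
    ext a b
    simp [Matrix.star_apply]
  rw [e, ← Matrix.map_mul, hU, Matrix.map_one _ (map_zero _) (map_one _)]

lemma lift_mem {U : Matrix (Fin m) (Fin m) ℝ} (hU : Uᵀ * U = 1) :
    lift U ∈ Matrix.unitaryGroup (QB n m) ℂ :=
  Matrix.kronecker_mem_unitary (one_mem _) (Matrix.kronecker_mem_unitary (one_mem _) (map_mem hU))

lemma lift_emb (i0 : Fin n) (U : Matrix (Fin m) (Fin m) ℝ) (v : Fin m → ℝ) :
    lift U *ᵥ emb i0 v = emb i0 (U *ᵥ v) := by
  funext q
  obtain ⟨i, b, z⟩ := q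
  simp only [Matrix.mulVec, dotProduct, lift, emb, Fintype.sum_prod_type, Matrix.kroneckerMap_apply,
    Matrix.one_apply, Matrix.map_apply]
  rw [Finset.sum_eq_single i, Finset.sum_eq_single b]
  · by_cases h : i = i0 ∧ b = false
    · simp [h]
    · simp only [if_neg h, mul_zero, Finset.sum_const_zero]
  · intro b' _ hb
    simp [hb.symm]
  · simp
  · intro i' _ hi
    simp [hi.symm]
  · simp

/-- the Hadamard matrix -/
noncomputable def had : Matrix Bool Bool ℝ := Matrix.of fun b c => sg (b && c) / √2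

lemma had_orth : hadᵀ * had = 1 := by
  have h : (√2)⁻¹ * (√2)⁻¹ = 1 / 2 := by
    rw [← mul_inv, Real.mul_self_sqrt (by norm_num), one_div]
  ext b c
  cases b <;> cases c <;> simp [had, sg, Matrix.mul_apply, div_eq_mul_inv, h] <;> norm_num

/-- the Hadamard matrix on the answer bit -/
noncomputable def hd : Matrix (QB n m) (QB n m) ℂ :=
  (1 : Matrix (Fin n) (Fin n) ℂ) ⊗ₖ (had.map Complex.ofRealHom ⊗ₖ (1 : Matrix (Fin m) (Fin m) ℂ))

lemma hd_mem : hd ∈ Matrix.unitaryGroup (QB n m) ℂ :=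
  Matrix.kronecker_mem_unitary (one_mem _)
    (Matrix.kronecker_mem_unitary (map_mem had_orth) (one_mem _))

lemma hd_mulVec (ψ : QB n m → ℂ) (i : Fin n) (b : Bool) (z : Fin m) :
    (hd *ᵥ ψ) (i, b, z) = ∑ c, ((sg (b && c) / √2 : ℝ) : ℂ) * ψ (i, c, z) := by
  simp only [Matrix.mulVec, dotProduct, hd, Fintype.sum_prod_type, Matrix.kroneckerMap_apply,
    Matrix.one_apply, Matrix.map_apply]
  rw [Finset.sum_eq_single i]
  · refine Finset.sum_congr rfl fun c _ => ?_
    rw [Finset.sum_eq_single z]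
    · simp [had]
    · intro z' _ hz
      simp [hz.symm]
    · simp
  · intro i' _ hi
    simp [hi.symm]
  · simp

/-- load the query index and the flag -/
def pr (i0 : Fin n) (lab : Fin m → Option (Fin n)) : Equiv.Perm (QB n m) :=
  Function.Involutive.toPerm
    (fun q => (Equiv.swap i0 ((lab q.2.2).getD i0) q.1, xor q.2.1 (lab q.2.2).isSome, q.2.2))
    fun q => by simp

lemma pr_apply (i0 : Fin n) (lab : Fin m → Option (Fin n)) (i : Fin n) (b : Bool) (z : Fin m) :
    pr i0 lab (i, b, z) = (Equiv.swap i0 ((lab z).getD i0) i, xor b (lab z).isSome, z) := rfl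

lemma perm_mem (σ : Equiv.Perm (QB n m)) : σ.permMatrix ℂ ∈ Matrix.unitaryGroup (QB n m) ℂ := by
  rw [Matrix.mem_unitaryGroup_iff', Matrix.star_eq_conjTranspose, Matrix.conjTranspose_permMatrix,
    ← Matrix.permMatrix_mul, mul_inv_cancel, Matrix.permMatrix_one]

lemma load_emb (i0 : Fin n) (lab : Fin m → Option (Fin n)) (v : Fin m → ℝ) :
    (hd * (pr i0 lab).permMatrix ℂ) *ᵥ emb i0 v = rdy i0 lab v := by
  funext q
  obtain ⟨i, b, z⟩ := q
  rw [← Matrix.mulVec_mulVec, hd_mulVec, Matrix.permMatrix_mulVec]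
  have e : Equiv.swap i0 ((lab z).getD i0) i = i0 ↔ i = (lab z).getD i0 := by
    rw [Equiv.swap_apply_eq_iff, Equiv.swap_apply_left]
  simp only [Function.comp, pr_apply, emb, rdy, e]
  by_cases h : i = (lab z).getD i0
  · rw [if_pos h, Finset.sum_eq_single (lab z).isSome]
    · simp [h]
    · intro c _ hc
      rw [if_neg, mul_zero]
      rintro ⟨-, h2⟩
      exact hc (by simpa using h2)
    · simp
  · simp [h]

lemma state_congr (init : QB n m) (out : QB n m → Bool) {U U' : ℕ → Matrix.unitaryGroup (QB n m) ℂ}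
    (x : Fin n → Bool) (t : ℕ) (h : ∀ s ≤ t, U s = U' s) :
    (QAlg.mk m init U out).state x t = (QAlg.mk m init U' out).state x t := by
  induction t with
  | zero => simp only [QAlg.state, h 0 le_rfl]
  | succ t ih => simp only [QAlg.state, h _ le_rfl, ih fun s hs => h s (by omega)]

lemma exists_alg (i0 : Fin n) (b0 : Fin m) (out : QB n m → Bool) {T : ℕ}
    {V : (Fin n → Bool) → Matrix (Fin m) (Fin m) ℝ} (h : Impl T V) :
    ∀ P : Matrix.unitaryGroup (QB n m) ℂ, ∃ U : ℕ → Matrix.unitaryGroup (QB n m) ℂ, ∀ x,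
      (QAlg.mk m (i0, false, b0) U out).state x T =
        (P : Matrix (QB n m) (QB n m) ℂ) *ᵥ emb i0 (V x *ᵥ Pi.single b0 1) := by
  induction h with
  | base U hU =>
    intro P
    refine ⟨fun _ => P * ⟨lift U, lift_mem hU⟩, fun x => ?_⟩
    have e : (Pi.single (i0, false, b0) 1 : QB n m → ℂ) = emb i0 (Pi.single b0 1) := by
      funext q
      obtain ⟨i, b, z⟩ := q
      by_cases h1 : i = i0 <;> by_cases h2 : z = b0 <;> cases b <;>
        simp [emb, h1, h2]
    simp only [QAlg.state, Submonoid.coe_mul]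
    rw [e, ← Matrix.mulVec_mulVec, lift_emb]
  | @step T V h lab U hU ih =>
    intro P
    obtain ⟨L, hL⟩ : ∃ L : Matrix.unitaryGroup (QB n m) ℂ,
        ∀ v, (L : Matrix (QB n m) (QB n m) ℂ) *ᵥ emb i0 v = rdy i0 lab v :=
      ⟨⟨_, mul_mem hd_mem (perm_mem (pr i0 lab))⟩, load_emb i0 lab⟩
    have hL' : ∀ v, ((L⁻¹ : Matrix.unitaryGroup (QB n m) ℂ) : Matrix (QB n m) (QB n m) ℂ) *ᵥ
        rdy i0 lab v = emb i0 v := fun v => by
      rw [← hL, Matrix.mulVec_mulVec, ← Submonoid.coe_mul, inv_mul_cancel, OneMemClass.coe_one,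
        Matrix.one_mulVec]
    obtain ⟨U', hU'⟩ := ih L
    refine ⟨Function.update U' (T + 1) (P * ⟨lift U, lift_mem hU⟩ * L⁻¹), fun x => ?_⟩
    have e := state_congr (i0, false, b0) out
      (U := Function.update U' (T + 1) (P * ⟨lift U, lift_mem hU⟩ * L⁻¹)) (U' := U') x T
      fun s hs => Function.update_of_ne (by omega) _ _
    simp only [QAlg.state, Function.update_self, Submonoid.coe_mul]
    rw [e, hU', hL, oracle_rdy, ← Matrix.mulVec_mulVec, hL', ← Matrix.mulVec_mulVec, lift_emb,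
      Matrix.mulVec_mulVec, Matrix.mulVec_mulVec]

end QFin

open QFin in
/-- from the internal framework to the standard model -/
theorem qcomputes_of_RlB {n : ℕ} (hn : 1 ≤ n) {T : ℕ} {p : (Fin n → Bool) → ℝ}
    {f : (Fin n → Bool) → Bool} (h : RlB T p) (h1 : ∀ x, f x = true → 2 / 3 ≤ p x)
    (h0 : ∀ x, f x = false → p x ≤ 1 / 3) : QComputes T f := by
  obtain ⟨B, _, _, b0, out, V, hV, hE⟩ := h
  obtain ⟨e⟩ : Nonempty (B ≃ Fin (Fintype.card B)) := ⟨Fintype.equivFin B⟩
  obtain ⟨U, hU⟩ := exists_alg (⟨0, hn⟩ : Fin n) (e b0) (fun q => out (e.symm q.2.2))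
    (hV.reindex e) 1
  refine ⟨QAlg.mk _ (⟨0, hn⟩, false, e b0) U fun q => out (e.symm q.2.2), fun x => ?_⟩
  have key : ∀ b, (QAlg.mk _ (⟨0, hn⟩, false, e b0) U fun q => out (e.symm q.2.2)).prob T x b =
      ∑ β, (V x β b0) ^ 2 * if out β = b then 1 else 0 := by
    intro b
    unfold QAlg.prob
    rw [hU, OneMemClass.coe_one, Matrix.one_mulVec, ← e.symm.sum_comp]
    simp only [Fintype.sum_prod_type]
    rw [Finset.sum_eq_single ⟨0, hn⟩, Finset.sum_eq_single false]
    · refine Finset.sum_congr rfl fun z _ => ?_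
      simp [emb]
    · intro c _ hc
      simp [emb, hc]
    · simp
    · intro i _ hi
      simp [emb, hi]
    · simp
  rw [key, ← hE x fun c => if c = f x then 1 else 0]
  cases hf : f x
  · have := h0 x hf
    simp only [Bool.true_eq_false, if_false, if_true]
    linarith
  · have := h1 x hf
    simp only [Bool.false_eq_true, if_false, if_true]
    linarith

end Vale.Agent.P362
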