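import Vale.Agent.P362.QCore

/-! # P362: QRl (see notes/P362.md) -/

namespace Vale.Agent.P362

open scoped BigOperators Matrix

theorem Impl.block {ι B C : Type} [Fintype B] [DecidableEq B] [Fintype C] [DecidableEq C] {T : ℕ}
    {V : C → (ι → Bool) → Matrix B B ℝ} (h : ∀ c, Impl T (V c)) :
    Impl T (fun x => Matrix.blockDiagonal (fun c => V c x)) := by
  refine ((Impl.sigma (B' := fun _ => B) h).reindex
    ((Equiv.sigmaEquivProd C B).trans (Equiv.prodComm C B))).congr fun x => ?_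
  rw [← Matrix.blockDiagonal'_submatrix_eq_blockDiagonal]
  rfl

theorem Impl.rows {ι B : Type} [Fintype B] [DecidableEq B] {T : ℕ}
    {V : (ι → Bool) → Matrix B B ℝ} (h : Impl T V) (π : B ≃ B) :
    Impl T (fun x => (V x).submatrix π id) := by
  refine (h.left (U := (1 : Matrix B B ℝ).submatrix π (Equiv.refl B)) ?_).congr fun x => ?_
  · rw [Matrix.transpose_submatrix, Matrix.submatrix_mul_equiv]
    simp
  · rw [Matrix.one_submatrix_mul]
    rfl

theorem Impl.sum_sq {ι B : Type} [Fintype B] [DecidableEq B] {T : ℕ}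
    {V : (ι → Bool) → Matrix B B ℝ} (h : Impl T V) (x : ι → Bool) (b : B) :
    ∑ β, V x β b ^ 2 = 1 := by
  simpa [Matrix.mul_apply, sq] using congrFun (congrFun (h.orth x) b) b

variable {ι : Type} {Ω Ω' : Type}

theorem Rl.mono {T T' : ℕ} {E : (ι → Bool) → (Ω → ℝ) → ℝ} (h : Rl T E) (hT : T ≤ T') :
    Rl T' E := by
  obtain ⟨B, _, _, b0, out, V, h1, h2⟩ := h
  exact ⟨B, _, _, b0, out, V, h1.mono hT, h2⟩

theorem Rl.comap {ι' : Type} (e : ι → ι') {T : ℕ} {E : (ι → Bool) → (Ω → ℝ) → ℝ}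
    (h : Rl T E) : Rl T (fun x' : ι' → Bool => E (x' ∘ e)) := by
  obtain ⟨B, _, _, b0, out, V, h1, h2⟩ := h
  exact ⟨B, _, _, b0, out, _, h1.comap e, fun x g => h2 _ g⟩

/-- input-independent randomness -/
theorem Rl.const {Z : Type} [Fintype Z] (p : Z → ℝ) (hp : ∀ z, 0 ≤ p z) (hp1 : ∑ z, p z = 1)
    (s : Z → Ω) : Rl (ι := ι) 0 (fun _ (g : Ω → ℝ) => ∑ z, p z * g (s z)) := by
  classical
  obtain ⟨z0, -⟩ : (Finset.univ : Finset Z).Nonempty :=
    Finset.nonempty_of_sum_ne_zero (hp1 ▸ one_ne_zero)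
  obtain ⟨U, h1, h2⟩ := exists_orth_col (fun z => Real.sqrt (p z))
    (by simp only [Real.sq_sqrt (hp _), hp1]) z0
  exact ⟨Z, _, _, z0, s, _, Impl.base U h1, fun x g => by simp only [h2, Real.sq_sqrt (hp _)]⟩

theorem Rl.map {T : ℕ} {E : (ι → Bool) → (Ω → ℝ) → ℝ} (h : Rl T E) (φ : Ω → Ω') :
    Rl T (fun x (g : Ω' → ℝ) => E x (fun ω => g (φ ω))) := by
  obtain ⟨B, _, _, b0, out, V, h1, h2⟩ := h
  exact ⟨B, _, _, b0, fun β => φ (out β), V, h1, fun x g => h2 _ _⟩

/-- sequential composition with classical control (deferred measurement) -/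
theorem Rl.bind {T1 T2 : ℕ} {E1 : (ι → Bool) → (Ω → ℝ) → ℝ}
    {E2 : Ω → (ι → Bool) → (Ω' → ℝ) → ℝ} (h1 : Rl T1 E1) (h2 : ∀ ω, Rl T2 (E2 ω)) :
    Rl (T1 + T2) (fun x (g : Ω' → ℝ) => E1 x (fun ω => E2 ω x g)) := by
  obtain ⟨B, _, _, b1, out1, V1, k1, e1⟩ := h1
  choose B2 i1 i2 b2 out2 V2 k2 e2 using fun β : B => h2 (out1 β)
  let t : B → Σ β, B2 β := fun β => ⟨β, b2 β⟩
  have s1 := ((Impl.block fun _ : Σ β, B2 β => k1).reindex (Equiv.prodComm _ _)).rows
    (Equiv.prodCongrLeft fun β => Equiv.swap (t b1) (t β))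
  have s2 := Impl.block fun _ : B => Impl.sigma k2
  refine ⟨(Σ β, B2 β) × B, _, _, (t b1, b1), fun p => out2 p.1.1 p.1.2, _, s1.mul s2,
    fun x g => ?_⟩
  have key : ∀ w β, (Matrix.blockDiagonal (fun _ : B => Matrix.blockDiagonal' fun c => V2 c x) *
      (Matrix.reindex (Equiv.prodComm _ _) (Equiv.prodComm _ _)
        (Matrix.blockDiagonal fun _ : Σ β, B2 β => V1 x)).submatrix
        (Equiv.prodCongrLeft fun β => Equiv.swap (t b1) (t β)) id) (w, β) (t b1, b1) =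
      Matrix.blockDiagonal' (fun c => V2 c x) w (t β) * V1 x β b1 := by
    intro w β
    rw [Matrix.mul_apply, Finset.sum_eq_single (t β, β)]
    · simp [Matrix.blockDiagonal_apply]
    · rintro ⟨w', β'⟩ - hne
      by_cases h : β = β'
      · subst h
        have : w' ≠ t β := fun h => hne (by rw [h])
        simp [Matrix.blockDiagonal_apply, Equiv.swap_apply_eq_iff, this]
      · simp [Matrix.blockDiagonal_apply, h]
    · simp
  beta_reduce
  rw [Fintype.sum_prod_type_right, e1]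
  refine Finset.sum_congr rfl fun β _ => ?_
  simp only [key]
  rw [e2, Finset.mul_sum, Fintype.sum_sigma, Finset.sum_eq_single β]
  · refine Finset.sum_congr rfl fun w _ => ?_
    rw [Matrix.blockDiagonal'_apply_eq]
    ring
  · intro β' _ hne
    refine Finset.sum_eq_zero fun w _ => ?_
    rw [Matrix.blockDiagonal'_apply_ne _ _ _ hne]
    ring
  · simp

theorem Rl.le {T : ℕ} {E : (ι → Bool) → (Ω → ℝ) → ℝ} (h : Rl T E) (x : ι → Bool)
    {g g' : Ω → ℝ} (hg : ∀ ω, g ω ≤ g' ω) : E x g ≤ E x g' := by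
  obtain ⟨B, _, _, b0, out, V, -, h2⟩ := h
  rw [h2, h2]
  exact Finset.sum_le_sum fun β _ => mul_le_mul_of_nonneg_left (hg _) (sq_nonneg _)

theorem Rl.const_eq {T : ℕ} {E : (ι → Bool) → (Ω → ℝ) → ℝ} (h : Rl T E) (x : ι → Bool)
    (c : ℝ) : E x (fun _ => c) = c := by
  obtain ⟨B, _, _, b0, out, V, h1, h2⟩ := h
  rw [h2, ← Finset.sum_mul, h1.sum_sq, one_mul]

theorem Rl.add {T : ℕ} {E : (ι → Bool) → (Ω → ℝ) → ℝ} (h : Rl T E) (x : ι → Bool)
    (g g' : Ω → ℝ) : E x (fun ω => g ω + g' ω) = E x g + E x g' := by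
  obtain ⟨B, _, _, b0, out, V, -, h2⟩ := h
  simp only [h2, mul_add, Finset.sum_add_distrib]

theorem Rl.smul {T : ℕ} {E : (ι → Bool) → (Ω → ℝ) → ℝ} (h : Rl T E) (x : ι → Bool)
    (c : ℝ) (g : Ω → ℝ) : E x (fun ω => c * g ω) = c * E x g := by
  obtain ⟨B, _, _, b0, out, V, -, h2⟩ := h
  simp only [h2, Finset.mul_sum, mul_left_comm]

theorem Det.query (i : ι) : Det 1 (fun x : ι → Bool => x i) := by
  obtain ⟨r, hr⟩ : ∃ r : ℝ, r * r = 1 / 2 := ⟨_, Real.mul_self_sqrt (by norm_num)⟩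
  let H : Matrix Bool Bool ℝ := Matrix.of fun a b => if a && b then -r else r
  have hH : Hᵀ * H = 1 := by
    ext a b
    cases a <;> cases b <;> simp [H, Matrix.mul_apply] <;> linarith
  refine ⟨Bool, _, _, false, id, _,
    Impl.step (Impl.base H hH) (fun b => if b then some i else none) H hH, fun x g => ?_⟩
  have h4 : (r * r + r * r) ^ 2 = 1 := by rw [hr]; norm_num
  cases h : x i <;> simp [H, Matrix.mul_apply, ph, Matrix.diagonal_apply, sg, h, h4]

theorem Rl.toRlB {T : ℕ} {E : (ι → Bool) → (Bool → ℝ) → ℝ} (h : Rl T E) :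
    RlB T (fun x => E x ind) := by
  have : E = fun x g => E x ind * g true + (1 - E x ind) * g false := by
    funext x g
    have h1 : g = fun b => (g true - g false) * ind b + g false := by
      funext b; cases b <;> simp [ind]
    conv_lhs => rw [h1, h.add, h.smul, h.const_eq]
    ring
  rw [RlB, ← this]
  exact h

theorem RlB.nonneg {T : ℕ} {p : (ι → Bool) → ℝ} (h : RlB T p) (x : ι → Bool) : 0 ≤ p x := by
  have := Rl.le h x (g := fun _ => 0) (g' := ind) fun b => by cases b <;> simp [ind]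
  simpa [ind] using this

theorem RlB.le_one {T : ℕ} {p : (ι → Bool) → ℝ} (h : RlB T p) (x : ι → Bool) : p x ≤ 1 := by
  have := Rl.le h x (g := ind) (g' := fun _ => 1) fun b => by cases b <;> simp [ind]
  simpa [ind] using this

end Vale.Agent.P362
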