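import Vale.Agent.P362.QComb

/-! # P362: Tourn (see notes/P362.md) -/

namespace Vale.Agent.P362

open scoped BigOperators Matrix

section
variable {ι C : Type} [Fintype C] [DecidableEq C]

theorem rlB_zero (T : ℕ) : RlB (ι := ι) T (fun _ => 0) := by
  have := ((Det.const (ι := ι) false).toRlB).mono (Nat.zero_le T)
  simpa [ind] using this

/-- one round of the tournament, as an expectation functional -/
noncomputable def rd (w : C → ℝ) (κ : ℝ) (L : Finset C) (g : Finset C → ℝ) : ℝ :=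
  κ * (∑ c, (1 / (Fintype.card C : ℝ)) * (w c * g (insert c L))) +
    (1 - κ * (∑ c, (1 / (Fintype.card C : ℝ)) * w c)) * g L

theorem exists_round [Nonempty C] {T : ℕ} (w : C → (ι → Bool) → ℝ) (hw : ∀ c, RlB T (w c))
    (L : Finset C) (J : ℕ) (hJ : 1 ≤ J) :
    ∃ κ : (ι → Bool) → ℝ, (∀ x, 0 ≤ κ x) ∧
      (∀ x, κ x * (∑ c, (1 / (Fintype.card C : ℝ)) * w c x) ≤ 1) ∧
      (∀ x, 1 ≤ (J : ℝ) ^ 2 * (∑ c, (1 / (Fintype.card C : ℝ)) * w c x) →
        1 / 4 ≤ κ x * (∑ c, (1 / (Fintype.card C : ℝ)) * w c x)) ∧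
      Rl (2 * J * T) (fun x g => rd (fun c => w c x) (κ x) L g) := by
  have hM : (0 : ℝ) < Fintype.card C := by exact_mod_cast Fintype.card_pos
  have h0 := Rl.const (ι := ι) (Ω := C) (fun _ : C => 1 / (Fintype.card C : ℝ))
    (fun _ => by positivity) (by simp) id
  have h1 := Rl.bind h0 (fun c => Rl.map (hw c) (fun b => (c, b)))
  rw [zero_add] at h1
  obtain ⟨κ, hκ0, hκ, hR⟩ := h1.amp (fun ω => ω.2) J hJ
  have ha : ∀ x, (∑ c, (1 / (Fintype.card C : ℝ)) *
      (w c x * ind true + (1 - w c x) * ind false)) =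
      ∑ c, (1 / (Fintype.card C : ℝ)) * w c x := by
    intro x; simp [ind]
  refine ⟨κ, hκ0, fun x => ?_, fun x hx => ?_, ?_⟩
  · have h2 := hR.le x (g := fun _ => 0) (g' := fun o => if o = none then 1 else 0)
      (fun o => by split_ifs <;> norm_num)
    rw [hR.const_eq x 0] at h2
    simp only [id, ha] at h2
    simp at h2
    simpa using h2
  · have := hκ x (by simpa only [id, ha] using hx)
    simpa only [id, ha] using this
  · have h3 := hR.map (fun o => o.elim L (fun ω => insert ω.1 L))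
    convert h3 using 3 with x g
    simp only [id, ha, rd, Option.elim]
    simp [ind]

theorem rd_mono {w : C → ℝ} {κ : ℝ} (hw : ∀ c, 0 ≤ w c) (hκ : 0 ≤ κ)
    (h1 : κ * (∑ c, (1 / (Fintype.card C : ℝ)) * w c) ≤ 1) {L : Finset C}
    {g g' : Finset C → ℝ} (h : ∀ L', L'.card ≤ L.card + 1 → g L' ≤ g' L') :
    rd w κ L g ≤ rd w κ L g' := by
  unfold rd
  have hL : g L ≤ g' L := h L (by omega)
  have h2 : ∑ c, (1 / (Fintype.card C : ℝ)) * (w c * g (insert c L)) ≤
      ∑ c, (1 / (Fintype.card C : ℝ)) * (w c * g' (insert c L)) := by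
    refine Finset.sum_le_sum fun c _ => ?_
    have := h (insert c L) (Finset.card_insert_le _ _)
    have := hw c
    gcongr
  have h3 : 0 ≤ 1 - κ * (∑ c, (1 / (Fintype.card C : ℝ)) * w c) := by linarith
  gcongr

theorem pair_sum_le (w : C → ℝ) (hw : ∀ c, 0 ≤ w c) (p : C → C → ℝ)
    (hp : ∀ c c', p c c' + p c' c ≤ 1) :
    ∑ c, w c * ∑ c', w c' * p c' c ≤ (∑ c, w c) ^ 2 / 2 := by
  have h1 : ∑ c, w c * ∑ c', w c' * p c' c = ∑ c, ∑ c', w c * w c' * p c' c := by
    refine Finset.sum_congr rfl fun c _ => ?_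
    rw [Finset.mul_sum]; exact Finset.sum_congr rfl fun c' _ => by ring
  have h2 : ∑ c, ∑ c', w c * w c' * p c' c = ∑ c, ∑ c', w c * w c' * p c c' := by
    rw [Finset.sum_comm]; exact Finset.sum_congr rfl fun c _ =>
      Finset.sum_congr rfl fun c' _ => by ring
  have h3 : (∑ c, w c) ^ 2 = ∑ c, ∑ c', w c * w c' := by
    rw [sq, Finset.sum_mul_sum]
  have h4 : ∑ c, ∑ c', w c * w c' * p c' c + ∑ c, ∑ c', w c * w c' * p c c' ≤
      ∑ c, ∑ c', w c * w c' := by
    rw [← Finset.sum_add_distrib]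
    refine Finset.sum_le_sum fun c _ => ?_
    rw [← Finset.sum_add_distrib]
    refine Finset.sum_le_sum fun c' _ => ?_
    have := hp c c'
    have := mul_nonneg (hw c) (hw c')
    nlinarith
  rw [h1, h3]; linarith

theorem rd_pot [Nonempty C] (p : C → C → ℝ) (hp0 : ∀ c c', 0 ≤ p c c')
    (hp : ∀ c c', p c c' + p c' c ≤ 1) (hpp : ∀ c, p c c = 0) (c0 : C) (L : Finset C) (κ : ℝ)
    (hκ0 : 0 ≤ κ)
    (hκ : c0 ∉ L → 1 / 4 ≤ κ * (∑ c, (1 / (Fintype.card C : ℝ)) * ∏ c' ∈ L, p c c')) :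
    rd (fun c => ∏ c' ∈ L, p c c') κ L
        (fun L' => if c0 ∈ L' then 0 else ∑ c, ∏ c' ∈ L', p c c') ≤
      7 / 8 * (if c0 ∈ L then 0 else ∑ c, ∏ c' ∈ L, p c c') := by
  have hM : (0 : ℝ) < Fintype.card C := by exact_mod_cast Fintype.card_pos
  unfold rd
  by_cases h0 : c0 ∈ L
  · simp [h0]
  · have hκ' := hκ h0
    simp only [h0, if_false]
    set w : C → ℝ := fun c => ∏ c' ∈ L, p c c' with hw
    have hw0 : ∀ c, 0 ≤ w c := fun c => Finset.prod_nonneg fun c' _ => hp0 c c'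
    have hW : 0 ≤ ∑ c, w c := Finset.sum_nonneg fun c _ => hw0 c
    have h1 : ∀ c, w c * (if c0 ∈ insert c L then 0 else ∑ c'', ∏ c' ∈ insert c L, p c'' c') ≤
        w c * ∑ c'', w c'' * p c'' c := by
      intro c
      by_cases hc : c ∈ L
      · have : w c = 0 := Finset.prod_eq_zero hc (hpp c)
        simp [this]
      · refine mul_le_mul_of_nonneg_left ?_ (hw0 c)
        split_ifs
        · exact Finset.sum_nonneg fun c'' _ => mul_nonneg (hw0 c'') (hp0 _ _)
        · refine le_of_eq (Finset.sum_congr rfl fun c'' _ => ?_)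
          rw [Finset.prod_insert hc, mul_comm]
    have h2 : ∑ c, (1 / (Fintype.card C : ℝ)) * (w c *
        (if c0 ∈ insert c L then 0 else ∑ c'', ∏ c' ∈ insert c L, p c'' c')) ≤
        (1 / (Fintype.card C : ℝ)) * ((∑ c, w c) ^ 2 / 2) := by
      rw [← Finset.mul_sum]
      refine mul_le_mul_of_nonneg_left ?_ (by positivity)
      exact (Finset.sum_le_sum fun c _ => h1 c).trans (pair_sum_le w hw0 p hp)
    rw [← Finset.mul_sum] at hκ'
    rw [← Finset.mul_sum (f := w)]
    have h3 := mul_le_mul_of_nonneg_left h2 hκ0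
    have h4 : κ * ((1 / (Fintype.card C : ℝ)) * ((∑ c, w c) ^ 2 / 2)) =
        (κ * ((1 / (Fintype.card C : ℝ)) * ∑ c, w c)) * (∑ c, w c) / 2 := by ring
    nlinarith [mul_le_mul_of_nonneg_right hκ' hW]

/-- iterated rounds -/
noncomputable def iter (Rd : Finset C → (Finset C → ℝ) → ℝ) : ℕ → (Finset C → ℝ) → ℝ
  | 0 => fun g => g ∅
  | s + 1 => fun g => iter Rd s (fun L => Rd L g)

end

theorem one_sub_prod_le {C : Type} (L : Finset C) (v : C → ℝ) (h0 : ∀ c, 0 ≤ v c)
    (h1 : ∀ c, v c ≤ 1) : 1 - ∏ c ∈ L, (1 - v c) ≤ ∑ c ∈ L, v c := by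
  classical
  induction L using Finset.induction_on with
  | empty => simp
  | insert c L hc ih =>
    rw [Finset.prod_insert hc, Finset.sum_insert hc]
    have h2 : ∏ c ∈ L, (1 - v c) ≤ 1 :=
      Finset.prod_le_one (fun c _ => by linarith [h1 c]) (fun c _ => by linarith [h0 c])
    nlinarith [h0 c]

/-- the quantum tournament -/
theorem tournament {ι C : Type} [Fintype C] [DecidableEq C] [Nonempty C]
    (τ : C → C → (ι → Bool) → ℝ) (ν : C → (ι → Bool) → ℝ) (T0 T1 t J : ℕ) (δ0 δ1 : ℝ)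
    (hτ : ∀ c c', RlB T0 (τ c c')) (hν : ∀ c, RlB T1 (ν c)) (f : (ι → Bool) → Bool)
    (h0 : ∀ x, f x = false → ∀ c, ν c x ≤ δ1)
    (h1 : ∀ x, f x = true → ∃ c, 1 - δ0 ≤ ν c x ∧
      ∀ c', c' ≠ c → 1 - δ0 ≤ τ c c' x ∧ τ c' c x = 0)
    (hδ0 : 0 ≤ δ0) (hδ1 : 0 ≤ δ1) (ht0 : ((t : ℝ) + 1) * δ0 ≤ 1 / 12)
    (ht1 : (t : ℝ) * δ1 ≤ 1 / 3) (hJ : 2 * Fintype.card C ≤ J ^ 2)
    (ht : 2 * (Fintype.card C : ℝ) * (7 / 8) ^ t ≤ 1 / 12) :
    ∃ p : (ι → Bool) → ℝ, RlB (t * (2 * J * (t * T0)) + t * T1) p ∧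
      (∀ x, f x = true → 2 / 3 ≤ p x) ∧ ∀ x, f x = false → p x ≤ 1 / 3 := by
  have hMn : 0 < Fintype.card C := Fintype.card_pos
  have hM : (0 : ℝ) < Fintype.card C := by exact_mod_cast hMn
  have hJ1 : 1 ≤ J := by
    rcases Nat.eq_zero_or_pos J with h | h
    · subst h; simp at hJ
    · exact h
  let e := Fintype.equivFin C
  let p : C → C → (ι → Bool) → ℝ := fun c c' x =>
    if e c < e c' then τ c c' x else if e c' < e c then 1 - τ c' c x else 0
  have hpR : ∀ c c', RlB T0 (p c c') := by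
    intro c c'
    by_cases h : e c < e c'
    · simpa only [p, h, if_true] using hτ c c'
    · by_cases h' : e c' < e c
      · simpa only [p, h, h', if_true, if_false] using (hτ c' c).not
      · simpa only [p, h, h', if_false] using rlB_zero T0
  have hp0 : ∀ x c c', 0 ≤ p c c' x := fun x c c' => (hpR c c').nonneg x
  have hp1 : ∀ x c c', p c c' x + p c' c x ≤ 1 := by
    intro x c c'
    rcases lt_trichotomy (e c) (e c') with h | h | h
    · simp [p, h, not_lt.mpr h.le]
    · simp [p, h]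
    · simp [p, h, not_lt.mpr h.le]
  have hpp : ∀ x c, p c c x = 0 := fun x c => by simp [p]
  have hround : ∀ L : Finset C, ∃ κ : (ι → Bool) → ℝ, (∀ x, 0 ≤ κ x) ∧
      (∀ x, κ x * (∑ c, (1 / (Fintype.card C : ℝ)) * ∏ c' ∈ L, p c c' x) ≤ 1) ∧
      (∀ x, L.card ≤ t → 1 ≤ (J : ℝ) ^ 2 *
          (∑ c, (1 / (Fintype.card C : ℝ)) * ∏ c' ∈ L, p c c' x) →
        1 / 4 ≤ κ x * (∑ c, (1 / (Fintype.card C : ℝ)) * ∏ c' ∈ L, p c c' x)) ∧
      Rl (2 * J * (t * T0)) (fun x g => rd (fun c => ∏ c' ∈ L, p c c' x) (κ x) L g) := by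
    intro L
    by_cases hL : L.card ≤ t
    · obtain ⟨κ, a1, a2, a3, a4⟩ := exists_round (T := t * T0) (fun c x => ∏ c' ∈ L, p c c' x)
        (fun c => (RlB.prod L (fun c' _ => hpR c c')).mono (Nat.mul_le_mul_right _ hL)) L J hJ1
      exact ⟨κ, a1, a2, fun x _ => a3 x, a4⟩
    · refine ⟨fun _ => 0, fun _ => le_rfl, fun _ => by simp, fun _ h => absurd h hL, ?_⟩
      have := (Det.const (ι := ι) L).mono (Nat.zero_le (2 * J * (t * T0)))
      simpa [Det, rd] using this
  choose κ hκ0 hκ1 hκ2 hκR using hround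
  let Rd : (ι → Bool) → Finset C → (Finset C → ℝ) → ℝ :=
    fun x L g => rd (fun c => ∏ c' ∈ L, p c c' x) (κ L x) L g
  have hit : ∀ s, Rl (s * (2 * J * (t * T0))) (fun x g => iter (Rd x) s g) := by
    intro s
    induction s with
    | zero => simpa [Det, iter] using Det.const (ι := ι) (∅ : Finset C)
    | succ s ih =>
      have := Rl.bind ih hκR
      rw [Nat.succ_mul]
      exact this
  have hmono : ∀ x s (g g' : Finset C → ℝ), (∀ L, L.card ≤ s → g L ≤ g' L) →
      iter (Rd x) s g ≤ iter (Rd x) s g' := by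
    intro x s
    induction s with
    | zero => intro g g' h; exact h ∅ (by simp)
    | succ s ih =>
      intro g g' h
      refine ih _ _ fun L hL => ?_
      exact rd_mono (fun c => Finset.prod_nonneg fun c' _ => hp0 x c c') (hκ0 L x) (hκ1 L x)
        fun L' hL' => h L' (by omega)
  let acc : Finset C → (ι → Bool) → ℝ := fun L x =>
    if L.card ≤ t then 1 - ∏ c ∈ L, (1 - ν c x) else 0
  have hacc : ∀ L, RlB (t * T1) (acc L) := by
    intro L
    by_cases hL : L.card ≤ t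
    · simpa only [acc, hL, if_true] using
        ((RlB.prod L (fun c _ => (hν c).not)).not).mono (Nat.mul_le_mul_right _ hL)
    · simpa only [acc, hL, if_false] using rlB_zero (t * T1)
  refine ⟨_, RlB.mix (hit t) hacc, fun x hx => ?_, fun x hx => ?_⟩
  · obtain ⟨c0, hc0, hk⟩ := h1 x hx
    have htd : (t : ℝ) * δ0 ≤ 1 / 12 := by nlinarith
    have hd : δ0 ≤ 1 / 12 := by nlinarith [(Nat.cast_nonneg t : (0 : ℝ) ≤ t)]
    have hking : ∀ c', c' ≠ c0 → 1 - δ0 ≤ p c0 c' x := by
      intro c' hc'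
      rcases lt_trichotomy (e c0) (e c') with h | h | h
      · simpa [p, h] using (hk c' hc').1
      · exact absurd (e.injective h).symm hc'
      · simp [p, h, not_lt.mpr h.le, (hk c' hc').2, hδ0]
    have hW : ∀ L : Finset C, L.card ≤ t → c0 ∉ L → 1 / 2 ≤ ∑ c, ∏ c' ∈ L, p c c' x := by
      intro L hL hc
      have a1 : ∏ c' ∈ L, p c0 c' x ≤ ∑ c, ∏ c' ∈ L, p c c' x :=
        Finset.single_le_sum (f := fun c => ∏ c' ∈ L, p c c' x)
          (fun c _ => Finset.prod_nonneg fun c' _ => hp0 x c c') (Finset.mem_univ c0)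
      have a2 : ∏ _c' ∈ L, (1 - δ0) ≤ ∏ c' ∈ L, p c0 c' x :=
        Finset.prod_le_prod (fun _ _ => by linarith)
          (fun c' hc' => hking c' (fun h => hc (h ▸ hc')))
      have a3 := one_sub_prod_le L (fun _ => δ0) (fun _ => hδ0) (fun _ => by linarith)
      have a4 : ∑ _c ∈ L, δ0 ≤ 1 / 12 := by
        rw [Finset.sum_const, nsmul_eq_mul]
        have : (L.card : ℝ) ≤ t := by exact_mod_cast hL
        nlinarith
      linarith
    let Φ : Finset C → ℝ := fun L' => if c0 ∈ L' then 0 else ∑ c, ∏ c' ∈ L', p c c' x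
    have hpot : ∀ s, s ≤ t → iter (Rd x) s Φ ≤ (7 / 8) ^ s * Fintype.card C := by
      intro s
      induction s with
      | zero => intro _; simp [iter, Φ]
      | succ s ih =>
        intro hs
        have b1 : iter (Rd x) s (fun L => Rd x L Φ) ≤ iter (Rd x) s (fun L => 7 / 8 * Φ L) := by
          refine hmono x s _ _ fun L hL => ?_
          refine rd_pot (fun c c' => p c c' x) (hp0 x) (hp1 x) (hpp x) c0 L _ (hκ0 L x)
            fun hc => hκ2 L x (by omega) ?_
          rw [← Finset.mul_sum]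
          have b2 := hW L (by omega) hc
          have b3 : 2 * (Fintype.card C : ℝ) ≤ (J : ℝ) ^ 2 := by exact_mod_cast hJ
          have b4 : (J : ℝ) ^ 2 * (1 / (Fintype.card C : ℝ) * ∑ c, ∏ c' ∈ L, p c c' x) =
              (J : ℝ) ^ 2 / (Fintype.card C : ℝ) * ∑ c, ∏ c' ∈ L, p c c' x := by ring
          have b5 : 2 ≤ (J : ℝ) ^ 2 / (Fintype.card C : ℝ) := by rw [le_div_iff₀ hM]; exact b3
          rw [b4]; nlinarith
        have b6 := (hit s).smul x (7 / 8) Φ
        have b7 := ih (by omega)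
        show iter (Rd x) s (fun L => Rd x L Φ) ≤ _
        rw [pow_succ]; nlinarith
    have c1 : iter (Rd x) t (fun L => 11 / 12 + (-2) * Φ L) ≤ iter (Rd x) t (fun L => acc L x) := by
      refine hmono x t _ _ fun L hL => ?_
      simp only [acc, hL, if_true, Φ]
      have hle : ∏ c ∈ L, (1 - ν c x) ≤ 1 :=
        Finset.prod_le_one (fun c _ => by linarith [(hν c).le_one x])
          (fun c _ => by linarith [(hν c).nonneg x])
      split_ifs with hc
      · have : ∏ c ∈ L, (1 - ν c x) ≤ 1 - ν c0 x := by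
          rw [← Finset.mul_prod_erase L _ hc]
          have d1 : ∏ c ∈ L.erase c0, (1 - ν c x) ≤ 1 :=
            Finset.prod_le_one (fun c _ => by linarith [(hν c).le_one x])
              (fun c _ => by linarith [(hν c).nonneg x])
          have d2 : 0 ≤ 1 - ν c0 x := by linarith [(hν c0).le_one x]
          nlinarith
        linarith
      · have := hW L hL hc
        linarith
    have c2 := (hit t).add x (fun _ => 11 / 12) (fun L => (-2) * Φ L)
    have c3 := (hit t).smul x (-2) Φ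
    have c4 := (hit t).const_eq x (11 / 12)
    have c5 := hpot t le_rfl
    show 2 / 3 ≤ iter (Rd x) t (fun L => acc L x)
    nlinarith
  · have c1 : iter (Rd x) t (fun L => acc L x) ≤ iter (Rd x) t (fun _ => 1 / 3) := by
      refine hmono x t _ _ fun L hL => ?_
      simp only [acc, hL, if_true]
      have a3 := one_sub_prod_le L (fun c => ν c x) (fun c => (hν c).nonneg x)
        (fun c => (hν c).le_one x)
      have a4 : ∑ c ∈ L, ν c x ≤ ∑ _c ∈ L, δ1 := Finset.sum_le_sum fun c _ => h0 x hx c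
      rw [Finset.sum_const, nsmul_eq_mul] at a4
      have : (L.card : ℝ) ≤ t := by exact_mod_cast hL
      nlinarith
    have c4 := (hit t).const_eq x (1 / 3)
    show iter (Rd x) t (fun L => acc L x) ≤ 1 / 3
    linarith

end Vale.Agent.P362
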